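import Crest.Agent.N325.M0.SubQ

/-!
# N325 / Sg (helper51): growth classes for the parameters of the tower

`Ty` (at most exponential in the level) `⊆ QP` (quasi-polylogarithmic) `⊆ SubL` (may be paid once
per level) `⊆ SubQ ⊆ PolyB` (polynomially bounded).  All classes are closed under `fun_prop`.
-/

set_option autoImplicit false

namespace Crest.Agent.N325

open Filter

/-- at most exponential in the level -/
@[fun_prop] def Ty (e : ℕ → ℕ) : Prop := ∃ c, ∀ᶠ N in atTop, e N ≤ 2 ^ (c * lev N)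
/-- quasi-polylogarithmic -/
@[fun_prop] def QP (a : ℕ → ℕ) : Prop :=
  ∃ c, ∀ᶠ N in atTop, a N ≤ (Nat.log 2 N + 2) ^ 2 ^ (c * lev N)
/-- a loss that may be paid on every level -/
@[fun_prop] def SubL (G : ℕ → ℕ) : Prop := SubQ fun N => (G N + 2) ^ lev N
/-- polynomially bounded -/
@[fun_prop] def PolyB (G : ℕ → ℕ) : Prop := ∃ c, ∀ᶠ N in atTop, G N ≤ (N + 2) ^ c

attribute [fun_prop] SubQ SubQ.const SubQ.add SubQ.mul SubQ.pow SubQ.max SubQ.log SubQ.lev
  SubQ.rt_lev

variable {G H e e' : ℕ → ℕ}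

theorem two_pow_lev_mono {c c' : ℕ} (h : c ≤ c') (N : ℕ) : 2 ^ (c * lev N) ≤ 2 ^ (c' * lev N) :=
  Nat.pow_le_pow_right two_pos (Nat.mul_le_mul_right _ h)

namespace Ty

theorem of_eventually (h : Ty e') (k : ∀ᶠ N in atTop, e N ≤ e' N) : Ty e := by
  obtain ⟨c, h⟩ := h
  exact ⟨c, by filter_upwards [h, k] with N h1 h2 using h2.trans h1⟩

theorem mono (h : Ty e') (k : ∀ N, e N ≤ e' N) : Ty e := h.of_eventually (.of_forall k)

@[fun_prop] theorem const (c : ℕ) : Ty fun _ => c :=
  ⟨c, .of_forall fun N => Nat.lt_two_pow_self.le.trans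
    (Nat.pow_le_pow_right two_pos (Nat.le_mul_of_pos_right _ (lev_pos N)))⟩

@[fun_prop] theorem lev : Ty N325.lev :=
  ⟨1, .of_forall fun N => by rw [one_mul]; exact Nat.lt_two_pow_self.le⟩

@[fun_prop] theorem mul (g : Ty e) (h : Ty e') : Ty fun N => e N * e' N := by
  obtain ⟨c, g⟩ := g; obtain ⟨d, h⟩ := h
  refine ⟨c + d, ?_⟩
  filter_upwards [g, h] with N h1 h2
  rw [add_mul, pow_add]; exact Nat.mul_le_mul h1 h2

@[fun_prop] theorem add (g : Ty e) (h : Ty e') : Ty fun N => e N + e' N := by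
  obtain ⟨c, g⟩ := g; obtain ⟨d, h⟩ := h
  refine ⟨c + d + 1, ?_⟩
  filter_upwards [g, h] with N h1 h2
  have a1 := two_pow_lev_mono (Nat.le_add_right c d) N
  have a2 := two_pow_lev_mono (Nat.le_add_left d c) N
  have a3 : 2 ^ 1 ≤ 2 ^ N325.lev N := Nat.pow_le_pow_right two_pos (lev_pos N)
  rw [add_mul _ 1, one_mul, pow_add]
  nlinarith

@[fun_prop] theorem pow (g : Ty e) (c : ℕ) : Ty fun N => e N ^ c := by
  induction c with
  | zero => simpa using const 1
  | succ c ih => simpa only [pow_succ] using ih.mul g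

theorem two_pow_lev (c : ℕ) : Ty fun N => 2 ^ (c * N325.lev N) := ⟨c, .of_forall fun _ => le_rfl⟩

end Ty

namespace QP

theorem of_eventually (h : QP H) (k : ∀ᶠ N in atTop, G N ≤ H N) : QP G := by
  obtain ⟨c, h⟩ := h
  exact ⟨c, by filter_upwards [h, k] with N h1 h2 using h2.trans h1⟩

theorem mono (h : QP H) (k : ∀ N, G N ≤ H N) : QP G := h.of_eventually (.of_forall k)

/-- powers with a tiny exponent -/
@[fun_prop] theorem pow (g : QP G) (h : Ty e) : QP fun N => G N ^ e N := by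
  obtain ⟨c, g⟩ := g; obtain ⟨d, h⟩ := h
  refine ⟨c + d, ?_⟩
  filter_upwards [g, h] with N h1 h2
  rw [add_mul, pow_add, pow_mul]
  exact (Nat.pow_le_pow_left h1 _).trans (Nat.pow_le_pow_right (by positivity) h2)

theorem log2 : QP fun N => Nat.log 2 N + 2 := ⟨0, .of_forall fun N => by simp⟩

@[fun_prop] theorem log : QP fun N => Nat.log 2 N := log2.mono fun _ => Nat.le_add_right _ _

theorem two_pow (h : Ty e) : QP fun N => 2 ^ e N :=
  (log2.mono fun _ => Nat.le_add_left _ _).pow h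

theorem _root_.Crest.Agent.N325.Ty.qp (h : Ty e) : QP e :=
  (two_pow h).mono fun _ => Nat.lt_two_pow_self.le

@[fun_prop] theorem const (c : ℕ) : QP fun _ => c := (Ty.const c).qp

@[fun_prop] theorem lev : QP N325.lev := Ty.lev.qp

@[fun_prop] theorem mul (g : QP G) (h : QP H) : QP fun N => G N * H N := by
  obtain ⟨c, g⟩ := g; obtain ⟨d, h⟩ := h
  refine ⟨c + d + 1, ?_⟩
  filter_upwards [g, h] with N h1 h2
  have a1 := two_pow_lev_mono (Nat.le_add_right c d) N
  have a2 := two_pow_lev_mono (Nat.le_add_left d c) N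
  have a3 : 2 ^ 1 ≤ 2 ^ N325.lev N := Nat.pow_le_pow_right two_pos (lev_pos N)
  refine (Nat.mul_le_mul h1 h2).trans ?_
  rw [← pow_add]
  refine Nat.pow_le_pow_right (by positivity) ?_
  rw [add_mul (c + d) 1, one_mul, pow_add 2 ((c + d) * _)]
  have := Nat.mul_le_mul_left (2 ^ ((c + d) * N325.lev N)) a3
  omega

@[fun_prop] theorem add (g : QP G) (h : QP H) : QP fun N => G N + H N := by
  have k : ∀ {G : ℕ → ℕ}, QP G → QP fun N => G N + 1 := fun {G} ⟨c, g⟩ =>
    (QP.mul (const 2) ⟨c, .of_forall fun _ => le_rfl⟩).of_eventually (g.mono fun N h => by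
      have : 0 < (Nat.log 2 N + 2) ^ 2 ^ (c * N325.lev N) := by positivity
      omega)
  exact ((k g).mul (k h)).mono fun N => by nlinarith [Nat.zero_le (G N * H N)]

theorem log_of (h : PolyB G) : QP fun N => Nat.log 2 (G N) := by
  obtain ⟨c, h⟩ := h
  refine ((const c).mul log2).of_eventually (h.mono fun N h => ?_)
  refine (Nat.log_mono_right (h.trans (?_ : _ ≤ 2 ^ (c * (Nat.log 2 N + 2))))).trans
    (Nat.log_pow one_lt_two _).le
  rw [mul_comm, pow_mul]
  refine Nat.pow_le_pow_left ?_ c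
  have := Nat.lt_pow_succ_log_self one_lt_two N
  have h2 : 0 < 2 ^ Nat.log 2 N := by positivity
  rw [pow_succ] at this
  rw [pow_add]; omega

theorem size_of (h : PolyB G) : QP fun N => Nat.size (G N) :=
  ((log_of h).add (const 1)).mono fun _ =>
    Nat.size_le.2 (Nat.lt_pow_succ_log_self one_lt_two _)

theorem clog_of (h : PolyB G) : QP fun N => Nat.clog 2 (G N) :=
  ((log_of h).add (const 1)).mono fun _ => clog_le_log_add _

end QP

namespace SubL

theorem of_eventually (h : SubL H) (k : ∀ᶠ N in atTop, G N ≤ H N) : SubL G :=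
  SubQ.of_eventually h (k.mono fun _ h => Nat.pow_le_pow_left (Nat.add_le_add_right h 2) _)

theorem mono (h : SubL H) (k : ∀ N, G N ≤ H N) : SubL G := h.of_eventually (.of_forall k)

theorem subQ (h : SubL G) : SubQ G := SubQ.mono h fun N _ =>
  (Nat.le_add_right _ 2).trans (Nat.le_self_pow (Nat.ne_of_gt (lev_pos N)) _)

theorem pow_lev (h : SubL G) : SubQ fun N => G N ^ lev N :=
  SubQ.mono h fun _ _ => Nat.pow_le_pow_left (Nat.le_add_right _ _) _

theorem _root_.Crest.Agent.N325.QP.subL (h : QP G) : SubL G := by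
  obtain ⟨c, h⟩ := (h.add (QP.const 2)).pow Ty.lev
  refine (SubQ.polylog_pow' (a := fun N => Nat.log 2 N + 2) (e := fun N => 2 ^ (c * lev N))
    (c + 1) (.of_forall fun N => Nat.le_self_pow (Nat.succ_ne_zero c) _)
    (.of_forall fun N => (two_pow_lev_mono (Nat.le_succ c) N).trans
      Nat.lt_two_pow_self.le)).of_eventually h

@[fun_prop] theorem const (c : ℕ) : SubL fun _ => c := (QP.const c).subL
@[fun_prop] theorem log : SubL fun N => Nat.log 2 N := QP.log.subL
@[fun_prop] theorem lev : SubL N325.lev := QP.lev.subL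

@[fun_prop] theorem mul (g : SubL G) (h : SubL H) : SubL fun N => G N * H N :=
  (SubQ.mul g h).mono fun N _ => by
    rw [← mul_pow]; exact Nat.pow_le_pow_left (by nlinarith) _

@[fun_prop] theorem add (g : SubL G) (h : SubL H) : SubL fun N => G N + H N :=
  (SubQ.mul g h).mono fun N _ => by
    rw [← mul_pow]; exact Nat.pow_le_pow_left (by nlinarith [Nat.zero_le (G N * H N)]) _

@[fun_prop] theorem pow (g : SubL G) (c : ℕ) : SubL fun N => G N ^ c := by
  induction c with
  | zero => simpa using const 1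
  | succ c ih => simpa only [pow_succ] using ih.mul g

/-- the small root `N ^ (1 / lev ^ 2)` -/
theorem rt_sq : SubL fun N => rt (N325.lev N ^ 2) N :=
  (SubQ.rt_lev_pow one_lt_two 2).mono fun N _ => by
    have := two_le_rt (N325.lev N ^ 2) N
    rw [pow_one, pow_mul]; exact Nat.pow_le_pow_left (by nlinarith) _

end SubL

theorem rt_le_pow {L M N c : ℕ} (hL : 1 ≤ L) (h : M ≤ (N + 2) ^ c) :
    rt L M ≤ rt L N ^ (2 * c + 1) := by
  have h1 : Nat.log 2 M ≤ c * (Nat.log 2 N + 2) := by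
    refine (Nat.log_mono_right (h.trans (?_ : _ ≤ 2 ^ (c * (Nat.log 2 N + 2))))).trans
      (Nat.log_pow one_lt_two _).le
    rw [mul_comm, pow_mul]
    refine Nat.pow_le_pow_left ?_ c
    have := Nat.lt_pow_succ_log_self one_lt_two N
    have h2 : 0 < 2 ^ Nat.log 2 N := by positivity
    rw [pow_succ] at this
    rw [pow_add]; omega
  have h2 := Nat.lt_mul_div_succ (Nat.log 2 N) hL
  have h3 : Nat.log 2 M / L ≤ 2 * c * (Nat.log 2 N / L + 1) :=
    Nat.div_le_of_le_mul (by nlinarith)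
  rw [rt, rt, ← pow_mul]
  exact Nat.pow_le_pow_right two_pos (by nlinarith [Nat.zero_le (Nat.log 2 N / L)])

/-- roots of polynomially bounded numbers -/
theorem SubL.rt_of (h : PolyB G) : SubL fun N => rt (N325.lev N ^ 2) (G N) := by
  obtain ⟨c, h⟩ := h
  exact (SubL.rt_sq.pow (2 * c + 1)).of_eventually
    (h.mono fun N h => rt_le_pow (Nat.one_le_pow _ _ (lev_pos N)) h)

theorem SubQ.rt_of (h : PolyB G) : SubQ fun N => rt (N325.lev N) (G N) := by
  obtain ⟨c, h⟩ := h
  exact (SubQ.rt_lev.pow (2 * c + 1)).of_eventually (h.mono fun N h => rt_le_pow (lev_pos N) h)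

namespace PolyB

theorem of_eventually (h : PolyB H) (k : ∀ᶠ N in atTop, G N ≤ H N) : PolyB G := by
  obtain ⟨c, h⟩ := h
  exact ⟨c, by filter_upwards [h, k] with N h1 h2 using h2.trans h1⟩

theorem mono (h : PolyB H) (k : ∀ N, G N ≤ H N) : PolyB G := h.of_eventually (.of_forall k)

@[fun_prop] theorem id : PolyB fun N => N := ⟨1, .of_forall fun N => by simp⟩

@[fun_prop] theorem const (c : ℕ) : PolyB fun _ => c :=
  ⟨c, .of_forall fun N => Nat.lt_two_pow_self.le.trans (Nat.pow_le_pow_left (by omega) _)⟩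

@[fun_prop] theorem mul (g : PolyB G) (h : PolyB H) : PolyB fun N => G N * H N := by
  obtain ⟨c, g⟩ := g; obtain ⟨d, h⟩ := h
  refine ⟨c + d, ?_⟩
  filter_upwards [g, h] with N h1 h2
  rw [pow_add]; exact Nat.mul_le_mul h1 h2

@[fun_prop] theorem add (g : PolyB G) (h : PolyB H) : PolyB fun N => G N + H N := by
  obtain ⟨c, g⟩ := g; obtain ⟨d, h⟩ := h
  refine ⟨c + d + 1, ?_⟩
  filter_upwards [g, h] with N h1 h2
  have a1 : (N + 2) ^ c ≤ (N + 2) ^ (c + d) := Nat.pow_le_pow_right (by omega) (by omega)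
  have a2 : (N + 2) ^ d ≤ (N + 2) ^ (c + d) := Nat.pow_le_pow_right (by omega) (by omega)
  rw [pow_succ]; nlinarith [Nat.zero_le ((N + 2) ^ (c + d) * N)]

@[fun_prop] theorem pow (g : PolyB G) (c : ℕ) : PolyB fun N => G N ^ c := by
  induction c with
  | zero => simpa using const 1
  | succ c ih => simpa only [pow_succ] using ih.mul g

theorem _root_.Crest.Agent.N325.SubQ.polyB (h : SubQ G) : PolyB G :=
  (((const 2).mul id).add (const 2)).of_eventually (h.le.mono fun N h => h.trans (rt_le _ N))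

/-- the `lev`-th power of the root is polynomial -/
theorem rt_pow_lev (h : PolyB G) : PolyB fun N => rt (lev N) (G N) ^ lev N := by
  refine (((const 2).mul h).add (const 2)).mul (QP.two_pow Ty.lev).subL.subQ.polyB |>.mono
    fun N => ?_
  rw [rt, ← pow_mul, add_mul, one_mul, pow_add]
  refine Nat.mul_le_mul_right _ (le_trans ?_ (two_pow_log_succ_le _))
  exact Nat.pow_le_pow_right two_pos ((Nat.div_mul_le_self _ _).trans (Nat.le_succ _))

/-- a factor `r * q` per level (`r` the root, `q` a loss) stays polynomial -/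
theorem fac_pow_lev {q : ℕ → ℕ} (h : PolyB G) (hq : SubL q) (c : ℕ) :
    PolyB fun N => (rt (lev N) (G N) ^ c * q N) ^ lev N :=
  (((rt_pow_lev h).pow c).mul hq.pow_lev.polyB).mono fun N => by
    rw [mul_pow, ← pow_mul, ← pow_mul, mul_comm c]

end PolyB

attribute [fun_prop] Ty.qp QP.subL SubL.subQ SubQ.polyB

/-- finitely many polynomial bounds have a common exponent -/
theorem PolyB.le_pow (h : PolyB G) : ∃ c, ∀ d, c ≤ d → ∀ᶠ N in atTop, G N ≤ (N + 2) ^ d := by
  obtain ⟨c, h⟩ := h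
  exact ⟨c, fun d hd => h.mono fun N h => h.trans (Nat.pow_le_pow_right (by omega) hd)⟩

/-- **linear recurrences down the tower** -/
theorem rec_down {x : ℕ → ℕ} {Q W : ℕ} (L : ℕ) (h : ∀ j < L, x j ≤ Q * x (j + 1) + W) :
    x 0 + W ≤ (Q + 2) ^ L * (x L + W) := by
  induction L with
  | zero => simp
  | succ L ih =>
    refine (ih fun j hj => h j (hj.trans L.lt_succ_self)).trans ?_
    have := h L L.lt_succ_self
    rw [pow_succ, mul_assoc]
    exact Nat.mul_le_mul_left _ (by nlinarith [Nat.zero_le (Q * W)])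

/-- the same counted from the bottom -/
theorem rec_up {x : ℕ → ℕ} {Q W : ℕ} (L : ℕ) (h : ∀ j < L, x (j + 1) ≤ Q * x j + W) :
    x L + W ≤ (Q + 2) ^ L * (x 0 + W) := by
  induction L with
  | zero => simp
  | succ L ih =>
    have h1 := ih fun j hj => h j (hj.trans L.lt_succ_self)
    have := h L L.lt_succ_self
    rw [pow_succ, mul_comm _ (Q + 2), mul_assoc]
    exact le_trans (by nlinarith [Nat.zero_le (Q * W)]) (Nat.mul_le_mul_left (Q + 2) h1)

example {a b : ℕ → ℕ} (ha : QP a) (hb : SubL b) :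
    SubQ fun N => (1 + 10 * lev N ^ 2 * a N) ^ (lev N ^ 2) * b N + Nat.log 2 N := by
  have : QP fun N => (1 + 10 * lev N ^ 2 * a N) ^ (lev N ^ 2) := by fun_prop
  have := this.subL.subQ
  fun_prop

end Crest.Agent.N325
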