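import Crest.Agent.N325.Bf.Box
import Crest.Agent.N325.Sg.Sub
import Crest.Agent.N325.M0.Std

/-!
# N325 / Sg (helper34): the parameters of the batch spanner in closed form
-/

set_option autoImplicit false

namespace Crest.Agent.N325.Sg

open Bf Filter

/-- bound on the walks of the level `i` -/
def lmF (T i : ℕ) : ℕ := (2 ^ (T + 1)) ^ (i + 1)
/-- loss in congestion per level (`r0` bounds the rounds of the box) -/
def gamF (T L r0 : ℕ) : ℕ := (1 + 10 * T * lmF T L) ^ T * r0 + 2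
/-- bound on the index of the level `i` -/
def ddF (γ D0 i : ℕ) : ℕ := D0 * (γ + 1) ^ (i + 1)
/-- the bounds of the levels above the first one -/
def prF (T L γ D0 : ℕ) : List (ℕ × ℕ) :=
  (List.range L).map fun i => (lmF T (i + 1), ddF γ D0 (i + 1))
/-- the constants of the spanner -/
def csF (b nV T L r0 D0 La bb : ℕ) : Ds.Cs :=
  ⟨b, nV, lmF T L, ddF (gamF T L r0) D0 L, La * bb * (3 * T * r0 + 1),
    (14 * T * (lmF T L + 1) + 1) * r0 + 3⟩

theorem lmF_pos (T i : ℕ) : 1 ≤ lmF T i := Nat.one_le_pow _ _ (by positivity)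
theorem lmF_succ (T i : ℕ) : lmF T (i + 1) = lmF T i * 2 ^ (T + 1) := pow_succ _ _
theorem lmF_mono (T : ℕ) {i j : ℕ} (h : i ≤ j) : lmF T i ≤ lmF T j :=
  Nat.pow_le_pow_right (by positivity) (by omega)
theorem ddF_succ (γ D0 i : ℕ) : ddF γ D0 (i + 1) = ddF γ D0 i * (γ + 1) := by
  unfold ddF; ring
theorem ddF_mono (γ D0 : ℕ) {i j : ℕ} (h : i ≤ j) : ddF γ D0 i ≤ ddF γ D0 j :=
  Nat.mul_le_mul_left _ (Nat.pow_le_pow_right (by omega) (by omega))
theorem le_ddF (γ D0 i : ℕ) : D0 ≤ ddF γ D0 i := Nat.le_mul_of_pos_right _ (by positivity)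
theorem length_prF (T L γ D0 : ℕ) : (prF T L γ D0).length = L := by simp [prF]

section spec

variable {b nV T L r0 D0 La bb : ℕ}

theorem rounds_csF (h : (nV + 1) * ddF (gamF T L r0) D0 L < 2 ^ r0) :
    rounds (csF b nV T L r0 D0 La bb) ≤ r0 := Nat.size_le.2 h

theorem gam_csF (h : (nV + 1) * ddF (gamF T L r0) D0 L < 2 ^ r0) {i : ℕ} (hi : i ≤ L) :
    boxGam (csF b nV T L r0 D0 La bb) T (lmF T i) ≤ gamF T L r0 :=
  Nat.add_le_add_right (Nat.mul_le_mul (Nat.pow_le_pow_left (Nat.add_le_add_left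
    (Nat.mul_le_mul_left _ (lmF_mono T hi)) _) _) (rounds_csF h)) _

theorem nx_lmF0 (T : ℕ) : boxNx T 0 (lmF T 0) := by
  unfold boxNx lmF
  rw [zero_add, mul_one, pow_one]
  exact Nat.pow_le_pow_right two_pos (by omega)

theorem nx_lmF (T i : ℕ) : boxNx T (lmF T i) (lmF T (i + 1)) := by
  have := lmF_pos T i
  unfold boxNx
  rw [lmF_succ, pow_succ, mul_comm (lmF T i), mul_assoc]
  exact Nat.mul_le_mul_left _ (by omega)

/-- `hD1` of `Ds.sp_build` -/
theorem d1_csF (h : (nV + 1) * ddF (gamF T L r0) D0 L < 2 ^ r0) :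
    D0 + D0 * boxGam (csF b nV T L r0 D0 La bb) T (lmF T 0) ≤ ddF (gamF T L r0) D0 0 := by
  have := Nat.mul_le_mul_left D0 (gam_csF (b := b) (La := La) (bb := bb) h (Nat.zero_le L))
  unfold ddF
  rw [zero_add, pow_one, mul_add]; omega

theorem cons_prF (T L γ D0 : ℕ) : (lmF T 0, ddF γ D0 0) :: prF T L γ D0 =
    (List.range (L + 1)).map fun i => (lmF T i, ddF γ D0 i) := by
  rw [List.range_succ_eq_map, List.map_cons, List.map_map]; rfl

/-- `hpr` of `Ds.sp_build` -/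
theorem chain_csF (h : (nV + 1) * ddF (gamF T L r0) D0 L < 2 ^ r0) :
    ((lmF T 0, ddF (gamF T L r0) D0 0) :: prF T L (gamF T L r0) D0).IsChain fun y x =>
      boxNx T y.1 x.1 ∧ y.1 ≤ x.1 ∧
        y.2 + y.2 * boxGam (csF b nV T L r0 D0 La bb) T x.1 ≤ x.2 := by
  rw [cons_prF, List.isChain_map, List.isChain_range_succ]
  intro i hi
  refine ⟨nx_lmF T i, lmF_mono T (Nat.le_succ i), ?_⟩
  have := Nat.mul_le_mul_left (ddF (gamF T L r0) D0 i)
    (gam_csF (b := b) (La := La) (bb := bb) h (Nat.succ_le_of_lt hi))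
  rw [ddF_succ, mul_add]
  dsimp only at this ⊢
  omega

/-- `hpr'` of `Ds.sp_build` -/
theorem le_csF : ∀ p ∈ (lmF T 0, ddF (gamF T L r0) D0 0) :: prF T L (gamF T L r0) D0,
    p.1 ≤ (csF b nV T L r0 D0 La bb).LM ∧ p.2 ≤ (csF b nV T L r0 D0 La bb).DD := by
  rw [cons_prF]
  intro p hp
  obtain ⟨i, hi, rfl⟩ := List.mem_map.1 hp
  have := List.mem_range.1 hi
  exact ⟨lmF_mono T (by omega), ddF_mono _ _ (by omega)⟩

/-- **the box with these constants** -/
theorem box_csF {g : Gl} {cls : Arr ℕ} (hcl : ∀ o, cls.get (rv o) = cls.get o)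
    (hLa : ∀ o, cls.get o < La) (hb : 0 < bb) (hT : 0 < T) (hn : nV + 1 ≤ bb ^ T)
    (h : (nV + 1) * ddF (gamF T L r0) D0 L < 2 ^ r0) (hX : La * (nV + 1) * bb ≤ g.X)
    (hXb : bb ^ T ≤ g.X) (hXO : ddF (gamF T L r0) D0 (L + 1) ≤ g.X) :
    Ds.BoxSpec g (box cls La bb T) cls.get (csF b nV T L r0 D0 La bb) (boxNx T)
      (boxGam (csF b nV T L r0 D0 La bb) T) := by
  have hr := rounds_csF (b := b) (La := La) (bb := bb) h
  refine boxSpec hcl hLa hb hT hn hX hXb (le_trans ?_ hXO) (Nat.mul_le_mul_left _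
    (Nat.add_le_add_right (Nat.mul_le_mul_left _ hr) _))
    (Nat.add_le_add_right (Nat.mul_le_mul_left _ hr) _)
  rcases Nat.eq_zero_or_pos r0 with rfl | h0
  · have : (nV + 1) * ddF (gamF T L 0) D0 L = 0 := by simpa using h
    have e : ddF (gamF T L 0) D0 L = 0 := by simpa using this
    change ddF (gamF T L 0) D0 L * _ ≤ _
    rw [e, zero_mul]; exact Nat.zero_le _
  · rw [ddF_succ]
    refine Nat.mul_le_mul_left _ ?_
    have := Nat.le_mul_of_pos_right ((1 + 10 * T * lmF T L) ^ T) h0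
    change (1 + 10 * T * lmF T L) ^ T ≤ (1 + 10 * T * lmF T L) ^ T * r0 + 2 + 1
    omega

end spec

/-! ### programs -/

variable {g : Gl}

/-- program for `lmF` -/
def lmR (T i : ℕ) : R ℕ := powR 2 (T + 1) >>= fun a => powR a (i + 1)

theorem sp_lmR {T i : ℕ} (h : lmF T i ≤ g.X) :
    Sp g (lmR T i) fun r t => r = lmF T i ∧ t ≤ T + i + 4 := by
  have h0 : 2 ^ (T + 1) ≤ lmF T i := Nat.le_self_pow (by omega) _
  refine (sp_powR (by omega) (h0.trans h)).bind fun a t k => ?_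
  rw [k.1]
  exact (sp_powR (Nat.one_le_pow _ _ two_pos) h).mono fun r u k' => ⟨k'.1, by omega⟩

/-- program for `gamF` -/
def gamR (T L r0 : ℕ) : R ℕ :=
  lmR T L >>= fun m => nat (1 + 10 * T * m) >>= fun a => powR a T >>= fun c => nat (c * r0 + 2)

theorem sp_gamR {T L r0 : ℕ} (hT : 0 < T) (h0 : 0 < r0) (h : gamF T L r0 ≤ g.X) :
    Sp g (gamR T L r0) fun r t => r = gamF T L r0 ∧ t ≤ 2 * T + L + 5 := by
  have a1 := Nat.le_mul_of_pos_right ((1 + 10 * T * lmF T L) ^ T) h0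
  have a2 := Nat.le_self_pow hT.ne' (1 + 10 * T * lmF T L)
  have a3 : 1 * lmF T L ≤ 10 * T * lmF T L := Nat.mul_le_mul_right _ (by omega)
  unfold gamF at h
  refine (sp_lmR (by omega)).bind fun m t k => ?_
  rw [k.1, sp_bind, sp_nat]
  refine ⟨by omega, (sp_powR (by omega) (by omega)).bind fun c u k' => ?_⟩
  rw [k'.1]
  exact sp_nat.2 ⟨h, rfl, by omega⟩

/-- the bounds of all levels -/
def prR (T L γ D0 : ℕ) : R (ℕ × ℕ × List (ℕ × ℕ)) :=
  powR 2 (T + 1) >>= fun a => nat (D0 * (γ + 1)) >>= fun d =>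
    forN (fun _ (s : ℕ × ℕ × List (ℕ × ℕ)) => nat (s.1 * a) >>= fun x =>
      nat (s.2.1 * (γ + 1)) >>= fun y => pure (x, y, (x, y) :: s.2.2)) L 0 (a, d, []) >>= fun s =>
      revL s.2.2 >>= fun l => pure (a, d, l)

theorem sp_prR {T L γ D0 : ℕ} (h1 : lmF T L ≤ g.X) (h2 : ddF γ D0 L ≤ g.X) :
    Sp g (prR T L γ D0) fun r t =>
      r = (lmF T 0, ddF γ D0 0, prF T L γ D0) ∧ t ≤ T + 2 * L + 4 := by
  have h0 : 2 ^ (T + 1) ≤ lmF T L := Nat.le_self_pow (by omega) _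
  have e1 : lmF T 0 = 2 ^ (T + 1) := pow_one _
  have e2 : ddF γ D0 0 = D0 * (γ + 1) := by unfold ddF; rw [zero_add, pow_one]
  refine (sp_powR (by omega) (h0.trans h1)).bind fun a t k => ?_
  rw [k.1, sp_bind, sp_nat]
  refine ⟨e2 ▸ (ddF_mono γ D0 (Nat.zero_le L)).trans h2, ?_⟩
  refine (sp_forN' (fun j s => s = (lmF T j, ddF γ D0 j, (prF T j γ D0).reverse)) 0
    (fun j s _ hj hs => ?_) (by rw [e1, e2]; rfl)).bind fun s u k' => ?_
  · subst hs
    simp only [sp_bind, sp_nat, sp_pure, ← lmF_succ, ← ddF_succ]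
    refine ⟨(lmF_mono T (by omega)).trans h1, (ddF_mono γ D0 (by omega)).trans h2, ?_, le_rfl⟩
    simp [prF, List.range_succ]
  · rw [k'.1, zero_add]
    refine (sp_revL _).bind fun l v k'' => ?_
    rw [sp_pure, k''.1, List.reverse_reverse, e1, e2]
    refine ⟨rfl, ?_⟩
    have := k''.2
    rw [List.length_reverse, length_prF] at this
    omega

variable {α : Type} [Rp α]

@[fun_prop] theorem impl_lmR {T i : α → ℕ} (h1 : Pu true T) (h2 : Pu true i) :
    Impl fun a => lmR (T a) (i a) := by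
  unfold lmR; impl

@[fun_prop] theorem impl_gamR {T L r : α → ℕ} (h1 : Pu true T) (h2 : Pu true L) (h3 : Pu true r) :
    Impl fun a => gamR (T a) (L a) (r a) := by
  unfold gamR; impl

@[fun_prop] theorem impl_prR {T L γ D : α → ℕ} (h1 : Pu true T) (h2 : Pu true L) (h3 : Pu true γ)
    (h4 : Pu true D) : Impl fun a => prR (T a) (L a) (γ a) (D a) := by
  unfold prR; impl

/-! ### growth -/

section growth

variable {T L r0 D0 i γ : ℕ → ℕ}

theorem qp_lmF (hT : Ty T) (hi : Ty i) : QP fun N => lmF (T N) (i N) :=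
  (QP.two_pow (hT.add (Ty.const 1))).pow (hi.add (Ty.const 1))

theorem qp_gamF (hT : Ty T) (hL : Ty L) (hr : QP r0) : QP fun N => gamF (T N) (L N) (r0 N) :=
  ((((QP.const 1).add (((QP.const 10).mul hT.qp).mul (qp_lmF hT hL))).pow hT).mul hr).add
    (QP.const 2)

/-- the index grows by a quasi-polylogarithmic factor -/
theorem qp_ddF (hγ : QP γ) (hi : Ty i) : QP fun N => (γ N + 1) ^ (i N + 1) :=
  (hγ.add (QP.const 1)).pow (hi.add (Ty.const 1))

theorem subQ_ddF (hγ : QP γ) (hi : Ty i) (hD : SubQ D0) : SubQ fun N => ddF (γ N) (D0 N) (i N) :=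
  hD.mul (qp_ddF hγ hi).subL.subQ

end growth

end Crest.Agent.N325.Sg
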