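import Crest.Agent.N325.Tw.Defs
import Crest.Agent.N325.Lst.ListR

/-! The generic emitter (helper30): the next graph follows a table; dirty ids are re-emitted. -/

set_option autoImplicit false
open Finset

namespace Crest.Agent.N325.Sg

open Tw

/-- tables of edges with their walks -/
abbrev Tab : Type := ℕ → Option (Ed × Wk)

/-- the graph `H` and the walks `wk` agree with the table -/
def Agr (H : Gr) (wk : ℕ → Wk) (T : Tab) : Prop :=
  ∀ p, (p ∈ H.E ↔ (T p).isSome = true) ∧ ∀ x, T p = some x → H.ed p = x.1 ∧ wk p = x.2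

theorem Agr.congr {H : Gr} {wk : ℕ → Wk} {T T' : Tab} (h : Agr H wk T) (e : ∀ p, T' p = T p) :
    Agr H wk T' := by rwa [show T' = T from funext e]

theorem agr_emp (wk : ℕ → Wk) : Agr Gr.emp wk fun _ => none := fun p => by simp [Gr.emp]

theorem Agr.mem {H : Gr} {wk : ℕ → Wk} {T : Tab} (h : Agr H wk T) {p : ℕ} (hp : p ∈ H.E) :
    T p = some (H.ed p, wk p) := by
  obtain ⟨x, hx⟩ := Option.isSome_iff_exists.1 ((h p).1.1 hp)
  rw [hx, ((h p).2 x hx).1, ((h p).2 x hx).2]

theorem Agr.of_some {H : Gr} {wk : ℕ → Wk} {T : Tab} (h : Agr H wk T) {p : ℕ} {x : Ed × Wk}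
    (hx : T p = some x) : p ∈ H.E ∧ H.ed p = x.1 ∧ wk p = x.2 :=
  ⟨(h p).1.2 (by rw [hx]; rfl), (h p).2 x hx⟩

@[simp] theorem apps_nil (H : Gr) : apps H [] = H := rfl
@[simp] theorem apps_cons (H : Gr) (o : Ow) (l : List Ow) :
    apps H (o :: l) = apps (H.app o.op) l := rfl
@[simp] theorem wks_nil (wk : ℕ → Wk) : wks wk [] = wk := rfl
@[simp] theorem wks_cons (wk : ℕ → Wk) (o : Ow) (l : List Ow) :
    wks wk (o :: l) = wks (o.wk wk) l := rfl
theorem apps_app (H : Gr) (l m : List Ow) : apps H (l ++ m) = apps (apps H l) m :=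
  List.foldl_append
theorem wks_app (wk : ℕ → Wk) (l m : List Ow) : wks wk (l ++ m) = wks (wks wk l) m :=
  List.foldl_append
theorem oks_app {K : ℕ} {c' : Bd} {G : Gr} (H : Gr) (l m : List Ow) :
    Oks K c' G H (l ++ m) ↔ Oks K c' G H l ∧ Oks K c' G (apps H l) m := by
  induction l generalizing H with
  | nil => simp [Oks]
  | cons o l ih => simp [Oks, ih, and_assoc]

/-- the updates for the id `p`: delete if live, insert if there is a new entry -/
def ops1 (lv : Bool) (p : ℕ) (x : Option (Ed × Wk)) : List Ow :=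
  (if lv = true then [(p, none)] else []) ++ (if x.isSome = true then [(p, x)] else [])

theorem length_ops1 (lv : Bool) (p : ℕ) (x : Option (Ed × Wk)) : (ops1 lv p x).length ≤ 2 := by
  unfold ops1; split_ifs <;> simp

theorem agr_del {H : Gr} {wk : ℕ → Wk} {T : Tab} (h : Agr H wk T) (p : ℕ) :
    Agr (H.app (p, none)) wk (Function.update T p none) := fun q => by
  by_cases e : q = p
  · subst e; simp [Gr.app]
  · simpa [Gr.app, e] using h q

theorem agr_ins {H : Gr} {wk : ℕ → Wk} {T : Tab} (h : Agr H wk T) (p : ℕ) (x : Ed × Wk) :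
    Agr (H.app (p, some x.1)) (Function.update wk p x.2) (Function.update T p (some x)) :=
  fun q => by
    by_cases e : q = p
    · subst e; simp [Gr.app]
    · simpa [Gr.app, e] using h q

theorem ops1_spec {K : ℕ} {c' : Bd} {G H : Gr} {wk : ℕ → Wk} {T : Tab} (h : Agr H wk T) (p : ℕ)
    (x : Option (Ed × Wk)) (hx : ∀ y, x = some y → c'.ed p y.1 ∧ WOk K G y.1.l y.2) :
    Oks K c' G H (ops1 (T p).isSome p x) ∧
      Agr (apps H (ops1 (T p).isSome p x)) (wks wk (ops1 (T p).isSome p x))
        (Function.update T p x) := by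
  have h1 := (h p).1
  by_cases hl : (T p).isSome = true
  · cases x with
    | none =>
      simp only [ops1, hl, if_true, Option.isSome_none, Bool.false_eq_true, if_false,
        List.append_nil]
      exact ⟨⟨h1.2 hl, by simp, trivial⟩, agr_del h p⟩
    | some y =>
      simp only [ops1, hl, if_true, Option.isSome_some]
      refine ⟨⟨h1.2 hl, by simp, ?_, ?_, trivial⟩, ?_⟩
      · simp [Gr.ok, Ow.op, Gr.app]
      · intro z hz; cases hz; exact hx y rfl
      · have := agr_ins (agr_del h p) p y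
        rwa [Function.update_idem] at this
  · cases x with
    | none =>
      simp only [ops1, hl, Option.isSome_none, Bool.false_eq_true, if_false, List.append_nil]
      refine ⟨trivial, h.congr fun q => ?_⟩
      by_cases e : q = p
      · subst e; simpa using (Option.not_isSome_iff_eq_none.1 hl).symm
      · simp [e]
    | some y =>
      simp only [ops1, hl, Option.isSome_some, Bool.false_eq_true, if_false, if_true,
        List.nil_append]
      refine ⟨⟨fun k => hl (h1.1 k), ?_, trivial⟩, agr_ins h p y⟩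
      intro z hz; cases hz; exact hx y rfl

/-- one id; the output is reversed -/
def emit1 (p : ℕ) (x : Option (Ed × Wk)) (s : Arr Bool × List Ow) : Arr Bool × List Ow :=
  (s.1.set p x.isSome,
    if x.isSome = true then (p, x) :: (if s.1.get p = true then (p, none) :: s.2 else s.2)
    else if s.1.get p = true then (p, none) :: s.2 else s.2)

theorem emit1_snd (p : ℕ) (x : Option (Ed × Wk)) (s : Arr Bool × List Ow) :
    (emit1 p x s).2 = (ops1 (s.1.get p) p x).reverse ++ s.2 := by
  unfold emit1 ops1; split_ifs <;> simp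

/-- **the emitter** -/
def emit (live : Arr Bool) (new : ℕ → R (Option (Ed × Wk))) (dirty : List ℕ) :
    R (Arr Bool × List Ow) :=
  foldL (fun p s => new p >>= fun x => pure (emit1 p x s)) dirty (live, []) >>= fun s =>
    revL s.2 >>= fun o => pure (s.1, o)

theorem sp_emit {g : Gl} {K : ℕ} {c' : Bd} {G H : Gr} {wk : ℕ → Wk} {T T' : Tab} {live : Arr Bool}
    {new : ℕ → R (Option (Ed × Wk))} {dirty : List ℕ} (c : ℕ → ℕ) (hA : Agr H wk T)
    (hl : ∀ p, live.get p = (T p).isSome) (hoff : ∀ p, p ∉ dirty → T' p = T p)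
    (hnew : ∀ p ∈ dirty, Sp g (new p) fun x t => x = T' p ∧ t ≤ c p)
    (hok : ∀ p ∈ dirty, ∀ x, T' p = some x → c'.ed p x.1 ∧ WOk K G x.1.l x.2) :
    Sp g (emit live new dirty) fun r t => Oks K c' G H r.2 ∧ Agr (apps H r.2) (wks wk r.2) T' ∧
      (∀ p, r.1.get p = (T' p).isSome) ∧ r.2.length ≤ 2 * dirty.length ∧
      (∀ o ∈ r.2, o.1 ∈ dirty) ∧ t ≤ (dirty.map c).sum + 3 * dirty.length + 2 := by
  refine (sp_foldL' (fun l (s : Arr Bool × List Ow) => (∀ p ∈ l, p ∈ dirty) ∧ ∃ S : Tab,
      Oks K c' G H s.2.reverse ∧ Agr (apps H s.2.reverse) (wks wk s.2.reverse) S ∧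
      (∀ p, s.1.get p = (S p).isSome) ∧ (∀ p, p ∉ l → T' p = S p) ∧
      s.2.length + 2 * l.length ≤ 2 * dirty.length ∧ ∀ o ∈ s.2, o.1 ∈ dirty) c ?_
    (l := dirty) (s := (live, [])) ⟨fun _ h => h, T, trivial, hA, hl, hoff, by simp, by simp⟩).bind ?_
  · rintro p l s ⟨hm, S, a1, a2, a3, a4, a5, a6⟩
    have hp := hm p List.mem_cons_self
    refine (hnew p hp).bind ?_
    rintro _ t ⟨rfl, ht⟩
    obtain ⟨b1, b2⟩ := ops1_spec (K := K) (c' := c') (G := G) a2 p (T' p) (hok p hp)
    have e : (emit1 p (T' p) s).2.reverse = s.2.reverse ++ ops1 (S p).isSome p (T' p) := by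
      rw [emit1_snd, a3, List.reverse_append, List.reverse_reverse]
    refine sp_pure.2 ⟨⟨fun q h => hm q (List.mem_cons_of_mem _ h), Function.update S p (T' p),
      ?_, ?_, fun q => ?_, fun q hq => ?_, ?_, fun o ho => ?_⟩, by omega⟩
    · rw [e, oks_app]; exact ⟨a1, b1⟩
    · rw [e, apps_app, wks_app]; exact b2
    · by_cases k : q = p
      · subst k; simp [emit1]
      · simp [emit1, Arr.get_set_ne _ k, k, a3]
    · by_cases k : q = p
      · subst k; simp
      · rw [Function.update_of_ne k]; exact a4 q (by simp [k, hq])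
    · have := length_ops1 (s.1.get p) p (T' p)
      rw [emit1_snd, List.length_append, List.length_reverse]
      rw [List.length_cons] at a5; omega
    · rw [emit1_snd, List.mem_append, List.mem_reverse] at ho
      refine ho.elim (fun k => ?_) (a6 o)
      have : o.1 = p := by
        unfold ops1 at k
        split_ifs at k <;> simp at k <;> rcases k with rfl | rfl <;> rfl
      rwa [this]
  · rintro s t ⟨⟨-, S, a1, a2, a3, a4, a5, a6⟩, ht⟩
    refine (sp_revL _).bind ?_
    rintro _ u ⟨rfl, rfl⟩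
    have e : ∀ p, T' p = S p := fun p => a4 p List.not_mem_nil
    refine sp_pure.2 ⟨a1, a2.congr e, fun p => by rw [e, a3], by simpa using a5,
      fun o ho => a6 o (List.mem_reverse.1 ho), ?_⟩
    rw [List.sum_map_add] at ht
    simp only [List.map_const', List.sum_replicate, smul_eq_mul, mul_one] at ht
    simp only [List.length_nil] at a5
    omega

/-- the relation between the two graphs read off the table; `V` contains the ids in use -/
theorem Agr.rel {K ρ : ℕ} {G H : Gr} {wk : ℕ → Wk} {T : Tab} (h : Agr H wk T) (π : ℕ → ℕ)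
    (h1 : ∀ p x, T p = some x → Tel G.ed x.2 (π x.1.a) (π x.1.b) ∧ WOk K G x.1.l x.2 ∧
      x.1.g = wg G.ed x.2) (V : Finset ℕ) (hV : ∀ p x, T p = some x → p ∈ V)
    (h2 : ∀ e ∈ G.E, ∑ p ∈ V, ((T p).map fun x => mult x.2 e).getD 0 ≤ ρ) : Rel K ρ G H wk where
  tel := ⟨π, fun p hp => (h1 p _ (h.mem hp)).1⟩
  wok p hp := (h1 p _ (h.mem hp)).2.1
  grad p hp := (h1 p _ (h.mem hp)).2.2
  use e he := by
    refine le_trans ?_ (h2 e he)
    refine (sum_congr rfl fun p hp => ?_).trans_le
      (sum_le_sum_of_subset (fun p hp => hV p _ (h.mem hp) : H.E ⊆ V))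
    rw [h.mem hp]; rfl

/-- flatness read on the table -/
theorem Agr.flat_iff {H : Gr} {wk : ℕ → Wk} {T : Tab} (h : Agr H wk T) (θ : ℕ) :
    Flat H θ ↔ ∃ z : ℕ → ℝ, ∀ p x, T p = some x →
      |(x.1.g : ℝ) - (z x.1.b - z x.1.a)| ≤ θ * x.1.l :=
  exists_congr fun _ => ⟨fun k p x hx => by
    have := k p (h.of_some hx).1
    rwa [(h.of_some hx).2.1] at this, fun k p hp => k p _ (h.mem hp)⟩

end Crest.Agent.N325.Sg
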