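import Crest.Agent.N325.Pc.Defs
import Crest.Agent.N325.Ds.Defs
import Crest.Agent.N325.Sg.Emit

/-!
# Row 325 (helper20): one stage of the oracle — programs and invariant

The next graph is described by a table: the id `3 u` is the compressed edge of the node `u`,
`3 o + 1` the published object `o`, `3 q + 2` a copy of the inserted edge `q / Q`.
-/

set_option autoImplicit false
open Finset

namespace Crest.Agent.N325.Sg

open Tw Lt

/-- an entry of the table -/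
abbrev En : Type := Option (Ed × Wk)
/-- an object `(e, û, v̂, m)` -/
abbrev Ob : Type := ℕ × ℕ × ℕ × ℕ

/-- parameters: those of the forest and of the box (`a`), threshold of the marks, fuel, `S ^ 2`,
threshold of the test, parameters of the spanner -/
structure Pr (A : Type) where
  a : A
  P : Pm
  K0 : ℕ
  fu : ℕ
  Q : ℕ
  th1 : ℕ
  b : ℕ
  P0 : ℕ
  D0 : ℕ
  D1 : ℕ
  pr : List (ℕ × ℕ)

/-- static data: forest, number of objects, objects, objects of an edge,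
ends at a node, reduced gradients, lengths, classes -/
structure Fx where
  T : LF
  nO : ℕ
  ob : Arr Ob
  oe : Arr (List ℕ)
  en : Arr (List ℕ)
  gt : Arr ℤ
  la : Arr ℕ
  cls : Arr ℕ

/-- dynamic data: edges, living old edges, pieces, vertices of the ends, spanner, published
objects, copies of the new edges, edges of the next graph -/
structure Dn where
  ed : Arr Ed
  og : Arr Bool
  pc : Pc.St
  vx : Arr ℕ
  ds : Ds.St
  pub : Arr Bool
  pt : Arr (Option (ℕ × ℕ))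
  lv : Arr Bool

/-- the state -/
abbrev St (A : Type) : Type := Pr A × Fx × Dn

/-- the node of an end -/
def nd (ob : ℕ → Ob) (o : ℕ) : ℕ := if o % 2 = 0 then (ob (o / 2)).2.1 else (ob (o / 2)).2.2.1

/-! ## the table -/

/-- a copy of the edge `e` -/
def cpE (ed : Arr Ed) (e a b : ℕ) : Ed × Wk := (⟨a, b, (ed.get e).l, (ed.get e).g⟩, [(e, true)])

def objT (X : Fx) (ed : Arr Ed) (pub : Arr Bool) (o : ℕ) : En :=
  if pub.get o = true then
    some (cpE ed (X.ob.get o).1 (X.T.nm.get (X.ob.get o).2.1) (X.T.nm.get (X.ob.get o).2.2.1))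
  else none
def ptT (Q : ℕ) (ed : Arr Ed) (pt : Arr (Option (ℕ × ℕ))) (q : ℕ) : En :=
  Option.casesOn (pt.get q) none fun ab => some (cpE ed (q / Q) ab.1 ab.2)

/-- **the table** -/
def tb (Q : ℕ) (X : Fx) (d : Dn) (p : ℕ) : En :=
  if p % 3 = 0 then Pc.seg X.T d.pc (p / 3)
  else if p % 3 = 1 then objT X d.ed d.pub (p / 3) else ptT Q d.ed d.pt (p / 3)

/-! ## programs -/

/-- read the table -/
def tbR (Q : ℕ) (X : Fx) (d : Dn) (p : ℕ) : R En :=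
  if p % 3 = 0 then Pc.segR X.T d.pc (p / 3)
  else if p % 3 = 1 then pure (objT X d.ed d.pub (p / 3)) else pure (ptT Q d.ed d.pt (p / 3))

/-- record the object `x` (state: number of the objects so far and the tables) -/
def obj1 (ed : Arr Ed) (x : Ob) (X : Fx) : R Fx :=
  nat (2 * X.nO) >>= fun o =>
  int ((ed.get x.1).g - (X.T.G.get x.2.2.1 - X.T.G.get x.2.1)) >>= fun γ =>
  nat ((ed.get x.1).l + X.T.H.get x.2.1 + X.T.H.get x.2.2.1 - 2 * X.T.H.get x.2.2.2) >>= fun l =>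
  pure ⟨X.T, X.nO + 1, X.ob.set X.nO x, Ds.push X.oe x.1 X.nO,
    Ds.push (Ds.push X.en x.2.1 o) x.2.2.1 (o + 1), X.gt.set X.nO γ, X.la.set X.nO l,
    (X.cls.set o l.size).set (o + 1) l.size⟩

/-- the static data -/
def fxR (ed : Arr Ed) (T : LF) : R Fx :=
  foldL (obj1 ed) T.obj
    ⟨T, 0, Arr.cst (0, 0, 0, 0), Arr.cst [], Arr.cst [], Arr.cst 0, Arr.cst 0, Arr.cst 0⟩

/-- recompute the vertices of the ends at the nodes `l` -/
def reVx (X : Fx) (rt : Arr ℕ) (l : List ℕ) (vx : Arr ℕ) : R (Arr ℕ) :=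
  foldL (fun y a => setAllP (fun _ => rt.get y) (X.en.get y) a) l vx

/-- hard marks at `xs` and their closures: pieces (with the dirty nodes), vertices of the ends,
touched vertices -/
def mark (X : Fx) (xs : List ℕ) (pc : Pc.St) (vx : Arr ℕ) : R (Pc.So × Arr ℕ × List ℕ) :=
  Pc.hard X.T xs (pc, []) >>= fun r =>
  foldL (fun x a => reVx X r.1.1.rt (pc.mem.get (pc.bp.get x)) a) r.2.1 vx >>= fun vx' =>
  revAppL r.2.1 r.2.2 >>= fun t => pure (r.1, vx', t)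

/-- working state: pieces with the dirty nodes, published objects, dirty ids -/
abbrev Wo : Type := Pc.So × Arr Bool × List ℕ

/-- publish the object `o` -/
def pub1 (X : Fx) (fu o : ℕ) (w : Wo) : R Wo :=
  Pc.soft X.T fu (X.ob.get o).2.1 w.1 >>= fun s1 =>
  Pc.soft X.T fu (X.ob.get o).2.2.1 s1 >>= fun s2 =>
  Pc.soft X.T fu (X.ob.get o).2.2.2 s2 >>= fun s3 =>
  nat (3 * o) >>= fun i => pure (s3, w.2.1.set o true, (i + 1) :: w.2.2)

/-- withdraw the object `o` -/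
def unp1 (o : ℕ) (w : Wo) : R Wo :=
  nat (3 * o) >>= fun i => pure (w.1, w.2.1.set o false, (i + 1) :: w.2.2)

/-- store the working state, renew the dirty edges -/
def fin (Q : ℕ) (X : Fx) (d : Dn) (w : Wo) : R (Dn × List Ow) :=
  foldL (fun u l => nat (3 * u) >>= fun i => pure (i :: l)) w.1.2 w.2.2 >>= fun dirty =>
  emit d.lv (tbR Q X ⟨d.ed, d.og, w.1.1, d.vx, d.ds, w.2.1, d.pt, d.lv⟩) dirty >>= fun r =>
  pure (⟨d.ed, d.og, w.1.1, d.vx, d.ds, w.2.1, d.pt, r.1⟩, r.2)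

/-- the copies of a vertex -/
def cvR (T : LF) (P : Pm) (v : ℕ) : R (List ℕ) :=
  if (T.cop.get v).isEmpty = true then nat (P.nw v) >>= fun x => pure [x] else pure (T.cop.get v)

/-- enter all pairs from the index `q` on: next index, table, dirty ids -/
def pairs (as bs : List ℕ) (t : ℕ × Arr (Option (ℕ × ℕ)) × List ℕ) :
    R (ℕ × Arr (Option (ℕ × ℕ)) × List ℕ) :=
  foldL (fun a t => foldL (fun b (t : ℕ × Arr (Option (ℕ × ℕ)) × List ℕ) =>
    nat (3 * t.1) >>= fun i => pure (t.1 + 1, t.2.1.set t.1 (some (a, b)), (i + 2) :: t.2.2))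
    bs t) as t

/-- clear `Q` entries from the index `q` on -/
def clear (Q q : ℕ) (pt : Arr (Option (ℕ × ℕ))) : R (Arr (Option (ℕ × ℕ)) × List ℕ) :=
  forN (fun j (t : Arr (Option (ℕ × ℕ)) × List ℕ) =>
    nat (3 * j) >>= fun i => pure (t.1.set j none, (i + 2) :: t.2)) Q q (pt, [])

section stage

variable {A : Type} (lf : A → List (ℕ × Ed) → R LF) (bx : A → Arr ℕ → Ds.BI → R Ds.BO)

/-- marks at `xs`, death of the objects `K`, new spanner: new `vx`, `ds` and working state -/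
def cutR (p : Pr A) (X : Fx) (d : Dn) (xs K : List ℕ) : R (Arr ℕ × Ds.St × Wo) :=
  mark X xs d.pc d.vx >>= fun r =>
  Ds.upd (bx p.a X.cls) p.b r.2.1 r.2.2 K d.ds >>= fun u =>
  foldL unp1 K (r.1, d.pub, []) >>= fun w =>
  foldL (pub1 X p.fu) u.2.2 w >>= fun w' => pure (r.2.1, u.1, w')

/-- delete an old edge -/
def delO (p : Pr A) (X : Fx) (d : Dn) (e : ℕ) : R (Dn × List Ow) :=
  cutR bx p X d (X.T.tc.get e) (X.oe.get e) >>= fun r =>
  fin p.Q X ⟨d.ed, d.og.set e false, d.pc, r.1, r.2.1, d.pub, d.pt, d.lv⟩ r.2.2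

/-- delete a new edge -/
def delN (p : Pr A) (X : Fx) (d : Dn) (e : ℕ) : R (Dn × List Ow) :=
  nat (e * p.Q) >>= fun q => clear p.Q q d.pt >>= fun r =>
  fin p.Q X ⟨d.ed, d.og, d.pc, d.vx, d.ds, d.pub, r.1, d.lv⟩ ((d.pc, []), d.pub, r.2)

/-- insert an edge -/
def insN (p : Pr A) (X : Fx) (d : Dn) (e : ℕ) (x : Ed) : R (Dn × List Ow) :=
  revAppL (X.T.cop.get x.a) (X.T.cop.get x.b) >>= fun xs =>
  cutR bx p X d xs [] >>= fun r =>
  cvR X.T p.P x.a >>= fun as => cvR X.T p.P x.b >>= fun bs =>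
  nat (e * p.Q) >>= fun q => pairs as bs (q, d.pt, r.2.2.2.2) >>= fun t =>
  fin p.Q X ⟨d.ed.set e x, d.og, d.pc, r.1, r.2.1, d.pub, t.2.1, d.lv⟩
    (r.2.2.1, r.2.2.2.1, t.2.2)

def upd (s : St A) (o : Op) : R (St A × List Ow) :=
  (Option.casesOn o.2
    (if s.2.2.og.get o.1 = true then delO bx s.1 s.2.1 s.2.2 o.1 else delN s.1 s.2.1 s.2.2 o.1)
    (fun x => insN bx s.1 s.2.1 s.2.2 o.1 x) : R (Dn × List Ow)) >>= fun r =>
  pure ((s.1, s.2.1, r.1), r.2)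

def probe (s : St A) : R (St A × List Ow × Option Wk) :=
  Ds.probe s.2.1.gt s.2.1.la s.1.th1 s.2.2.ds >>= fun r =>
  Option.casesOn r.2
    (pure ((s.1, s.2.1, ⟨s.2.2.ed, s.2.2.og, s.2.2.pc, s.2.2.vx, r.1, s.2.2.pub, s.2.2.pt,
      s.2.2.lv⟩), [], none))
    fun o => pub1 s.2.1 s.1.fu o ((s.2.2.pc, []), s.2.2.pub, []) >>= fun w =>
      fin s.1.Q s.2.1 ⟨s.2.2.ed, s.2.2.og, s.2.2.pc, s.2.2.vx, r.1, s.2.2.pub, s.2.2.pt,
        s.2.2.lv⟩ w >>= fun z => pure ((s.1, s.2.1, z.1), z.2, none)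

def build (p : Pr A) (l : List (ℕ × Ed)) : R (St A × List Ow) :=
  foldP (fun (x : ℕ × Ed) (t : Arr Ed × Arr Bool) => (t.1.set x.1 x.2, t.2.set x.1 true)) l
    (Arr.cst ⟨0, 0, 0, 0⟩, Arr.cst false) >>= fun t =>
  lf p.a l >>= fun T => fxR t.1 T >>= fun X =>
  Pc.build T (Arr.cst 1) p.K0 T.ord >>= fun c =>
  nat (p.P.nw 0) >>= fun z => reVx X c.1.rt T.ord (Arr.cst z) >>= fun vx =>
  rangeL X.nO 0 >>= fun I =>
  Ds.build (bx p.a X.cls) vx I c.2 p.P0 p.D0 p.D1 p.pr >>= fun u =>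
  foldL (pub1 X p.fu) u.2 ((c.1, []), Arr.cst false, []) >>= fun w =>
  fin p.Q X ⟨t.1, t.2, c.1, vx, u.1, Arr.cst false, Arr.cst none, Arr.cst false⟩ w >>= fun z =>
  pure ((p, X, z.1), z.2)

/-- **the stage** -/
def stage : Stage (St A) (Pr A) := ⟨build lf bx, upd bx, probe⟩

end stage

/-! ## the invariant -/

/-- the static data describe the forest of `G0` -/
structure FxOk (P : Pm) (c : Bd) (G0 : Gr) (X : Fx) : Prop where
  g0 : G0.Ok c
  ok : X.T.Ok G0 P c.m c.nb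
  nO : X.nO = X.T.obj.length
  ob : ∀ o < X.nO, X.ob.get o ∈ X.T.obj
  sur : ∀ x ∈ X.T.obj, ∃ o < X.nO, X.ob.get o = x
  oe : ∀ e, (X.oe.get e).Nodup ∧ (X.oe.get e).length ≤ P.S ^ 2 ∧
    ∀ o, o ∈ X.oe.get e ↔ o < X.nO ∧ (X.ob.get o).1 = e
  en : ∀ y, (X.en.get y).length ≤ P.S ∧ ∀ o, o ∈ X.en.get y ↔ o / 2 < X.nO ∧ nd X.ob.get o = y
  gt : ∀ o < X.nO, X.gt.get o = (G0.ed (X.ob.get o).1).g -
    (X.T.G.get (X.ob.get o).2.2.1 - X.T.G.get (X.ob.get o).2.1)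
  la : ∀ o < X.nO, X.la.get o = X.T.lam G0.ed (X.ob.get o)
  cls : ∀ o, X.cls.get o = if o / 2 < X.nO then (X.la.get (o / 2)).size else 0

/-- the pieces -/
def PcOk (X : Fx) (K : ℕ) (s : Pc.St) : Prop :=
  ∃ M, Pc.Inv X.T X.T.ord.toFinset (fun _ => 1) K M s

/-- the vertices of the ends -/
def VxOk (P : Pm) (X : Fx) (rt vx : Arr ℕ) : Prop :=
  ∀ o, vx.get o = if o / 2 < X.nO then rt.get (nd X.ob.get o) else P.nw 0

/-- published objects are alive and attached -/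
def PubOk (X : Fx) (og : Arr Bool) (s : Pc.St) (pub : Arr Bool) : Prop :=
  ∀ o, pub.get o = true → o < X.nO ∧ og.get (X.ob.get o).1 = true ∧ s.Vt (X.ob.get o).2.1 ∧
    s.Vt (X.ob.get o).2.2.1 ∧ s.Vt (X.ob.get o).2.2.2

/-- everything but the spanner -/
structure DnOk (P : Pm) (Q K : ℕ) (X : Fx) (G0 G : Gr) (d : Dn) : Prop where
  pc : PcOk X K d.pc
  ed : ∀ e ∈ G.E, d.ed.get e = G.ed e
  og : ∀ e, d.og.get e = true → e ∈ G0.E ∧ e ∈ G.E ∧ G.ed e = G0.ed e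
  liv : ∀ x ∈ X.T.ord, d.pc.cut.get x = false → ∀ a ∈ X.T.pe.get x, d.og.get a.1 = true
  vx : VxOk P X d.pc.rt d.vx
  pub : PubOk X d.og d.pc d.pub
  pt : ∀ q, ∀ ab ∈ d.pt.get q, q / Q ∈ G.E ∧ d.og.get (q / Q) = false ∧
    ab.1 ∈ X.T.cv P (G.ed (q / Q)).a ∧ ab.2 ∈ X.T.cv P (G.ed (q / Q)).b
  ins : ∀ e ∈ G.E, d.og.get e = false →
    (∀ x ∈ X.T.cop.get (G.ed e).a ++ X.T.cop.get (G.ed e).b, d.pc.cut.get x = true) ∧
    ∀ a ∈ X.T.cv P (G.ed e).a, ∀ b ∈ X.T.cv P (G.ed e).b, ∃ q, q / Q = e ∧ d.pt.get q = some (a, b)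

/-- the spanner and the published objects -/
structure DsOk (X : Fx) (og : Arr Bool) (ds : Ds.St) (pub : Arr Bool) : Prop where
  al : ∀ o, ds.al.get o = true → o < X.nO ∧ og.get (X.ob.get o).1 = true
  cov : ∀ o < X.nO, og.get (X.ob.get o).1 = true → ds.al.get o = true ∨ pub.get o = true
  dp : ∀ o, ds.pub o → pub.get o = true

/-- **the invariant of the stage** -/
def Inv {A : Type} (p : Pr A) (c : Bd) (K : ℕ) (k : Ds.Cs) (Nx : ℕ → ℕ → Prop) (Gam : ℕ → ℕ)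
    (L : ℕ) (s : St A) (G H : Gr) (wk : ℕ → Wk) (n : ℕ) : Prop :=
  s.1 = p ∧ G.Ok c ∧ ∃ G0, FxOk p.P c G0 s.2.1 ∧ DnOk p.P p.Q K s.2.1 G0 G s.2.2 ∧
    DsOk s.2.1 s.2.2.og s.2.2.ds s.2.2.pub ∧
    (∃ n' ≤ n, Ds.Inv k Nx Gam s.2.1.cls.get s.2.1.gt.get s.2.1.la.get p.th1 L s.2.2.vx.get
      s.2.2.ds n') ∧
    Agr H wk (tb p.Q s.2.1 s.2.2) ∧ ∀ i, s.2.2.lv.get i = (tb p.Q s.2.1 s.2.2 i).isSome

/-- the bounds of the next graph are large enough -/
structure BdOk (P : Pm) (Q K : ℕ) (c c' : Bd) : Prop where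
  P1 : P.Ok
  hQ : Q = P.S ^ 2
  K1 : 1 ≤ K
  n1 : 3 * ((3 * c.nb + 3) * (P.D + 2) * P.S) ≤ c'.nb
  n2 : 3 * (c.m * Q) ≤ c'.nb
  n3 : 3 * ((c.nb + 1) * Q) ≤ c'.nb
  lb : K * (c.lb + 1) ≤ c'.lb
  gb : K * c.gb ≤ c'.gb

end Crest.Agent.N325.Sg
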