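import Crest.Agent.N325.Sg.Asym
import Crest.Agent.N325.Sg.Chain
import Crest.Agent.N325.Sg.Defs

/-!
# N325 / Sg (helper51): all parameters of the oracle as functions of `c` and `N`
-/

set_option autoImplicit false

namespace Crest.Agent.N325.Sg.Pk

open Tw Lt Filter

/-- touches of one update -/
def fM (P : Pm) : ℕ := 4 * (P.D + 3) * (P.D + 1) * P.S + 2 * P.S ^ 2
/-- recourse of one update -/
def fRU (P : Pm) (k : Ds.Cs) (L : ℕ) : ℕ := 40 * k.RU L (fM P) + 4 * fM P + 40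
/-- time of one update -/
def fTU (P : Pm) (K : ℕ) (k : Ds.Cs) (L : ℕ) : ℕ :=
  k.TU L (fM P) + 1000 * (K + 1) * (P.S + 1) * (fRU P k L + 1)
/-- time of the lift per edge -/
def fTL (P : Pm) (B : ℕ) : ℕ := 1000 * (P.D + 3) ^ 2 * (P.s + 1) ^ 2 * (B + 1) * (P.S + 1) ^ 2
/-- time of a build per edge -/
def fTb (P : Pm) (K : ℕ) (k : Ds.Cs) (L B : ℕ) : ℕ :=
  2 * fTL P B + L +
    2000 * (P.D + 3) ^ 2 * (P.S + 1) ^ 2 * (K + 1) * (k.Cb + k.LM + k.cH + P.S + 20)

section defs
variable (c N : ℕ)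

/-- number of bits -/
def lg : ℕ := (c + 5) * (Nat.log 2 N + 2)
/-- depth of the inner hierarchies -/
def T : ℕ := lev N ^ 2
/-- the small root -/
def bb : ℕ := 2 ^ (lg c N / T N + 1)
/-- the parameters of the forest -/
def P : Pm := ⟨lg c N, T N, lg c N ^ T N, 8 * lg c N + bb c N, 8 * lg c N⟩
/-- number of classes, bits of the heights -/
def La : ℕ := (2 ^ lg c N + 2 * (P c N).Hb).size + 1
def r0 : ℕ := 2 * lg c N + 1
def cH : ℕ := La c N * bb c N * (3 * T N * r0 c N + 1)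
def k0 : ℕ := 640 * cH c N * (T N + 3) * (T N + 1) * (P c N).S
/-- number of ids at the top -/
def mm : ℕ := 128 * (N + 1)
/-- the large root -/
def r : ℕ := rt (lev N) (mm N)
def K0 : ℕ := k0 c N * r N
def K : ℕ := 1 + (lg c N + 2) * K0 c N
def D0 : ℕ := K c N * (P c N).S
def γ : ℕ := gamF (T N) (T N) (r0 c N)
/-- the constants of the spanner -/
def cs : Ds.Cs := csF (bb c N) (2 ^ lg c N - 1) (T N) (T N) (r0 c N) (D0 c N) (La c N) (bb c N)
def LM : ℕ := lmF (T N) (T N)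
/-- loss in flatness -/
def A : ℕ := (P c N).al * (4 * LM N + 2)
/-- bound on the lengths on all levels -/
def LB : ℕ := (N + 2) ^ (c + 2)
def RU : ℕ := fRU (P c N) (cs c N) (T N)
def qn : ℕ := 18 * (T N + 2) * (P c N).S ^ 2
def q2 : ℕ := 2 * (1 + (lg c N + 2) * k0 c N)
/-- the parameters of the tower -/
def tp : TP :=
  ⟨lev N, r N, RU c N, K c N, 2 * (T N + 1) * (P c N).S + 2 * (P c N).S ^ 2, 1, A c N,
    fTU (P c N) (K c N) (cs c N) (T N), fTb (P c N) (K c N) (cs c N) (T N) (La c N), qn c N,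
    2 * K c N, (N + 2) ^ c, (N + 2) ^ c, (N + 2) ^ c, K c N + 2, 1⟩
/-- parameters of the lift and of the box -/
abbrev Ap : Type := Pm × ℕ × ℕ × ℕ
/-- the stored parameters of a stage -/
def prm (th1 : ℕ) : Pr Ap :=
  ⟨(P c N, La c N, LB c N, bb c N), P c N, K0 c N, K c N + 1, (P c N).S ^ 2, th1, bb c N,
    lmF (T N) 0, D0 c N, ddF (γ c N) (D0 c N) 0, prF (T N) (T N) (γ c N) (D0 c N)⟩
/-- those of the stage `i` -/
def ps (i : ℕ) : Pr Ap := prm c N ((2 * LM N + 1) * A c N ^ i)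
/-- a bound on all numbers -/
def XB : ℕ := 2 ^ lg c N * ((La c N + 4) * bb c N + bb c N ^ T N +
  (LM N + 1) * (2 * (P c N).Hb + 2) * 2 ^ lg c N + (2 * LM N + 1) * A c N ^ lev N * A c N +
  (T N + 1) * (P c N).S * 2 ^ lg c N)

end defs

/-! ### growth -/

section growth
variable (c : ℕ)

theorem qp_lg : QP (lg c) := by unfold lg; fun_prop
theorem ty_T : Ty T := by unfold T; fun_prop
theorem qp_S : QP fun N => (P c N).S := (qp_lg c).pow ty_T

theorem le_two_pow_lg (N : ℕ) : (N + 2) ^ (c + 5) ≤ 2 ^ lg c N := by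
  rw [lg, mul_comm, pow_mul]
  refine Nat.pow_le_pow_left ?_ _
  have := Nat.lt_pow_succ_log_self one_lt_two N
  have h2 : 0 < 2 ^ Nat.log 2 N := by positivity
  rw [pow_succ] at this
  rw [pow_add]; omega

theorem pb_M : PolyB fun N => 2 ^ lg c N := by
  refine PolyB.mono (H := fun N => (8 * N + 8) ^ (c + 5)) (by fun_prop) fun N => ?_
  rw [lg, mul_comm, pow_mul]
  refine Nat.pow_le_pow_left ?_ _
  have := two_pow_log_succ_le N
  rw [pow_succ] at this
  rw [pow_add]; omega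

theorem sl_bb : SubL (bb c) :=
  (SubL.rt_of (pb_M c)).mono fun N => by rw [rt, Nat.log_pow one_lt_two]; rfl

theorem T_pos (N : ℕ) : 0 < T N := Nat.one_le_pow _ _ (lev_pos N)

theorem bb_pow_le (N : ℕ) : bb c N ^ T N ≤ 2 ^ T N * 2 ^ lg c N := by
  rw [bb, ← pow_mul, ← pow_add, add_mul, one_mul, add_comm]
  exact Nat.pow_le_pow_right two_pos (Nat.add_le_add_left (Nat.div_mul_le_self _ _) _)

theorem le_bb_pow (N : ℕ) : 2 ^ lg c N ≤ bb c N ^ T N := by
  rw [bb, ← pow_mul, mul_comm]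
  exact Nat.pow_le_pow_right two_pos (Nat.lt_mul_div_succ _ (T_pos N)).le

theorem two_le_bb (N : ℕ) : 2 ≤ bb c N := Nat.le_self_pow (Nat.succ_ne_zero _) 2

theorem pb_bbT : PolyB fun N => bb c N ^ T N :=
  ((QP.two_pow ty_T).subL.subQ.polyB.mul (pb_M c)).mono (bb_pow_le c)

theorem pb_Hb : PolyB fun N => (P c N).Hb := by
  have h1 := pb_bbT c
  have h2 := ((((QP.const 8).mul (qp_lg c)).add (QP.const 1)).pow ty_T).subL.subQ.polyB
  have h3 := (qp_lg c).subL.subQ.polyB
  have h4 := ty_T.qp.subL.subQ.polyB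
  refine PolyB.mono (H := fun N => (T N + 1) *
    (8 * lg c N * ((8 * lg c N + 1) ^ T N * bb c N ^ T N) + 1)) (by fun_prop) fun N => ?_
  refine Nat.mul_le_mul_left _ (Nat.add_le_add_right (Nat.mul_le_mul_left _ ?_) _)
  rw [← mul_pow]
  refine Nat.pow_le_pow_left ?_ _
  have := Nat.mul_le_mul_left (8 * lg c N) (one_le_two.trans (two_le_bb c N))
  change 8 * lg c N + bb c N ≤ _
  rw [add_mul]; omega

theorem qp_La : QP (La c) :=
  (QP.size_of ((pb_M c).add ((PolyB.const 2).mul (pb_Hb c)))).add (QP.const 1)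

theorem qp_r0 : QP (r0 c) := by have := qp_lg c; unfold r0; fun_prop
theorem qp_γ : QP (γ c) := qp_gamF ty_T ty_T (qp_r0 c)
theorem qp_LM : QP LM := qp_lmF ty_T ty_T

theorem sl_cH : SubL (cH c) := by
  have := (qp_La c).subL; have := sl_bb c; have := ty_T.qp.subL; have := (qp_r0 c).subL
  unfold cH; fun_prop

theorem sl_k0 : SubL (k0 c) := by
  have := sl_cH c; have := ty_T.qp.subL; have := (qp_S c).subL
  unfold k0; fun_prop

theorem sl_q2 : SubL (q2 c) := by
  have := sl_k0 c; have := (qp_lg c).subL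
  unfold q2; fun_prop

theorem sl_qn : SubL (qn c) := by
  have := ty_T.qp.subL; have := (qp_S c).subL
  unfold qn; fun_prop

theorem sq_r : SubQ r := SubQ.rt_of (G := mm) (by unfold mm; fun_prop)

theorem sq_K : SubQ (K c) := by
  have := sq_r; have := (sl_k0 c).subQ; have := (qp_lg c).subL.subQ
  unfold K K0; fun_prop

theorem sq_D0 : SubQ (D0 c) := (sq_K c).mul (qp_S c).subL.subQ

theorem sl_A : SubL (A c) := by
  have := ty_T.qp.subL; have := (qp_lg c).subL; have := sl_bb c; have := qp_LM.subL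
  unfold A Pm.al P; fun_prop

theorem sl_fM : SubL fun N => fM (P c N) := by
  have : SubL fun N => (P c N).D := ty_T.qp.subL
  have := (qp_S c).subL
  unfold fM; fun_prop

theorem sl_RU : SubL (RU c) := by
  have := sl_fM c; have := ty_T.qp.subL
  have : SubL fun N => (cs c N).cH := sl_cH c
  have : SubL fun N => (cs c N).b := sl_bb c
  unfold RU fRU Ds.Cs.RU; fun_prop

theorem sq_T : (SubQ fun N => (tp c N).TU) ∧ SubQ fun N => (tp c N).Tb := by
  have h1 : SubQ fun N => (P c N).D := ty_T.qp.subL.subQ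
  have h2 := (qp_S c).subL.subQ
  have h3 : SubQ fun N => (P c N).s := (qp_lg c).subL.subQ
  have h4 : SubQ fun N => (cs c N).cH := (sl_cH c).subQ
  have h5 : SubQ fun N => (cs c N).b := (sl_bb c).subQ
  have h6 : SubQ fun N => (cs c N).LM := qp_LM.subL.subQ
  have h7 : SubQ fun N => (cs c N).DD := subQ_ddF (qp_γ c) ty_T (sq_D0 c)
  have h8 := ty_T.qp.subL.subQ
  have h9 : SubQ fun N => (cs c N).Cb := by
    have := (qp_r0 c).subL.subQ
    have : SubQ fun N => lmF (T N) (T N) := h6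
    unfold cs csF; fun_prop
  have h10 := sq_K c
  have h11 := (sl_fM c).subQ
  have h12 : SubQ fun N => fRU (P c N) (cs c N) (T N) := (sl_RU c).subQ
  have h13 := (qp_La c).subL.subQ
  constructor
  · simp only [tp, fTU, Ds.Cs.TU, Ds.Cs.Cr]; fun_prop
  · simp only [tp, fTb, fTL]; fun_prop

theorem sl_ρ : SubL fun N => (tp c N).ρ := by
  have := ty_T.qp.subL; have := (qp_S c).subL
  simp only [tp]; fun_prop

theorem pb_XB : PolyB (XB c) := by
  have := pb_M c; have := (qp_La c).subL.subQ.polyB; have := (sl_bb c).subQ.polyB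
  have := pb_bbT c; have := qp_LM.subL.subQ.polyB; have := pb_Hb c
  have := (sl_A c).pow_lev.polyB; have := (sl_A c).subQ.polyB
  have := ty_T.qp.subL.subQ.polyB; have := (qp_S c).subL.subQ.polyB
  unfold XB; fun_prop

/-- the facts that hold for large `N` -/
structure Ev (N : ℕ) : Prop where
  cm : 516 * (tp c N).cm ≤ N
  qn : qn c N ^ lev N ≤ N
  ql : 258 * (K c N + (tp c N).Kb) * (2 * q2 c N) ^ lev N ≤ N
  dd : ddF (γ c N) (D0 c N) (T N + 1) ≤ N
  K : K c N + 1 ≤ N
  γ : γ c N + LM N + k0 c N ≤ N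

theorem ev : ∀ᶠ N in atTop, Ev c N := by
  have h1 : SubQ fun N => (tp c N).cm := TP.subQ_cm (fun _ => rfl) (sl_RU c)
  have h2 := ((SubL.const 2).mul (sl_q2 c)).pow_lev
  have h3 := sq_K c
  have h4 : SubQ fun N => (tp c N).Kb := by
    have := (sl_RU c).subQ
    simp only [TP.Kb, TP.m, tp, pow_zero]; fun_prop
  have h5 := (qp_γ c).subL.subQ
  have h6 := qp_LM.subL.subQ
  have h7 := (sl_k0 c).subQ
  filter_upwards [((SubQ.const 516).mul h1).le_self, (sl_qn c).pow_lev.le_self,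
    (((SubQ.const 258).mul (h3.add h4)).mul h2).le_self,
    (subQ_ddF (qp_γ c) (ty_T.add (Ty.const 1)) (sq_D0 c)).le_self,
    (h3.add (SubQ.const 1)).le_self, ((h5.add h6).add h7).le_self] with N a1 a2 a3 a4 a5 a6
  exact ⟨a1, a2, a3, a4, a5, a6⟩

end growth

end Crest.Agent.N325.Sg.Pk
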