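import Crest.Agent.N325.Sg.Emit
import Crest.Agent.N325.Tw.BotImpl
import Crest.Agent.N325.Lst.ListImpl

/-! The emitter is implementable (helper30). -/

set_option autoImplicit false

namespace Crest.Agent.N325.Sg

open Tw

@[fun_prop] theorem impl_emit {α : Type} [Rp α] {live : α → Arr Bool}
    {new : α → ℕ → R (Option (Ed × Wk))} {dirty : α → List ℕ} (hl : Pu true live)
    (hn : Impl fun p : α × ℕ => new p.1 p.2) (hd : Pu true dirty) :
    Impl fun a => emit (live a) (new a) (dirty a) := by impl

end Crest.Agent.N325.Sg
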