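import Crest.Agent.N325.Sg.Defs
import Crest.Agent.N325.Sg.EmitImpl
import Crest.Agent.N325.Pc.Impl
import Crest.Agent.N325.Ds.Impl
import Crest.Agent.N325.Tw.Impl

/-! # Row 325 (helper64): the programs of the stage are implementable -/

set_option autoImplicit false

namespace Crest.Agent.N325.Sg

open Tw Lt

instance instRpPr {A : Type} [Rp A] : Rp (Pr A) :=
  Rp.via fun p => (p.a, p.P, p.K0, p.fu, p.Q, p.th1, p.b, p.P0, p.D0, p.D1, p.pr)
instance : Rp Fx := Rp.via fun X => (X.T, X.nO, X.ob, X.oe, X.en, X.gt, X.la, X.cls)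
instance : Rp Dn := Rp.via fun d => (d.ed, d.og, d.pc, d.vx, d.ds, d.pub, d.pt, d.lv)

variable {α A : Type} [Rp α] [Rp A]

section fields
variable {σ : Bool} {p : α → Pr A} {X : α → Fx} {d : α → Dn}
@[fun_prop] theorem Pr.pu_a (h : Pu σ p) : Pu σ fun a => (p a).a := by impl
@[fun_prop] theorem Pr.pu_P (h : Pu σ p) : Pu σ fun a => (p a).P := by impl
@[fun_prop] theorem Pr.pu_K0 (h : Pu σ p) : Pu σ fun a => (p a).K0 := by impl
@[fun_prop] theorem Pr.pu_fu (h : Pu σ p) : Pu σ fun a => (p a).fu := by impl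
@[fun_prop] theorem Pr.pu_Q (h : Pu σ p) : Pu σ fun a => (p a).Q := by impl
@[fun_prop] theorem Pr.pu_th1 (h : Pu σ p) : Pu σ fun a => (p a).th1 := by impl
@[fun_prop] theorem Pr.pu_b (h : Pu σ p) : Pu σ fun a => (p a).b := by impl
@[fun_prop] theorem Pr.pu_P0 (h : Pu σ p) : Pu σ fun a => (p a).P0 := by impl
@[fun_prop] theorem Pr.pu_D0 (h : Pu σ p) : Pu σ fun a => (p a).D0 := by impl
@[fun_prop] theorem Pr.pu_D1 (h : Pu σ p) : Pu σ fun a => (p a).D1 := by impl
@[fun_prop] theorem Pr.pu_pr (h : Pu σ p) : Pu σ fun a => (p a).pr := by impl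
@[fun_prop] theorem Fx.pu_T (h : Pu σ X) : Pu σ fun a => (X a).T := by impl
@[fun_prop] theorem Fx.pu_nO (h : Pu σ X) : Pu σ fun a => (X a).nO := by impl
@[fun_prop] theorem Fx.pu_ob (h : Pu σ X) : Pu σ fun a => (X a).ob := by impl
@[fun_prop] theorem Fx.pu_oe (h : Pu σ X) : Pu σ fun a => (X a).oe := by impl
@[fun_prop] theorem Fx.pu_en (h : Pu σ X) : Pu σ fun a => (X a).en := by impl
@[fun_prop] theorem Fx.pu_gt (h : Pu σ X) : Pu σ fun a => (X a).gt := by impl
@[fun_prop] theorem Fx.pu_la (h : Pu σ X) : Pu σ fun a => (X a).la := by impl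
@[fun_prop] theorem Fx.pu_cls (h : Pu σ X) : Pu σ fun a => (X a).cls := by impl
@[fun_prop] theorem Dn.pu_ed (h : Pu σ d) : Pu σ fun a => (d a).ed := by impl
@[fun_prop] theorem Dn.pu_og (h : Pu σ d) : Pu σ fun a => (d a).og := by impl
@[fun_prop] theorem Dn.pu_pc (h : Pu σ d) : Pu σ fun a => (d a).pc := by impl
@[fun_prop] theorem Dn.pu_vx (h : Pu σ d) : Pu σ fun a => (d a).vx := by impl
@[fun_prop] theorem Dn.pu_ds (h : Pu σ d) : Pu σ fun a => (d a).ds := by impl
@[fun_prop] theorem Dn.pu_pub (h : Pu σ d) : Pu σ fun a => (d a).pub := by impl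
@[fun_prop] theorem Dn.pu_pt (h : Pu σ d) : Pu σ fun a => (d a).pt := by impl
@[fun_prop] theorem Dn.pu_lv (h : Pu σ d) : Pu σ fun a => (d a).lv := by impl
end fields

variable {p : α → Pr A} {X : α → Fx} {d : α → Dn} {Q n e : α → ℕ} {l m : α → List ℕ}
  {w : α → Wo}

@[fun_prop] theorem pu_objT {ed : α → Arr Ed} {pub : α → Arr Bool} (hX : Pu true X)
    (h1 : Pu true ed) (h2 : Pu true pub) (hn : Pu true n) :
    Pu true fun a => objT (X a) (ed a) (pub a) (n a) := by impl

@[fun_prop] theorem pu_ptT {ed : α → Arr Ed} {pt : α → Arr (Option (ℕ × ℕ))} (hQ : Pu true Q)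
    (h1 : Pu true ed) (h2 : Pu true pt) (hn : Pu true n) :
    Pu true fun a => ptT (Q a) (ed a) (pt a) (n a) := by impl

@[fun_prop] theorem impl_tbR (hQ : Pu true Q) (hX : Pu true X) (hd : Pu true d) (hn : Pu true n) :
    Impl fun a => tbR (Q a) (X a) (d a) (n a) := by impl

@[fun_prop] theorem impl_obj1 {ed : α → Arr Ed} {x : α → Ob} (h1 : Pu true ed) (h2 : Pu true x)
    (hX : Pu true X) : Impl fun a => obj1 (ed a) (x a) (X a) := by impl

@[fun_prop] theorem impl_fxR {ed : α → Arr Ed} {T : α → LF} (h1 : Pu true ed) (h2 : Pu true T) :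
    Impl fun a => fxR (ed a) (T a) := by impl

@[fun_prop] theorem impl_reVx {rt vx : α → Arr ℕ} (hX : Pu true X) (h1 : Pu true rt)
    (hl : Pu true l) (h2 : Pu true vx) : Impl fun a => reVx (X a) (rt a) (l a) (vx a) := by impl

@[fun_prop] theorem impl_mark {pc : α → Pc.St} {vx : α → Arr ℕ} (hX : Pu true X) (hl : Pu true l)
    (h1 : Pu true pc) (h2 : Pu true vx) : Impl fun a => mark (X a) (l a) (pc a) (vx a) := by impl

@[fun_prop] theorem impl_pub1 (hX : Pu true X) (hn : Pu true n) (he : Pu true e) (hw : Pu true w) :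
    Impl fun a => pub1 (X a) (n a) (e a) (w a) := by impl

@[fun_prop] theorem impl_unp1 (he : Pu true e) (hw : Pu true w) :
    Impl fun a => unp1 (e a) (w a) := by impl

@[fun_prop] theorem impl_fin (hQ : Pu true Q) (hX : Pu true X) (hd : Pu true d) (hw : Pu true w) :
    Impl fun a => fin (Q a) (X a) (d a) (w a) := by impl

@[fun_prop] theorem impl_cvR {T : α → LF} {P : α → Pm} (h1 : Pu true T) (h2 : Pu true P)
    (hn : Pu true n) : Impl fun a => cvR (T a) (P a) (n a) := by impl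

@[fun_prop] theorem impl_pairs {t : α → ℕ × Arr (Option (ℕ × ℕ)) × List ℕ} (hl : Pu true l)
    (hm : Pu true m) (ht : Pu true t) : Impl fun a => pairs (l a) (m a) (t a) := by impl

@[fun_prop] theorem impl_clear {pt : α → Arr (Option (ℕ × ℕ))} (hQ : Pu true Q) (hn : Pu true n)
    (ht : Pu true pt) : Impl fun a => clear (Q a) (n a) (pt a) := by impl

variable {lf : A → List (ℕ × Ed) → R LF} {bx : A → Arr ℕ → Ds.BI → R Ds.BO}

theorem impl_cutR (hb : Impl fun q : A × Arr ℕ × Ds.BI => bx q.1 q.2.1 q.2.2) :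
    Impl fun q : Pr A × Fx × Dn × List ℕ × List ℕ =>
      cutR bx q.1 q.2.1 q.2.2.1 q.2.2.2.1 q.2.2.2.2 := by
  unfold cutR; impl

/-- **the stage is implementable** -/
theorem stageImpl (hl : Impl fun q : A × List (ℕ × Ed) => lf q.1 q.2)
    (hb : Impl fun q : A × Arr ℕ × Ds.BI => bx q.1 q.2.1 q.2.2) : StageImpl (stage lf bx) := by
  have hc := impl_cutR hb
  obtain ⟨ct, e1⟩ : ∃ ct : Pr A → Fx → Dn → List ℕ → List ℕ → R (Arr ℕ × Ds.St × Wo),
    cutR bx = ct := ⟨_, rfl⟩
  refine ⟨?_, ?_, ?_⟩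
  · change Impl fun q : Pr A × List (ℕ × Ed) => build lf bx q.1 q.2
    unfold build; impl
  · change Impl fun q : St A × Op => upd bx q.1 q.2
    unfold upd delO delN insN
    simp only [e1] at hc ⊢
    impl
  · change Impl fun s : St A => probe s
    unfold probe; impl

end Crest.Agent.N325.Sg
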