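import Crest.Agent.N325.Sg.Pk
import Crest.Agent.N325.Sg.Impl
import Crest.Agent.N325.Lt.Lift

/-! # Row 325 (helper64): the program that computes the parameters of a level -/

set_option autoImplicit false

namespace Crest.Agent.N325.Sg.Pk

open Tw Lt Filter

/-- the lift -/
def lf (a : Ap) (l : List (ℕ × Ed)) : R LF := liftR a.1 a.1.s a.2.1 a.2.2.1 l
/-- the box -/
def bx (a : Ap) (cls : Arr ℕ) (i : Ds.BI) : R Ds.BO := Bf.box cls a.2.1 a.2.2.2 a.1.D i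

theorem impl_stage : StageImpl (stage lf bx) :=
  stageImpl (by unfold lf; impl) (by unfold bx; impl)

/-- an unused level -/
def lv0 (p : Pr Ap) (lim : ℕ) : Lv (St Ap) (Pr Ap) :=
  blank (p, ⟨⟨[], Arr.cst 0, Arr.cst none, Arr.cst 0, Arr.cst 0, Arr.cst 0, Arr.cst [], Arr.cst [],
      Arr.cst [], []⟩, 0, Arr.cst (0, 0, 0, 0), Arr.cst [], Arr.cst [], Arr.cst 0, Arr.cst 0,
      Arr.cst 0⟩,
    ⟨Arr.cst ⟨0, 0, 0, 0⟩, Arr.cst false,
      ⟨Arr.cst false, Arr.cst [], Arr.cst 0, Arr.cst 0, Arr.cst 0, Arr.cst 0, Arr.cst []⟩,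
      Arr.cst 0, ⟨Arr.cst false, [], []⟩, Arr.cst false, Arr.cst none, Arr.cst false⟩) p lim

/-- the parameters of the lift and of the box -/
def apR (c N : ℕ) : R Ap :=
  lg2 N >>= fun l => levR N >>= fun v => nat ((c + 5) * (l + 2)) >>= fun lg => powR v 2 >>= fun T =>
  powR 2 (lg / T + 1) >>= fun bb => powR lg T >>= fun S => powR 2 lg >>= fun M =>
  nat (8 * lg) >>= fun β => nat (8 * lg + bb) >>= fun ρ => powR ρ T >>= fun u =>
  nat (M + 2 * ((T + 1) * (β * u + 1))) >>= fun z => nat (N + 2) >>= fun x =>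
  powR x (c + 2) >>= fun LB => pure (⟨lg, T, S, ρ, β⟩, z.size + 1, LB, bb)

/-- **the level number `x.2`** -/
def par (c : ℕ) (x : ℕ × ℕ) : R (Lv (St Ap) (Pr Ap)) :=
  apR c x.1 >>= fun a => levR x.1 >>= fun v => nat (2 * a.1.s + 1) >>= fun r0 =>
  nat (128 * (x.1 + 1)) >>= fun mm => rtR v mm >>= fun r =>
  nat (640 * (a.2.1 * a.2.2.2 * (3 * a.1.D * r0 + 1)) * (a.1.D + 3) * (a.1.D + 1) * a.1.S * r) >>=
    fun K0 =>
  nat (1 + (a.1.s + 2) * K0) >>= fun K => nat (K * a.1.S) >>= fun D0 =>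
  gamR a.1.D a.1.D r0 >>= fun γ => prR a.1.D a.1.D γ D0 >>= fun q => lmR a.1.D a.1.D >>= fun LM =>
  nat ((a.1.D + 1) * (4 * a.1.s) * (1 + 4 * (a.1.β + 1) * a.1.ρ) * (4 * LM + 2)) >>= fun A =>
  powR A x.2 >>= fun u => nat ((2 * LM + 1) * u) >>= fun th1 => powR a.1.S 2 >>= fun Q =>
  powR r x.2 >>= fun lim =>
  pure (lv0 ⟨a, a.1, K0, K + 1, Q, th1, a.2.2.2, q.1, D0, q.2.1, q.2.2⟩ lim)

theorem impl_apR (c : ℕ) : Impl (apR c) := by
  unfold apR; impl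

theorem impl_par (c : ℕ) : Impl (par c) := by
  have := impl_apR c
  unfold par; impl

section
variable (c N : ℕ)

/-- a bound on the numbers computed by `par` -/
def ZB : ℕ := 8 * lg c N + bb c N + T N + (P c N).S + (P c N).S ^ 2 + (P c N).ρ ^ T N +
  (2 ^ lg c N + 2 * (P c N).Hb) + (N + 2) + LB c N + (2 * mm N + 2) + K0 c N + K c N + D0 c N +
  γ c N + LM N + ddF (γ c N) (D0 c N) (T N) + A c N + (2 * LM N + 1) * A c N ^ lev N +
  r N ^ lev N + 1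

/-- the time of `par` -/
def tP : ℕ :=
  10 * Nat.log 2 N + 2 * lg c N + 12 * T N + 2 * Nat.log 2 (mm N) + 2 * lev N + c + 50

end

theorem lg_pos (c N : ℕ) : 0 < lg c N := by unfold lg; positivity

theorem A_pos (c N : ℕ) : 0 < A c N := by
  have := lg_pos c N
  simp only [A, Pm.al, P]; positivity

theorem pb_ZB (c : ℕ) : PolyB (ZB c) := by
  have := (qp_lg c).subL.subQ.polyB; have := (sl_bb c).subQ.polyB
  have := ty_T.qp.subL.subQ.polyB; have := (qp_S c).subL.subQ.polyB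
  have := pb_M c; have h := pb_Hb c
  have : PolyB fun N => (P c N).ρ ^ T N := h.mono fun N => by
    have := lg_pos c N
    exact (Nat.le_mul_of_pos_left _ (by positivity : 0 < 8 * lg c N)).trans
      ((Nat.le_succ _).trans (Nat.le_mul_of_pos_left _ (Nat.succ_pos _)))
  have : PolyB (LB c) := by unfold LB; fun_prop
  have hm : PolyB mm := by unfold mm; fun_prop
  have : PolyB (K0 c) := ((sl_k0 c).subQ.mul sq_r).polyB
  have := (sq_K c).polyB; have := (sq_D0 c).polyB; have := (qp_γ c).subL.subQ.polyB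
  have := qp_LM.subL.subQ.polyB; have := (subQ_ddF (qp_γ c) ty_T (sq_D0 c)).polyB
  have := (sl_A c).pow_lev.polyB; have := (sl_A c).subQ.polyB
  have : PolyB fun N => r N ^ lev N := PolyB.rt_pow_lev hm
  unfold ZB; fun_prop

theorem sq_tP (c : ℕ) : SubQ (tP c) := by
  have := (qp_lg c).subL.subQ; have := ty_T.qp.subL.subQ
  have : SubQ fun N => Nat.log 2 (mm N) :=
    (QP.log_of (G := mm) (by unfold mm; fun_prop)).subL.subQ
  unfold tP; fun_prop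

variable {g : Gl} {c N : ℕ}

theorem sp_apR (h : ZB c N ≤ g.X) : Sp g (apR c N) fun a t =>
    a = (P c N, La c N, LB c N, bb c N) ∧ t ≤ 5 * Nat.log 2 N + 2 * lg c N + 2 * T N + c + 16 := by
  have h0 := lg_pos c N
  have h9 : 0 < 2 ^ lg c N := by positivity
  have h1 := Nat.div_le_self (lg c N) (T N)
  unfold ZB at h
  refine (sp_lg2 N).bind ?_
  rintro _ t1 ⟨rfl, e1⟩
  refine (sp_levR N).bind ?_
  rintro _ t2 ⟨rfl, e2⟩
  refine sp_bind.2 (sp_nat.2 ⟨show lg c N ≤ _ by omega, ?_⟩)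
  refine (sp_powR (lev_pos N) (show T N ≤ _ by omega)).bind ?_
  rintro _ t3 ⟨rfl, e3⟩
  refine (sp_powR one_le_two (show bb c N ≤ _ by omega)).bind ?_
  rintro _ t4 ⟨rfl, e4⟩
  refine (sp_powR h0 (show (P c N).S ≤ _ by omega)).bind ?_
  rintro _ t5 ⟨rfl, e5⟩
  refine (sp_powR one_le_two (show 2 ^ lg c N ≤ _ by omega)).bind ?_
  rintro _ t6 ⟨rfl, e6⟩
  refine sp_bind.2 (sp_nat.2 ⟨show 8 * lg c N ≤ _ by omega, ?_⟩)
  refine sp_bind.2 (sp_nat.2 ⟨show 8 * lg c N + bb c N ≤ _ by omega, ?_⟩)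
  refine (sp_powR (show 1 ≤ 8 * lg c N + bb c N by omega)
    (show (P c N).ρ ^ T N ≤ _ by omega)).bind ?_
  rintro _ t7 ⟨rfl, e7⟩
  refine sp_bind.2 (sp_nat.2 ⟨show 2 ^ lg c N + 2 * (P c N).Hb ≤ _ by omega, ?_⟩)
  refine sp_bind.2 (sp_nat.2 ⟨by omega, ?_⟩)
  refine (sp_powR (by omega) (show LB c N ≤ _ by omega)).bind ?_
  rintro _ t8 ⟨rfl, e8⟩
  refine sp_pure.2 ⟨rfl, ?_⟩
  change t4 ≤ lg c N / T N + 1 + 1 at e4
  change t5 ≤ T N + 1 at e5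
  change t7 ≤ T N + 1 at e7
  omega

theorem sp_par (h : ZB c N ≤ g.X) {i : ℕ} (hi : i ≤ lev N) :
    Sp g (par c (N, i)) fun v t => v.p = ps c N i ∧ v.lim = r N ^ i ∧ t ≤ tP c N := by
  have h0 := lg_pos c N
  have h9 : 0 < 2 ^ lg c N := by positivity
  have h1 : A c N ^ i ≤ A c N ^ lev N := Nat.pow_le_pow_right (A_pos c N) hi
  have h2 := Nat.mul_le_mul_left (2 * LM N + 1) h1
  have h3 : A c N ^ i ≤ (2 * LM N + 1) * A c N ^ i := Nat.le_mul_of_pos_left _ (Nat.succ_pos _)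
  have h4 : 1 ≤ r N := one_le_two.trans (two_le_rt _ _)
  have h5 : r N ^ i ≤ r N ^ lev N := Nat.pow_le_pow_right h4 hi
  refine (sp_apR h).bind ?_
  rintro _ t1 ⟨rfl, e1⟩
  unfold ZB at h
  refine (sp_levR N).bind ?_
  rintro _ t2 ⟨rfl, e2⟩
  refine sp_bind.2 (sp_nat.2 ⟨show 2 * lg c N + 1 ≤ _ by omega, ?_⟩)
  refine sp_bind.2 (sp_nat.2 ⟨show mm N ≤ _ by omega, ?_⟩)
  refine (sp_rtR (show 2 * mm N + 2 ≤ _ by omega)).bind ?_
  rintro _ t3 ⟨rfl, e3⟩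
  refine sp_bind.2 (sp_nat.2 ⟨show K0 c N ≤ _ by omega, ?_⟩)
  refine sp_bind.2 (sp_nat.2 ⟨show K c N ≤ _ by omega, ?_⟩)
  refine sp_bind.2 (sp_nat.2 ⟨show D0 c N ≤ _ by omega, ?_⟩)
  refine (sp_gamR (T_pos N) (Nat.succ_pos _) (show γ c N ≤ _ by omega)).bind ?_
  rintro _ t4 ⟨rfl, e4⟩
  refine (sp_prR (show LM N ≤ _ by omega) (show ddF (γ c N) (D0 c N) (T N) ≤ _ by omega)).bind ?_
  rintro _ t5 ⟨rfl, e5⟩
  refine (sp_lmR (show LM N ≤ _ by omega)).bind ?_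
  rintro _ t6 ⟨rfl, e6⟩
  refine sp_bind.2 (sp_nat.2 ⟨show A c N ≤ _ by omega, ?_⟩)
  refine (sp_powR (A_pos c N) (show A c N ^ i ≤ _ by omega)).bind ?_
  rintro _ t7 ⟨rfl, e7⟩
  refine sp_bind.2 (sp_nat.2 ⟨show (2 * LM N + 1) * A c N ^ i ≤ _ by omega, ?_⟩)
  refine (sp_powR (Nat.one_le_pow _ _ h0) (show (P c N).S ^ 2 ≤ _ by omega)).bind ?_
  rintro _ t8 ⟨rfl, e8⟩
  refine (sp_powR h4 (show r N ^ i ≤ _ by omega)).bind ?_
  rintro _ t9 ⟨rfl, e9⟩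
  refine sp_pure.2 ⟨rfl, rfl, ?_⟩
  change t3 ≤ 2 * Nat.log 2 (mm N) + 3 at e3
  change t4 ≤ 2 * T N + T N + 5 at e4
  change t5 ≤ T N + 2 * T N + 4 at e5
  change t6 ≤ T N + T N + 4 at e6
  unfold tP
  omega

end Crest.Agent.N325.Sg.Pk
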