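import Crest.Agent.N325.Tw.Fit

/-!
# N325 / Sg (helper51): closed forms for the constants of the tower

Levels are counted from the bottom (`0` = Bellman–Ford, `L` = top).  The stage `sc i` serves the
graph of height `i + 1` and keeps the graph of height `i`.
-/

set_option autoImplicit false

namespace Crest.Agent.N325.Sg

open Tw

/-- uniform parameters of a tower: height, ratio of the sizes, recourse per update, length of the
walks, users per edge, ratio, loss in flatness, times (update, build per edge), blow-up of the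
names and of the numbers, top bounds, prices of the reports -/
structure TP where
  L : ℕ
  r : ℕ
  RU : ℕ
  K : ℕ
  ρ : ℕ
  ψ : ℕ
  A : ℕ
  TU : ℕ
  Tb : ℕ
  qn : ℕ
  ql : ℕ
  nb : ℕ
  lb : ℕ
  gb : ℕ
  cc : ℕ
  wt : ℕ

namespace TP

variable (p : TP)

/-- number of ids -/
def m (i : ℕ) : ℕ := 2 * p.RU * p.r ^ i
/-- bounds on the graph of height `i` -/
def bd (i : ℕ) : Bd :=
  ⟨p.m i, p.nb * p.qn ^ (p.L - i), p.lb * p.ql ^ (p.L - i), p.gb * p.ql ^ (p.L - i)⟩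
/-- flatness -/
def th (i : ℕ) : ℕ := p.ψ * p.A ^ i
/-- the constants of the stage between the heights `i + 1` and `i` -/
def sc (i : ℕ) : SC :=
  ⟨p.bd (i + 1), p.bd i, p.th (i + 1), p.th i, p.ψ, p.K, p.ρ, p.r ^ i, p.RU * p.r ^ i, p.RU,
    p.Tb * p.m (i + 1), p.TU⟩
/-- growth per level -/
def Q : ℕ := 16 * p.RU
def W : ℕ := p.Tb + p.cc + p.TU + 10
def U : ℕ := 8 * p.RU * p.r * p.W
/-- length of the walks and time of the bottom search -/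
def Kb : ℕ := 2 * p.m 0 + 1
def Tz : ℕ := 8 * (p.m 0 + 1) ^ 2
def V : ℕ := 2 * p.U + 2 * p.K + 7 + (p.m 0 + p.Tz + 2 * p.Kb + 3)
/-- price of the flow moved by one step -/
def S0 (θ κ : ℕ) : ℕ := (p.wt + (p.L + 1) * p.cc) * κ / θ + 1
/-- saving per update -/
def Z (i : ℕ) : ℕ := 4 * p.RU * p.r * p.W * p.Q ^ (i + 1)
/-- the constants of the tower of height `i` -/
def tc (θ κ i : ℕ) : TC :=
  ⟨p.bd i, p.th i, p.ψ, θ * (p.ρ + 1) ^ i, θ * (i + 1) + κ, p.wt + (p.L - i) * p.cc, p.cc,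
    p.U * p.Q ^ i, (p.V + p.S0 θ κ) * p.Q ^ i, 2 * (p.cc + 4) * p.m i, p.m i * p.W * p.Q ^ i⟩
/-- the largest length of a walk -/
def LK : ℕ := (p.K + p.Kb) * (p.lb * p.ql ^ p.L)
/-- the largest gradient of a walk -/
def GK : ℕ := (p.K + p.Kb) * (p.gb * p.ql ^ p.L)

/-- the side conditions -/
structure Ok (X θ κ : ℕ) : Prop where
  θ1 : 0 < θ
  r2 : 2 ≤ p.r
  RU1 : 1 ≤ p.RU
  ql1 : 1 ≤ p.ql
  cc : p.K + 2 ≤ p.cc
  lκ : p.LK ≤ κ
  rpX : θ * (p.L + 1) + κ ≤ X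
  gX : p.GK ≤ X

variable {p} {X θ κ : ℕ}

theorem lb_le (h : 1 ≤ p.ql) (i : ℕ) : (p.bd i).lb ≤ p.lb * p.ql ^ p.L :=
  Nat.mul_le_mul_left _ (Nat.pow_le_pow_right h (Nat.sub_le _ _))

theorem gb_le (h : 1 ≤ p.ql) (i : ℕ) : (p.bd i).gb ≤ p.gb * p.ql ^ p.L :=
  Nat.mul_le_mul_left _ (Nat.pow_le_pow_right h (Nat.sub_le _ _))

theorem nb_le (h : 1 ≤ p.qn) (i : ℕ) : (p.bd i).nb ≤ p.nb * p.qn ^ p.L :=
  Nat.mul_le_mul_left _ (Nat.pow_le_pow_right h (Nat.sub_le _ _))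

theorem m_le (h : 1 ≤ p.r) {i j : ℕ} (hij : i ≤ j) : p.m i ≤ p.m j :=
  Nat.mul_le_mul_left _ (Nat.pow_le_pow_right h hij)

theorem th_le (h : 1 ≤ p.A) {i j : ℕ} (hij : i ≤ j) : p.th i ≤ p.th j :=
  Nat.mul_le_mul_left _ (Nat.pow_le_pow_right h hij)

theorem m_succ (i : ℕ) : p.m (i + 1) = p.r * p.m i := by unfold m; ring
theorem th_succ (i : ℕ) : p.th (i + 1) = p.A * p.th i := by unfold th; ring

theorem bd_succ {i : ℕ} (hi : i < p.L) : (p.bd i).nb = p.qn * (p.bd (i + 1)).nb ∧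
    (p.bd i).lb = p.ql * (p.bd (i + 1)).lb ∧ (p.bd i).gb = p.ql * (p.bd (i + 1)).gb := by
  have e : p.L - i = p.L - (i + 1) + 1 := by omega
  simp only [bd, e, pow_succ]
  exact ⟨by ring, by ring, by ring⟩

theorem bd_top : p.bd p.L = ⟨p.m p.L, p.nb, p.lb, p.gb⟩ := by simp [bd]

theorem le_S0 (h : 0 < θ) {w : ℕ} (hw : w ≤ p.wt + (p.L + 1) * p.cc) : w * κ ≤ θ * p.S0 θ κ :=
  (Nat.mul_le_mul_right _ hw).trans (Nat.lt_mul_div_succ _ h).le

/-- **the bottom level** -/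
theorem fitB (h : p.Ok X θ κ) : FitB X θ κ p.Kb p.Tz (p.tc θ κ 0) := by
  have hl := lb_le h.ql1 0
  have hg := gb_le h.ql1 0
  have a1 : p.Kb * (p.bd 0).lb ≤ p.LK := Nat.mul_le_mul (Nat.le_add_left _ _) hl
  have a2 : p.Kb * (p.bd 0).gb ≤ p.GK := Nat.mul_le_mul (Nat.le_add_left _ _) hg
  have a3 := h.rpX
  have a4 := h.lκ
  have a5 : 1 ≤ p.m 0 := by have := h.RU1; simp only [m, pow_zero]; omega
  refine ⟨h.θ1, by simp [tc, th], by simp [tc], by simp [tc], ?_, a1.trans a4, ?_,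
    a2.trans h.gX, ?_, ?_, ?_⟩
  · simp only [tc]; nlinarith [Nat.zero_le (θ * p.L)]
  · exact a1.trans (a4.trans (le_trans (Nat.le_add_left _ _) a3))
  · simp only [tc, pow_zero, mul_one, U]
    have : 1 * 1 ≤ 8 * p.RU * p.r := Nat.mul_le_mul (by have := h.RU1; omega) (by have := h.r2; omega)
    exact le_trans (by simp only [W]; omega) (Nat.mul_le_mul_right p.W this)
  · have := le_S0 (p := p) (κ := κ) h.θ1 (w := p.wt + p.L * p.cc + p.cc) (by nlinarith)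
    simp only [tc, pow_zero, mul_one, Nat.sub_zero, bd]
    have e : θ * (p.m 0 + p.Tz + 2 * p.Kb + 3) ≤ θ * p.V :=
      Nat.mul_le_mul_left _ (Nat.le_add_left _ _)
    rw [mul_add θ p.V]; omega
  · simp only [tc, bd]; nlinarith

/-- **the levels above** -/
theorem fit (h : p.Ok X θ κ) {i : ℕ} (hi : i < p.L) :
    Fit X θ κ (p.sc i) (p.Z i) (p.tc θ κ i) (p.tc θ κ (i + 1)) := by
  have hl := lb_le h.ql1 (i + 1)
  have hg := gb_le h.ql1 (i + 1)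
  have a1 : p.K * (p.bd (i + 1)).lb ≤ p.LK := Nat.mul_le_mul (Nat.le_add_right _ _) hl
  have a2 : p.K * (p.bd (i + 1)).gb ≤ p.GK := Nat.mul_le_mul (Nat.le_add_right _ _) hg
  have a3 := h.rpX
  have a4 := h.lκ
  have r2 := h.r2
  have u1 := h.RU1
  have hr : 1 ≤ p.r ^ i := Nat.one_le_pow _ _ (by omega)
  have hq : 1 ≤ p.Q ^ i := Nat.one_le_pow _ _ (by simp only [Q]; omega)
  have hW : p.W = p.Tb + p.cc + p.TU + 10 := rfl
  -- `y = RU r W Q^i`, all times are multiples of it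
  obtain ⟨y, hy⟩ : ∃ y, y = p.RU * p.r * p.W * p.Q ^ i := ⟨_, rfl⟩
  have y1 : p.RU * 2 * p.W * 1 ≤ y :=
    hy ▸ Nat.mul_le_mul (Nat.mul_le_mul_right _ (Nat.mul_le_mul_left _ r2)) hq
  have y2 : p.W ≤ p.RU * p.W := Nat.le_mul_of_pos_left _ u1
  have y3 : p.RU * 10 ≤ p.RU * p.W := Nat.mul_le_mul_left _ (by omega)
  have y4 : y ≤ p.RU * y := Nat.le_mul_of_pos_left _ u1
  have eU : p.U * p.Q ^ i = 8 * y := by rw [hy, U]; ring
  have eU' : p.U * p.Q ^ (i + 1) = 128 * (p.RU * y) := by rw [hy, U, pow_succ p.Q, Q]; ring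
  have eZ : p.Z i = 64 * (p.RU * y) := by rw [hy, Z, pow_succ p.Q, Q]; ring
  have hAU : p.TU + p.RU * (p.U * p.Q ^ i + 3) + p.Z i + p.cc + 1 ≤ p.U * p.Q ^ (i + 1) := by
    rw [eU, eU', eZ]; nlinarith
  refine ⟨h.θ1, rfl, rfl, rfl, rfl, rfl, rfl, hr, ?_, ?_, ?_, ?_, ?_, ?_, h.cc, a1.trans a4,
    a1.trans (a4.trans (le_trans (Nat.le_add_left _ _) a3)), a2.trans h.gX, ?_, ?_, hAU, ?_, ?_⟩
  · simp only [sc, bd, m]; nlinarith
  · simp only [sc, tc, pow_succ]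
    have : θ * 1 ≤ θ * (p.ρ + 1) ^ i := Nat.mul_le_mul_left _ (Nat.one_le_pow _ _ (by omega))
    nlinarith
  · simp only [tc]; nlinarith
  · simp only [tc]; nlinarith [Nat.zero_le (θ * i)]
  · exact le_trans (Nat.add_le_add_right (Nat.mul_le_mul_left _ (by omega)) _) a3
  · simp only [tc]
    have e : p.L - i = p.L - (i + 1) + 1 := by omega
    rw [e]; nlinarith
  · -- reset
    simp only [sc, tc, bd, m_succ, eU]
    obtain ⟨x, hx⟩ : ∃ x, x = p.r * p.m i := ⟨_, rfl⟩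
    have b1 : p.m i * p.W * p.Q ^ i ≤ x * p.W * p.Q ^ i :=
      Nat.mul_le_mul_right _ (Nat.mul_le_mul_right _ (hx ▸ Nat.le_mul_of_pos_left _ (by omega)))
    have b2 : x * p.W * 1 ≤ x * p.W * p.Q ^ i := Nat.mul_le_mul_left _ hq
    have b3 : p.RU * p.r ^ i * (8 * y) = 4 * (p.RU * (x * p.W * p.Q ^ i)) := by
      rw [hy, hx, m]; ring
    have b4 : 2 * (2 * (p.RU * p.r ^ i)) ≤ x := by
      rw [hx, m, mul_assoc]; exact Nat.mul_le_mul_right _ r2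
    have b5 : 1 * 1 ≤ p.RU * p.r ^ i := Nat.mul_le_mul u1 hr
    have b6 : x * p.W * p.Q ^ (i + 1) = 16 * (p.RU * (x * p.W * p.Q ^ i)) := by
      rw [pow_succ p.Q, Q]; ring
    have b7 : x * p.W * p.Q ^ i ≤ p.RU * (x * p.W * p.Q ^ i) := Nat.le_mul_of_pos_left _ u1
    have b8 : x * (p.Tb + 10) ≤ x * p.W := Nat.mul_le_mul_left _ (by omega)
    rw [← hx, b6, mul_add (p.RU * p.r ^ i), b3]
    nlinarith
  · -- saving
    simp only [sc, tc, m_succ, eZ]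
    have b1 : p.r * p.m i * p.W * p.Q ^ (i + 1) = p.r ^ i * (32 * (p.RU * y)) := by
      rw [hy, m, pow_succ p.Q, Q]; ring
    have b2 : 2 * (p.cc + 4) * p.m i = p.r ^ i * (4 * (p.RU * (p.cc + 4))) := by rw [m]; ring
    have b3 : p.RU * (p.cc + 4) ≤ p.RU * p.W := Nat.mul_le_mul_left _ (by omega)
    have b4 : p.r ^ i * (4 * (p.RU * (p.cc + 4)) + 2 + 32 * (p.RU * y)) ≤
        p.r ^ i * (64 * (p.RU * y)) := Nat.mul_le_mul_left _ (by nlinarith)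
    rw [b1, b2]; nlinarith
  · -- step
    have b1 := le_S0 (p := p) (κ := κ) h.θ1 (w := p.wt + (p.L - (i + 1)) * p.cc + p.cc) (by
      have := Nat.mul_le_mul_right p.cc (Nat.sub_le p.L (i + 1)); nlinarith)
    simp only [sc, tc]
    refine le_trans (Nat.add_le_add_left b1 _) ?_
    rw [← mul_add]
    refine Nat.mul_le_mul_left _ ?_
    obtain ⟨s, hs⟩ : ∃ s, s = p.S0 θ κ := ⟨_, rfl⟩
    obtain ⟨v, hv⟩ : ∃ v, v = (p.V + s) * p.Q ^ i := ⟨_, rfl⟩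
    have b2 : (p.V + s) * p.Q ^ (i + 1) = 16 * (p.RU * v) := by rw [hv, pow_succ p.Q, Q]; ring
    have b3 : (p.V + s) * 1 ≤ v := hv ▸ Nat.mul_le_mul_left _ hq
    have b4 : 2 * p.U * p.Q ^ i ≤ v :=
      hv ▸ Nat.mul_le_mul_right _ (by simp only [V]; omega)
    have b5 : v ≤ p.RU * v := Nat.le_mul_of_pos_left _ u1
    have b6 : p.RU * (16 * y) ≤ p.RU * v := Nat.mul_le_mul_left _ (by nlinarith)
    have b7 : 2 * p.K + 7 ≤ p.V := by simp only [V]; omega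
    rw [← hs, ← hv, b2]
    rw [eU'] at hAU
    nlinarith
  · simp only [sc, tc, bd, m_succ]
    have b1 : 1 * 1 ≤ p.m i := by
      rw [m]; exact Nat.mul_le_mul (by omega) hr
    have b2 : 2 * p.m i ≤ p.r * p.m i := Nat.mul_le_mul_right _ r2
    have b3 := Nat.mul_le_mul_left (p.cc + 4) b2
    nlinarith

end TP

theorem _root_.Crest.Agent.N325.Tw.Flat.mono {G : Gr} {a b : ℕ} (h : Flat G a) (hab : a ≤ b) :
    Flat G b := by
  obtain ⟨z, hz⟩ := h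
  exact ⟨z, fun e he => (hz e he).trans
    (mul_le_mul_of_nonneg_right (Nat.cast_le.2 hab) (Nat.cast_nonneg _))⟩

theorem oks_mono {K K' : ℕ} (hK : K ≤ K') {c : Bd} {G : Gr} :
    ∀ {l : List Ow} {H : Gr}, Oks K c G H l → Oks K' c G H l
  | [], _, _ => trivial
  | _ :: _, _, h => ⟨h.1, fun x hx => ⟨(h.2.1 x hx).1, (h.2.1 x hx).2.1,
      (h.2.1 x hx).2.2.1.trans hK, (h.2.1 x hx).2.2.2⟩, oks_mono hK h.2.2⟩

/-- **weakening of the constants of a stage** -/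
theorem stage_mono {S P : Type} {g : Gl} {σ : Stage S P} {q : P} {k k' : SC}
    {I : S → Gr → Gr → (ℕ → Wk) → ℕ → Prop} {Φ rc : S → ℕ} (h : StageSpec g σ q k I Φ rc)
    (hc : k'.c = k.c) (hc' : k'.c' = k.c') (ht : k.th ≤ k'.th) (ht' : k'.th' = k.th')
    (hψ : k'.ψ = k.ψ) (hK : k.K ≤ k'.K) (hρ : k.ρ ≤ k'.ρ) (hl : k'.lim ≤ k.lim)
    (hRB : k.RB ≤ k'.RB) (hRU : k.RU ≤ k'.RU) (hTB : k.TB ≤ k'.TB) (hTU : k.TU ≤ k'.TU) :
    StageSpec g σ q k' I Φ rc := by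
  refine ⟨fun hI => ?_, fun G l wk hG hl => ?_, fun o hI hn ho hG hG' => ?_,
    fun hI hn hG hF => ?_⟩
  · have r := h.rel hI
    exact ⟨r.tel, fun x hx => ⟨(r.wok x hx).1, (r.wok x hx).2.1.trans hK, (r.wok x hx).2.2⟩,
      r.grad, fun e he => (r.use e he).trans hρ⟩
  · refine (h.build G l wk (hc ▸ hG) hl).mono ?_
    rintro r t ⟨a1, a2, a3, a4⟩
    exact ⟨hc' ▸ oks_mono hK a1, a2, a3.trans hRB, a4.trans hTB⟩
  · refine (h.upd o hI (hn.trans_le hl) ho (hc ▸ hG) (hc ▸ hG')).mono ?_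
    rintro r t ⟨a1, a2, a3, a4⟩
    exact ⟨hc' ▸ oks_mono hK a1, a2, by omega, by omega⟩
  · refine (h.probe hI (hn.trans_le hl) (hc ▸ hG) (ht' ▸ hF)).mono ?_
    rintro r t ⟨a1, ⟨b1, b2, b3, b4, b5⟩ | ⟨b1, b2, b3, b4, b5, b6⟩⟩
    · refine ⟨by omega, Or.inl ⟨b1, b2, b3, fun w hw => ?_, fun e => (b5 e).mono ht⟩⟩
      obtain ⟨c1, c2, c3, c4⟩ := b4 w hw
      exact ⟨c1, c2.trans hK, c3, hψ ▸ c4⟩
    · exact ⟨by omega, Or.inr ⟨b1, b2, hc' ▸ oks_mono hK b3, b4, by omega, ht' ▸ b6⟩⟩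

end Crest.Agent.N325.Sg
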