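import Crest.Agent.N325.Sg.Mark
import Crest.Agent.N325.Pc.Root
import Crest.Agent.N325.Ds.Probe

/-! # Row 325 (helper20): flatness of the next graph gives flatness of the graph -/

set_option autoImplicit false
open Finset

namespace Crest.Agent.N325.Sg

open Tw Lt

variable {P : Pm} {Q K : ℕ} {c : Bd} {G0 G H : Gr} {wk : ℕ → Wk} {X : Fx} {d : Dn}

theorem tb0 (u : ℕ) : tb Q X d (3 * u) = Pc.seg X.T d.pc u := by
  unfold tb; rw [if_pos (by omega), show 3 * u / 3 = u by omega]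
theorem tb1 (o : ℕ) : tb Q X d (3 * o + 1) = objT X d.ed d.pub o := by
  unfold tb; rw [if_neg (by omega), if_pos (by omega), show (3 * o + 1) / 3 = o by omega]
theorem tb2 (q : ℕ) : tb Q X d (3 * q + 2) = ptT Q d.ed d.pt q := by
  unfold tb; rw [if_neg (by omega), if_neg (by omega), show (3 * q + 2) / 3 = q by omega]

theorem nd0 (ob : ℕ → Ob) (o : ℕ) : nd ob (2 * o) = (ob o).2.1 := by
  unfold nd; rw [if_pos (by omega), show 2 * o / 2 = o by omega]
theorem nd1 (ob : ℕ → Ob) (o : ℕ) : nd ob (2 * o + 1) = (ob o).2.2.1 := by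
  unfold nd; rw [if_neg (by omega), show (2 * o + 1) / 2 = o by omega]

theorem VxOk.tl {rt vx : Arr ℕ} (h : VxOk P X rt vx) {o : ℕ} (ho : o < X.nO) :
    vx.get (2 * o) = rt.get (X.ob.get o).2.1 := by rw [h, if_pos (by omega), nd0]
theorem VxOk.hd {rt vx : Arr ℕ} (h : VxOk P X rt vx) {o : ℕ} (ho : o < X.nO) :
    vx.get (2 * o + 1) = rt.get (X.ob.get o).2.2.1 := by rw [h, if_pos (by omega), nd1]

theorem FxOk.clsrv (hX : FxOk P c G0 X) (o : ℕ) : X.cls.get (Bf.rv o) = X.cls.get o := by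
  rw [hX.cls, hX.cls, Bf.rv_div]

theorem size_two {a b : ℕ} (h : a.size = b.size) : a ≤ 2 * b := by
  have h1 := Nat.lt_size_self a
  rcases Nat.eq_zero_or_pos b.size with e | e
  · rw [h, e] at h1; omega
  · have h2 : 2 ^ (b.size - 1) ≤ b := Nat.lt_size.1 (by omega)
    have h3 : 2 ^ b.size = 2 * 2 ^ (b.size - 1) := by
      rw [← pow_succ']; congr 1; omega
    rw [h] at h1; omega

theorem FxOk.latwo (hX : FxOk P c G0 X) {e f : ℕ} (he : e < X.nO) (hf : f < X.nO)
    (h : X.cls.get (2 * f) = X.cls.get (2 * e)) : X.la.get f ≤ 2 * X.la.get e := by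
  rw [hX.cls, hX.cls, if_pos (by omega), if_pos (by omega), show 2 * f / 2 = f by omega,
    show 2 * e / 2 = e by omega] at h
  exact size_two h

/-- the potential of a piece -/
noncomputable def Zr (X : Fx) (z : ℕ → ℝ) (r : ℕ) : ℝ := z (X.T.nm.get r) - X.T.G.get r

/-- `z` is a potential for the table -/
def Pot (Q : ℕ) (X : Fx) (d : Dn) (z : ℕ → ℝ) (θ : ℝ) : Prop :=
  ∀ p x, tb Q X d p = some x → |(x.1.g : ℝ) - (z x.1.b - z x.1.a)| ≤ θ * x.1.l

theorem abs3 {a b e A B E : ℝ} (ha : |a| ≤ A) (hb : |b| ≤ B) (he : |e| ≤ E) :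
    |a - b + e| ≤ A + B + E := by
  rw [abs_le] at *; constructor <;> linarith [ha.1, ha.2, hb.1, hb.2, he.1, he.2]

/-- published objects are flat for the potentials of the pieces -/
theorem pub_flat (hX : FxOk P c G0 X) (hd : DnOk P Q K X G0 G d) {z : ℕ → ℝ} {θ : ℝ} (h0 : 0 ≤ θ)
    (hz : Pot Q X d z θ) {o : ℕ} (ho : d.pub.get o = true) :
    |(X.gt.get o : ℝ) - (Zr X z (d.vx.get (2 * o + 1)) - Zr X z (d.vx.get (2 * o)))| ≤
      θ * X.la.get o := by
  obtain ⟨h1, h2, vu, vv, vm⟩ := hd.pub o ho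
  obtain ⟨M, I⟩ := hd.pc
  have hW := hX.wf
  obtain ⟨-, ou, ov, -, -, om, au, av, lu, lv, hc⟩ := hX.ok.obj _ (hX.ob o h1)
  have hs : ∀ u e w, Pc.seg X.T d.pc u = some (e, w) → |(e.g : ℝ) - (z e.b - z e.a)| ≤ θ * e.l :=
    fun u e w h => hz (3 * u) (e, w) (by rw [tb0, h])
  have he := hz (3 * o + 1) _ (by rw [tb1, objT, if_pos ho])
  obtain ⟨-, g1, g2⟩ := hd.og _ h2
  simp only [cpE, hd.ed _ g1, g2] at he
  rw [hd.vx.tl h1, hd.vx.hd h1, hX.gt o h1, hX.la o h1]
  set u := (X.ob.get o).2.1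
  set v := (X.ob.get o).2.2.1
  set m := (X.ob.get o).2.2.2
  have uV := List.mem_toFinset.2 ou
  have vV := List.mem_toFinset.2 ov
  have au' := Pc.anc_iff.2 au
  have av' := Pc.anc_iff.2 av
  have hl : ((X.T.lam G0.ed (X.ob.get o) : ℕ) : ℝ) = (G0.ed (X.ob.get o).1).l +
      ((X.T.H.get v : ℝ) - X.T.H.get m) + ((X.T.H.get u : ℝ) - X.T.H.get m) := by
    change (((G0.ed (X.ob.get o).1).l + X.T.H.get u + X.T.H.get v - 2 * X.T.H.get m : ℕ) : ℝ) = _
    rw [Nat.cast_sub (by omega)]; push_cast; ring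
  rw [hl, mul_add, mul_add]
  by_cases cm : d.pc.cut.get m = true
  · have a1 := I.flat_rt hW hs uV vu
    have a2 := I.flat_rt hW hs vV vv
    obtain ⟨_, b1⟩ := I.p.rt_below hW uV au' cm
    obtain ⟨_, b2⟩ := I.p.rt_below hW vV av' cm
    have c1 : (X.T.H.get m : ℝ) ≤ X.T.H.get (d.pc.rt.get u) := by
      exact_mod_cast (b1.lp hW (I.p.rt_mem hW uV)).1
    have c2 : (X.T.H.get m : ℝ) ≤ X.T.H.get (d.pc.rt.get v) := by
      exact_mod_cast (b2.lp hW (I.p.rt_mem hW vV)).1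
    have := abs3 he (a2.trans (mul_le_mul_of_nonneg_left (sub_le_sub_left c2 _) h0))
      (a1.trans (mul_le_mul_of_nonneg_left (sub_le_sub_left c1 _) h0))
    convert this using 2
    unfold Zr; push_cast; ring
  · have key : ∀ x ∈ X.T.ord.toFinset, Pc.Fo.Anc X.T x m → (x = u ∨ x = v) →
        d.pc.rt.get m = d.pc.rt.get x := fun x hx a e => by
      refine (I.p.same_or hW hx a).resolve_right ?_
      rintro ⟨y, yV, j1, j2, j3, j4⟩
      have yM := ((I.mrk y yV).1 j3).resolve_right j4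
      have j5 : Anc X.T.par.get u y ∨ Anc X.T.par.get v y := by
        rcases e with e | e <;> rw [← e] <;> simp [Pc.anc_iff.1 j1]
      have := I.cl y yM m (hc y j5 (Pc.anc_iff.1 j2))
      exact cm ((I.mrk m (List.mem_toFinset.2 om)).2 (Or.inl this))
    have e1 := key u uV au' (Or.inl rfl)
    have e2 := key v vV av' (Or.inr rfl)
    have := abs3 he (I.flat hW hs vV vv vm av' e2) (I.flat hW hs uV vu vm au' e1)
    convert this using 2
    rw [← e1, ← e2]; push_cast; ring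

variable {k : Ds.Cs} {Nx : ℕ → ℕ → Prop} {Gam : ℕ → ℕ} {L n th1 : ℕ}

theorem one_le_al (hP : P.Ok) : 1 ≤ P.al := by
  unfold Pm.al
  have := hP.s1
  exact Nat.mul_pos (Nat.mul_pos (by omega) (by omega)) (by omega)

/-- **flatness** -/
theorem flat_of (hP : P.Ok) (hX : FxOk P c G0 X) (hd : DnOk P Q K X G0 G d)
    (hs : DsOk X d.og d.ds d.pub)
    (hI : Ds.Inv k Nx Gam X.cls.get X.gt.get X.la.get th1 L d.vx.get d.ds n) (hb : d.ds.bad = [])
    (hA : Agr H wk (tb Q X d)) {th th' : ℕ} (hF : Flat H th')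
    (ht : (th1 + (2 * k.LM + 1) * th') * P.al ≤ th) : Flat G th := by
  obtain ⟨z, hz⟩ := (hA.flat_iff th').1 hF
  have h0 : (0 : ℝ) ≤ th' := by positivity
  obtain ⟨M, I⟩ := hd.pc
  have hW := hX.wf
  classical
  obtain ⟨Y, y1, y2⟩ := hX.ok.cpl
    (fun x => if x ∈ X.T.ord then Zr X z (d.pc.rt.get x) + X.T.G.get x else z x) fun x hx => by
      obtain ⟨n1, -, -, -, -, n6, -⟩ := hX.ok.nm x hx
      obtain ⟨a, b, -⟩ := I.rt_nm hX.ok hW hx
      simp only [if_pos hx, if_pos n1, Zr, a, b, n6]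
  have ht' : ((th1 : ℝ) + (2 * k.LM + 1) * th') * P.al ≤ th := by exact_mod_cast ht
  have al1 : (1 : ℝ) ≤ P.al := by exact_mod_cast one_le_al hP
  refine ⟨Y, fun e he => ?_⟩
  have l0 : (0 : ℝ) ≤ (G.ed e).l := by positivity
  cases og : d.og.get e
  · obtain ⟨i1, i2⟩ := hd.ins e he og
    have key : ∀ v, (∀ x ∈ X.T.cop.get v, d.pc.cut.get x = true) → ∀ x ∈ X.T.cv P v,
        (if x ∈ X.T.ord then Zr X z (d.pc.rt.get x) + X.T.G.get x else z x) = z x := by
      intro v hv x hx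
      unfold LF.cv at hx
      split_ifs at hx with a
      · rw [List.mem_singleton.1 hx, if_neg (hX.ok.nw v)]
      · obtain ⟨b1, b2, -⟩ := (hX.ok.cop v).2.2 x hx
        rw [if_pos b1, I.p.rt_cut (List.mem_toFinset.2 b1) (hv x hx), Zr, b2]; ring
    refine (y2 _ _ _ (th' * (G.ed e).l) fun x hx y hy => ?_).trans
      (mul_le_mul_of_nonneg_right ?_ l0)
    · obtain ⟨q, q1, q2⟩ := i2 x hx y hy
      have := hz (3 * q + 2) _ (by rw [tb2, ptT, q2])
      simp only [cpE, q1, hd.ed e he] at this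
      rwa [key _ (fun x h => i1 x (List.mem_append_left _ h)) x hx,
        key _ (fun x h => i1 x (List.mem_append_right _ h)) y hy]
    · refine le_trans ?_ ht'
      have : (0 : ℝ) ≤ th1 + 2 * k.LM * th' := by positivity
      nlinarith
  · obtain ⟨g0, -, g2⟩ := hd.og e og
    rw [g2] at l0 ⊢
    refine (y1 e g0 _ (th1 + (2 * k.LM + 1) * th') (by positivity) fun x hx ex => ?_).trans
      (mul_le_mul_of_nonneg_right ht' l0)
    obtain ⟨o, ho, rfl⟩ := hX.sur x hx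
    obtain ⟨-, ou, ov, -⟩ := hX.ok.obj _ hx
    have e1 : ((G0.ed e).g : ℝ) - ((if (X.ob.get o).2.2.1 ∈ X.T.ord then
        Zr X z (d.pc.rt.get (X.ob.get o).2.2.1) + X.T.G.get (X.ob.get o).2.2.1
          else z (X.ob.get o).2.2.1) - (if (X.ob.get o).2.1 ∈ X.T.ord then
        Zr X z (d.pc.rt.get (X.ob.get o).2.1) + X.T.G.get (X.ob.get o).2.1
          else z (X.ob.get o).2.1)) =
        X.gt.get o - (Zr X z (d.vx.get (2 * o + 1)) - Zr X z (d.vx.get (2 * o))) := by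
      rw [if_pos ou, if_pos ov, hd.vx.tl ho, hd.vx.hd ho, hX.gt o ho, ex]; push_cast; ring
    rw [e1, ← hX.la o ho]
    have l1 : (0 : ℝ) ≤ X.la.get o := by positivity
    by_cases po : d.pub.get o = true
    · refine (pub_flat hX hd h0 hz po).trans (mul_le_mul_of_nonneg_right ?_ l1)
      have : (0 : ℝ) ≤ th1 + 2 * k.LM * th' := by positivity
      linarith
    · have al := (hs.cov o ho (ex ▸ og)).resolve_right po
      refine ((hI.close hX.clsrv (fun e f a b => hX.latwo (hs.al e a).1 (hs.al f b).1) h0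
        (fun f pf => pub_flat hX hd h0 hz (hs.dp f pf)) al fun h => po (hs.dp o h)).1
        (by simp [hb])).trans (mul_le_mul_of_nonneg_right (by linarith) l1)

/-- **a bad object destroys the flatness** -/
theorem not_flat (hX : FxOk P c G0 X) (hd : DnOk P Q K X G0 G d) {ds : Ds.St}
    (hI : Ds.Inv k Nx Gam X.cls.get X.gt.get X.la.get th1 L d.vx.get ds n)
    (h1 : ∀ o, ds.al.get o = true → o < X.nO) (h2 : ∀ o, ds.pub o → d.pub.get o = true) {o : ℕ}
    (al : ds.al.get o = true) (np : ¬ds.pub o)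
    (nc : ¬Ds.Cov X.gt.get X.la.get th1 (ds.cur.sn.w.get o) o) (po : d.pub.get o = true)
    (hA : Agr H wk (tb Q X d)) {th' : ℕ} (ht : (2 * k.LM + 1) * th' ≤ th1) : ¬Flat H th' := by
  intro hF
  obtain ⟨z, hz⟩ := (hA.flat_iff th').1 hF
  have h0 : (0 : ℝ) ≤ th' := by positivity
  have a := (hI.close hX.clsrv (fun e f a b => hX.latwo (h1 e a) (h1 f b)) h0
    (fun f pf => pub_flat hX hd h0 hz (h2 f pf)) al np).2 nc
  have b := pub_flat hX hd h0 hz po
  have ht' : (2 * (k.LM : ℝ) + 1) * th' ≤ th1 := by exact_mod_cast ht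
  have l1 : (0 : ℝ) ≤ X.la.get o := by positivity
  nlinarith [mul_le_mul_of_nonneg_right ht' l1]

end Crest.Agent.N325.Sg
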