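import Crest.Agent.N325.Sg.Defs
import Crest.Agent.N325.Lt.Ok

/-!
# Row 325 (helper63): the static data of a stage
-/

set_option autoImplicit false

namespace Crest.Agent.N325.Sg

open Tw Lt

variable {g : Gl} {P : Pm} {c : Bd} {G0 : Gr} {X : Fx} {T : LF}

theorem G_le (hG : G0.Ok c) (h : T.Ok G0 P c.m c.nb) :
    ∀ x ∈ T.ord, (T.G.get x).natAbs ≤ P.Hb * c.gb := fun x hx =>
  (h.G_le hG x hx).trans (Nat.mul_le_mul_right _ (h.Hb x hx))

theorem obj_le (hG : G0.Ok c) (h : T.Ok G0 P c.m c.nb) {x : Ob} (hx : x ∈ T.obj) :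
    ((G0.ed x.1).g - (T.G.get x.2.2.1 - T.G.get x.2.1)).natAbs ≤ (2 * P.Hb + 1) * c.gb ∧
      1 ≤ T.lam G0.ed x ∧ (G0.ed x.1).l ≤ T.lam G0.ed x ∧ T.lam G0.ed x ≤ c.lb + 2 * P.Hb := by
  obtain ⟨a1, a2, a3, -, -, -, -, -, a4, a5, -⟩ := h.obj x hx
  obtain ⟨-, -, -, b1, b2, b3⟩ := hG.2.2 _ a1
  have c1 := G_le hG h _ a2
  have c2 := G_le hG h _ a3
  have d1 := h.Hb _ a2
  have d2 := h.Hb _ a3
  unfold LF.lam
  rw [add_mul, mul_assoc, one_mul]
  omega

theorem get_push' (a : Arr (List ℕ)) (v e u : ℕ) :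
    (Ds.push a v e).get u = if v = u then e :: a.get u else a.get u := by
  unfold Ds.push; rw [Arr.get_set]; split_ifs <;> simp_all

/-- the tables after the objects `D` -/
structure FI (ed : ℕ → Ed) (T : LF) (D : List Ob) (X : Fx) : Prop where
  eT : X.T = T
  nO : X.nO = D.length
  ob : ∀ o < X.nO, D[o]? = some (X.ob.get o)
  oe : ∀ e, (X.oe.get e).Nodup ∧ (X.oe.get e).length = D.countP (fun o => o.1 = e) ∧
    ∀ o, o ∈ X.oe.get e ↔ o < X.nO ∧ (X.ob.get o).1 = e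
  en : ∀ y, (X.en.get y).length =
      D.countP (fun o => o.2.1 = y) + D.countP (fun o => o.2.2.1 = y) ∧
    ∀ o, o ∈ X.en.get y ↔ o / 2 < X.nO ∧ nd X.ob.get o = y
  gt : ∀ o < X.nO, X.gt.get o = (ed (X.ob.get o).1).g -
    (T.G.get (X.ob.get o).2.2.1 - T.G.get (X.ob.get o).2.1)
  la : ∀ o < X.nO, X.la.get o = T.lam ed (X.ob.get o)
  cls : ∀ o, X.cls.get o = if o / 2 < X.nO then (X.la.get (o / 2)).size else 0

theorem FI.step {ed : ℕ → Ed} {D : List Ob} (h : FI ed T D X) (x : Ob) :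
    FI ed T (D ++ [x]) ⟨X.T, X.nO + 1, X.ob.set X.nO x, Ds.push X.oe x.1 X.nO,
      Ds.push (Ds.push X.en x.2.1 (2 * X.nO)) x.2.2.1 (2 * X.nO + 1),
      X.gt.set X.nO ((ed x.1).g - (T.G.get x.2.2.1 - T.G.get x.2.1)), X.la.set X.nO (T.lam ed x),
      (X.cls.set (2 * X.nO) (T.lam ed x).size).set (2 * X.nO + 1) (T.lam ed x).size⟩ := by
  have n := h.nO
  have ho : ∀ o < X.nO, (X.ob.set X.nO x).get o = X.ob.get o := fun o k => Arr.get_set_ne _ k.ne _
  refine ⟨h.eT, by simp [n], fun o k => ?_, fun e => ?_, fun y => ?_, fun o k => ?_, fun o k => ?_,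
    fun o => ?_⟩
  · dsimp only at k ⊢
    by_cases q : o < X.nO
    · rw [ho o q, List.getElem?_append_left (n ▸ q), h.ob o q]
    · obtain rfl : o = X.nO := by omega
      rw [Arr.get_set_self, n, List.getElem?_concat_length]
  · obtain ⟨a, b, d⟩ := h.oe e
    simp only [get_push', List.countP_append, List.countP_singleton, decide_eq_true_eq]
    refine ⟨?_, by split_ifs <;> simp [b], fun o => ?_⟩
    · split_ifs
      · exact List.nodup_cons.2 ⟨fun k => lt_irrefl _ ((d _).1 k).1, a⟩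
      · exact a
    · by_cases q : o < X.nO
      · rw [ho o q]
        split_ifs <;> simp [d, q, q.ne, q.le]
      · by_cases q' : o = X.nO
        · subst q'
          split_ifs with z <;> simp [d, z]
        · have : ¬o < X.nO + 1 := by omega
          split_ifs <;> simp [d, q, q', this]
  · obtain ⟨a, b⟩ := h.en y
    simp only [get_push', List.countP_append, List.countP_singleton, decide_eq_true_eq]
    refine ⟨by split_ifs <;> simp [a] <;> omega, fun o => ?_⟩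
    have e : o ∈ (if x.2.2.1 = y then (2 * X.nO + 1) ::
        (if x.2.1 = y then 2 * X.nO :: X.en.get y else X.en.get y)
        else if x.2.1 = y then 2 * X.nO :: X.en.get y else X.en.get y) ↔
        (o = 2 * X.nO + 1 ∧ x.2.2.1 = y) ∨ (o = 2 * X.nO ∧ x.2.1 = y) ∨ o ∈ X.en.get y := by
      split_ifs with p q q <;> simp [p, q]
    rw [e, b]
    unfold nd
    by_cases q : o / 2 < X.nO
    · rw [ho _ q]
      exact ⟨fun k => ⟨by omega, ((k.resolve_left fun z => by omega).resolve_left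
        fun z => by omega).2⟩, fun k => Or.inr (Or.inr ⟨q, k.2⟩)⟩
    · by_cases q' : o / 2 = X.nO
      · rw [q', Arr.get_set_self]
        split_ifs with z
        · exact ⟨fun k => ⟨by omega, ((k.resolve_left fun z => by omega).resolve_right
            fun z => by omega).2⟩, fun k => Or.inr (Or.inl ⟨by omega, k.2⟩)⟩
        · exact ⟨fun k => ⟨by omega, (k.resolve_right fun z => by omega).2⟩,
            fun k => Or.inl ⟨by omega, k.2⟩⟩
      · exact ⟨fun k => by omega, fun k => by omega⟩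
  · dsimp only at k ⊢
    by_cases q : o < X.nO
    · rw [ho o q, Arr.get_set_ne _ q.ne, h.gt o q]
    · obtain rfl : o = X.nO := by omega
      rw [Arr.get_set_self, Arr.get_set_self]
  · dsimp only at k ⊢
    by_cases q : o < X.nO
    · rw [ho o q, Arr.get_set_ne _ q.ne, h.la o q]
    · obtain rfl : o = X.nO := by omega
      rw [Arr.get_set_self, Arr.get_set_self]
  · simp only [Arr.get_set, h.cls]
    split_ifs <;> first | rfl | omega

theorem sp_fxR {ed : Arr Ed} (hG : G0.Ok c) (h : T.Ok G0 P c.m c.nb)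
    (he : ∀ e ∈ G0.E, ed.get e = G0.ed e)
    (h1 : 2 * (c.m * P.S ^ 2) ≤ g.X) (h2 : (2 * P.Hb + 1) * c.gb ≤ g.X)
    (h3 : c.lb + 2 * P.Hb ≤ g.X) :
    Sp g (fxR ed T) fun X t => FxOk P c G0 X ∧ X.T = T ∧ t ≤ T.obj.length + 1 := by
  refine (sp_foldL' (fun l X => ∃ D, T.obj = D ++ l ∧ FI G0.ed T D X) (fun _ => 0) ?_
    ⟨[], rfl, rfl, rfl, fun _ k => absurd k (Nat.not_lt_zero _), fun _ => by simp, fun _ => by simp,
      fun _ k => absurd k (Nat.not_lt_zero _), fun _ k => absurd k (Nat.not_lt_zero _),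
      fun _ => by simp⟩).mono ?_
  · rintro x l X ⟨D, e, I⟩
    have hx : x ∈ T.obj := by rw [e]; simp
    obtain ⟨a1, -, -, a2⟩ := obj_le hG h hx
    have a3 := h.olen
    have a4 := I.nO
    have a5 := congrArg List.length e
    rw [List.length_append] at a5
    have a6 := I.step x
    simp only [obj1, sp_bind, sp_nat, sp_int, sp_pure, he _ (h.obj x hx).1, I.eT] at a6 ⊢
    exact ⟨by omega, a1.trans h2, a2.trans h3, ⟨D ++ [x], by simp [e], a6⟩, le_rfl⟩
  · rintro X t ⟨⟨D, e, I⟩, ht⟩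
    rw [List.append_nil] at e
    subst e
    refine ⟨⟨hG, I.eT ▸ h, by rw [I.eT, I.nO], fun o k => ?_, fun x k => ?_, fun e => ?_,
      fun y => ?_, I.eT ▸ I.gt, I.eT ▸ I.la, I.cls⟩, I.eT, by simpa using ht⟩
    · rw [I.eT]; exact List.mem_of_getElem? (I.ob o k)
    · rw [I.eT] at k
      obtain ⟨o, q⟩ := List.getElem?_of_mem k
      have z : o < X.nO := I.nO ▸ (List.getElem?_eq_some_iff.1 q).1
      exact ⟨o, z, Option.some.inj ((I.ob o z).symm.trans q)⟩
    · exact ⟨(I.oe e).1, (I.oe e).2.1 ▸ h.oe e, (I.oe e).2.2⟩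
    · exact ⟨(I.en y).1 ▸ h.oa y, (I.en y).2⟩

theorem FxOk.gt_le (h : FxOk P c G0 X) : ∀ o < X.nO, (X.gt.get o).natAbs ≤ (2 * P.Hb + 1) * c.gb ∧
    1 ≤ X.la.get o ∧ X.la.get o ≤ c.lb + 2 * P.Hb := fun o k => by
  obtain ⟨a, b, -, d⟩ := obj_le h.g0 h.ok (h.ob o k)
  rw [h.gt o k, h.la o k]
  exact ⟨a, b, d⟩

theorem FxOk.l_le (h : FxOk P c G0 X) {o : ℕ} (k : o < X.nO) :
    (G0.ed (X.ob.get o).1).l ≤ X.la.get o :=
  h.la o k ▸ (obj_le h.g0 h.ok (h.ob o k)).2.2.1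

theorem FxOk.nO_le (h : FxOk P c G0 X) : X.nO ≤ c.m * P.S ^ 2 := h.nO ▸ h.ok.olen

theorem FxOk.cls_rv (h : FxOk P c G0 X) (o : ℕ) : X.cls.get (Bf.rv o) = X.cls.get o := by
  rw [h.cls, h.cls, Bf.rv_div]

theorem FxOk.cls_lt (h : FxOk P c G0 X) (o : ℕ) : X.cls.get o < (c.lb + 2 * P.Hb).size + 1 := by
  rw [h.cls, Nat.lt_succ_iff]
  split_ifs with k
  · exact Nat.size_le_size (h.gt_le _ k).2.2
  · exact Nat.zero_le _

/-- lengths agree up to the factor two inside a class -/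
theorem FxOk.la_le (h : FxOk P c G0 X) {e f : ℕ} (he : e < X.nO) (hf : f < X.nO)
    (k : X.cls.get (2 * f) = X.cls.get (2 * e)) : X.la.get f ≤ 2 * X.la.get e := by
  rw [h.cls, h.cls, Nat.mul_div_cancel_left _ two_pos, Nat.mul_div_cancel_left _ two_pos,
    if_pos he, if_pos hf] at k
  have a := Nat.lt_size_self (X.la.get f)
  have b := (h.gt_le e he).2.1
  obtain ⟨j, hj⟩ : ∃ j, (X.la.get e).size = j + 1 :=
    Nat.exists_eq_succ_of_ne_zero (by rw [ne_eq, Nat.size_eq_zero]; omega)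
  have d : 2 ^ j ≤ X.la.get e := Nat.lt_size.1 (by omega)
  rw [k, hj, pow_succ] at a
  omega

end Crest.Agent.N325.Sg
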