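import Crest.Agent.N325.Sg.Tab
import Crest.Agent.N325.Sg.Fx
import Crest.Agent.N325.Sg.Flat

/-!
# Row 325 (helper31): the probe of a stage
-/

set_option autoImplicit false
open Finset

namespace Crest.Agent.N325.Sg

open Tw Lt

variable {g : Gl} {K : ℕ} {c c' : Bd} {A : Type} {p : Pr A} {k : Ds.Cs} {Nx : ℕ → ℕ → Prop}
  {Gam : ℕ → ℕ} {L n : ℕ}

theorem sp_probe {th' th : ℕ} (B : BdOk p.P p.Q K c c') (hfu : K < p.fu) (h2 : c'.nb ≤ g.X)
    (h3 : 2 * (p.P.Hb * c.gb) ≤ g.X) (h4 : k.LM * ((2 * p.P.Hb + 1) * c.gb) ≤ g.X)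
    (t1 : (2 * k.LM + 1) * th' ≤ p.th1) (t2 : (p.th1 + (2 * k.LM + 1) * th') * p.P.al ≤ th)
    {s : St A} {G H : Gr} {wk : ℕ → Wk}
    (hI : Inv p c K k Nx Gam L s G H wk n) (hF : Flat H th') :
    Sp g (probe s) fun r t => k.rc r.1.2.2.ds = k.rc s.2.2.ds ∧
      t + k.Phi r.1.2.2.ds ≤ k.Phi s.2.2.ds + (147 * K + 290) ∧ r.2.2 = none ∧
      ((r.2.1 = [] ∧ Inv p c K k Nx Gam L r.1 G H wk n ∧ Flat G th) ∨
        (r.2.1 ≠ [] ∧ Oks K c' G H r.2.1 ∧
          Inv p c K k Nx Gam L r.1 G (apps H r.2.1) (wks wk r.2.1) (n + 1) ∧ r.2.1.length ≤ 38 ∧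
          ¬Flat (apps H r.2.1) th')) := by
  obtain ⟨p', X, d⟩ := s
  obtain ⟨e0, hG, G0, hX, hd, hs, ⟨n', hn', hD⟩, hA, hl⟩ := hI
  obtain rfl : p' = p := e0
  dsimp only at hX hd hs hD hA hl
  have hO : 3 * X.nO ≤ g.X := by
    have := hX.ok.olen
    have := B.n2
    rw [hX.nO]
    rw [B.hQ] at this
    omega
  refine (Ds.sp_probe hD (fun e m => (hX.gt_le e (hs.al e m).1).1) h4).bind
    fun r t ⟨a1, a2, a3, a4, a5, a6⟩ => ?_
  obtain ⟨ds, _ | o⟩ := r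
  · obtain ⟨b1, b2⟩ := a5 rfl
    dsimp only at a1 a2 a3 a4 b1 b2
    have hd' : DnOk p'.P p'.Q K X G0 G ⟨d.ed, d.og, d.pc, d.vx, ds, d.pub, d.pt, d.lv⟩ :=
      ⟨hd.pc, hd.ed, hd.og, hd.liv, hd.vx, hd.pub, hd.pt, hd.ins⟩
    have hs' : DsOk X d.og ds d.pub :=
      ⟨b1 ▸ hs.al, b1 ▸ hs.cov, fun o m => hs.dp o ((a2 o).1 m)⟩
    exact ⟨a3, by dsimp only; omega, rfl, Or.inl ⟨rfl,
      ⟨rfl, hG, G0, hX, hd', hs', ⟨n', hn', a1⟩, hA, hl⟩, flat_of B.P1 hX hd' hs' a1 b2 hA hF t2⟩⟩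
  · obtain ⟨b1, b2, b3, b4⟩ := a6 o rfl
    dsimp only at a1 a2 a3 a4 b1
    refine (sp_pub1 (K := K) (w := ((d.pc, []), d.pub, [])) hX hfu (hs.al o b2) hO hd.pc
      hd.pub).bind fun w u1 ⟨c1, c2, ⟨m, c3, c4, c5⟩, c0, c9, c10, T1⟩ => ?_
    have c6 : w.1.1.cut = d.pc.cut := c0.cut
    have c7 : w.1.1.rt = d.pc.rt := c0.rt
    dsimp only at c3 c5 c9 c10
    rw [List.append_nil] at c3
    have hd' : DnOk p'.P p'.Q K X G0 G ⟨d.ed, d.og, w.1.1, d.vx, ds, w.2.1, d.pt, d.lv⟩ :=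
      ⟨c1, hd.ed, hd.og, fun x a b => hd.liv x a (c6 ▸ b), c7 ▸ hd.vx, c2, hd.pt,
        fun e a b => ⟨c6 ▸ (hd.ins e a b).1, (hd.ins e a b).2⟩⟩
    have po : w.2.1.get o = true := by rw [c9, Arr.get_set_self]
    have up : ∀ x, d.pub.get x = true → w.2.1.get x = true := fun x h => by
      rw [c9, Arr.get_set]
      split_ifs
      exacts [rfl, h]
    refine (sp_fin (d := ⟨d.ed, d.og, d.pc, d.vx, ds, d.pub, d.pt, d.lv⟩) B hX hG hd' hA hl
      (fun i a b => ?_) (fun u a => List.mem_toFinset.1 (c5.ids u (c3 ▸ a))) h2 h3).bind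
      fun z t2 ⟨e1, e2, e3, e4, e5, T2⟩ => ?_
    · unfold tb
      split_ifs with q1 q2
      · have := c5.eq _ (c3 ▸ b q1)
        simp only [Pc.seg, this.1, this.2]
      · have : w.2.1.get (i / 3) = d.pub.get (i / 3) := by
          rw [c9, Arr.get_set_ne _ fun q => a ?_]
          rw [c10, ← q, List.mem_singleton]
          omega
        simp only [objT, this]
      · rfl
    · have hd'' : DnOk p'.P p'.Q K X G0 G z.1 := by
        rw [e1]
        exact ⟨hd'.pc, hd'.ed, hd'.og, hd'.liv, hd'.vx, hd'.pub, hd'.pt, hd'.ins⟩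
      have z1 : z.1.og = d.og := by rw [e1]
      have z2 : z.1.ds = ds := by rw [e1]
      have z3 : z.1.pub = w.2.1 := by rw [e1]
      have z4 : z.1.vx = d.vx := by rw [e1]
      have nf : ¬Flat (apps H z.2) th' := not_flat hX hd'' (z4 ▸ hD) (fun x a => (hs.al x a).1)
        (fun x a => z3 ▸ up x (hs.dp x a)) b2 b3 b4 (z3 ▸ po) e3 t1
      have hs' : DsOk X z.1.og z.1.ds z.1.pub := by
        rw [z1, z2, z3]
        refine ⟨fun x a => hs.al x ?_, fun x a b => ?_, fun x a => up x (hs.dp x ((a2 x).1 a))⟩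
        · rw [b1, Arr.get_set] at a
          split_ifs at a
          exact a
        · by_cases q : x = o
          · exact Or.inr (q ▸ po)
          · rw [b1, Arr.get_set_ne _ q]
            exact (hs.cov x a b).imp_right (up x)
      have l1 : w.1.2.length + w.2.2.length ≤ 19 := by
        rw [c3, c10]
        simp only [List.length_singleton]
        omega
      have := Nat.mul_le_mul_left (3 * K + 7) l1
      refine ⟨by dsimp only; rw [z2, a3], ?_, rfl, Or.inr ⟨fun q => nf ?_, e2,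
        ⟨rfl, hG, G0, hX, hd'', hs', ⟨n', by omega, ?_⟩, e3, e4⟩, by dsimp only; omega, nf⟩⟩
      · dsimp only
        rw [z2]
        omega
      · dsimp only at q
        rwa [q]
      · dsimp only
        rwa [z2, z4]

end Crest.Agent.N325.Sg
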