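import Crest.Agent.N325.Sg.Build
import Crest.Agent.N325.Sg.Probe
import Crest.Agent.N325.Sg.Par

/-! # Row 325 (helper20): the specification of the stage -/

set_option autoImplicit false

namespace Crest.Agent.N325.Sg

open Tw Lt

variable {g : Gl} {K TL : ℕ} {A : Type} {lf : A → List (ℕ × Ed) → R LF}
  {bx : A → Arr ℕ → Ds.BI → R Ds.BO} {p : Pr A} {k : Ds.Cs} {Nx : ℕ → ℕ → Prop} {Gam : ℕ → ℕ}
  {sc : SC}

/-- the constants of the stage are large enough -/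
structure SH (g : Gl) (p : Pr A) (K TL : ℕ) (k : Ds.Cs) (sc : SC) : Prop where
  h4 : k.LM * ((2 * p.P.Hb + 1) * sc.c.gb) ≤ g.X
  t1 : (2 * k.LM + 1) * sc.th' ≤ p.th1
  t2 : (p.th1 + (2 * k.LM + 1) * sc.th') * p.P.al ≤ sc.th
  lim : sc.lim < (k.b + 1) ^ p.pr.length
  hK : K ≤ sc.K
  ρ : 2 * (p.P.D + 1) * p.P.S + 2 * p.Q ≤ sc.ρ
  RB : 38 * k.cH * ((p.P.D + 3) * nN p.P sc.c.m + p.K0) ≤ p.K0 * sc.RB
  RU : 2 * aU p.P k p.pr.length ≤ sc.RU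
  RU' : 38 ≤ sc.RU
  TB : tB p.P K k sc.c.m TL p.pr.length ≤ sc.TB
  TU : tU p.P K k p.pr.length ≤ sc.TU
  TU' : 147 * K + 290 ≤ sc.TU

/-- **the stage meets its specification** -/
theorem stageSpec (h : UH g p K sc.c sc.c' k) (h' : BH g p K sc.c k Nx Gam) (s : SH g p K TL k sc)
    (hb : ∀ G0 X, FxOk p.P sc.c G0 X → Ds.BoxSpec g (bx p.a X.cls) X.cls.get k Nx Gam)
    (hlf : ∀ G l, G.Ok sc.c → Enum G l →
      Sp g (lf p.a l) fun T t => T.Ok G p.P sc.c.m sc.c.nb ∧ t ≤ TL) :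
    StageSpec g (stage lf bx) p sc (Inv p sc.c K k Nx Gam p.pr.length) (PhiS K k) (rcS k) := by
  refine ⟨fun hI => ?_, fun G l wk hG hl => ?_, fun o hI hn ho _ hG' => ?_,
    fun hI _ _ hF => ?_⟩
  · obtain ⟨rfl, hG, G0, hX, hd, -, -, hA, -⟩ := hI
    have r := rel_of h.B hX hd hG hA
    exact ⟨r.tel, fun x hx => ⟨(r.wok x hx).1, (r.wok x hx).2.1.trans s.hK, (r.wok x hx).2.2⟩,
      r.grad, fun e he => (r.use e he).trans s.ρ⟩
  · refine (sp_build h h' hb wk hG hl (hlf G l hG hl)).mono ?_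
    rintro r t ⟨a1, a2, a3, a4⟩
    exact ⟨oks_mono s.hK a1, a2, Nat.le_of_mul_le_mul_left (a3.trans s.RB) h'.K0, a4.trans s.TB⟩
  · refine (sp_upd h hb (lt_of_le_of_lt hn s.lim) o hI ho hG').mono ?_
    rintro r t ⟨a1, a2, a3, a4⟩
    have := s.RU; have := s.TU
    exact ⟨oks_mono s.hK a1, a2, by omega, by omega⟩
  · refine (sp_probe h.B h.fu h.nb h.gb s.h4 s.t1 s.t2 hI hF).mono ?_
    rintro r t ⟨a1, a2, a3, a4⟩
    have := s.RU'; have := s.TU'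
    refine ⟨by unfold PhiS; rw [a1]; omega, a4.imp ?_ ?_⟩
    · rintro ⟨b1, b2, b3⟩
      exact ⟨b1, b2, by unfold rcS; rw [a1], by simp [a3], fun _ => b3⟩
    · rintro ⟨b1, b2, b3, b4, b5⟩
      exact ⟨b1, a3, oks_mono s.hK b2, b3, by unfold rcS; rw [a1]; omega, b5⟩

end Crest.Agent.N325.Sg
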