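import Crest.Agent.N325.Sg.Pk
import Crest.Agent.N325.Sg.Spec
import Crest.Agent.N325.Lt.Lift

/-! # Row 325 (helper64): the constants `Pk` are large enough for the stage -/

set_option autoImplicit false

namespace Crest.Agent.N325.Sg.Pk

open Tw Lt

section general
variable (P : Pm) (k : Ds.Cs) (K L B : ℕ)

theorem mU_eq : mU P = fM P := by unfold mU fM; ring

theorem aU_le : 2 * aU P k L ≤ fRU P k L := by
  unfold aU fRU
  rw [mU_eq, fM]
  generalize k.RU L _ = x
  ring_nf; omega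

theorem cH_le : 80 * k.cH ≤ fRU P k L := by
  unfold fRU Ds.Cs.RU
  generalize fM P = y
  ring_nf; omega

theorem tU_le : tU P K k L ≤ fTU P K k L := by
  unfold tU fTU aU fRU
  rw [mU_eq]
  generalize k.RU L _ = x
  generalize k.TU L _ = y
  unfold fM
  ring_nf; omega

theorem liftT_le {m : ℕ} (h : 1 ≤ m) : liftT P m P.s B ≤ 2 * fTL P B * m := by
  refine (Nat.mul_le_mul_right _ (by omega : 4 * m + 1 ≤ m * 5)).trans ?_
  rw [mul_assoc, mul_comm _ m]
  refine Nat.mul_le_mul_left _ ?_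
  unfold fTL
  ring_nf; omega

theorem tB_le {m : ℕ} (h : 1 ≤ m) : tB P K k m (liftT P m P.s B) L ≤ fTb P K k L B * m := by
  have h1 := liftT_le P B h
  have h2 : (k.Cb + 2 * k.LM + 20 + (k.cH + 1) + L + 30) * 1 ≤ _ := Nat.mul_le_mul_left _ h
  have h3 : 1 + 4 * (P.D + 1) * P.S * ((P.D + 3) * (5 * K + 15) + 4) +
      4 * (P.D + 1) * P.S * (P.S + 2) + (k.Cb + 2 * k.LM + 20) * (P.S ^ 2 + 1) +
      (k.cH + 1) * ((P.D + 3) * (4 * (P.D + 1) * P.S) + 1) + P.S ^ 2 * (cT K + 3) + 30 ≤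
      2000 * (P.D + 3) ^ 2 * (P.S + 1) ^ 2 * (K + 1) * (k.Cb + k.LM + k.cH + P.S + 20) := by
    unfold cT; ring_nf; omega
  have h4 := Nat.mul_le_mul_right m h3
  unfold tB fTb nN
  rw [add_mul, add_mul]
  linarith

theorem tU_le' : 147 * K + 290 ≤ fTU P K k L := by
  refine le_trans ?_ (Nat.le_add_left _ _)
  rw [mul_assoc]
  exact le_trans (by omega) (Nat.le_mul_of_pos_right _ (by positivity))

theorem le_fRU : 38 ≤ fRU P k L := le_trans (by omega) (Nat.le_add_left 40 _)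

end general

end Crest.Agent.N325.Sg.Pk
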