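import Crest.Agent.N325.Sg.PkOk
import Crest.Agent.N325.Sg.PkS
import Crest.Agent.N325.Sg.PkR
import Crest.Agent.N325.Ip.Weak

/-!
# N325 / Sg (helper51): the stages of all levels meet their specification
-/

set_option autoImplicit false

namespace Crest.Agent.N325.Sg.Pk

open Tw Lt

variable {c N i : ℕ} {g : Gl}

theorem uh0 (hc : 2 ≤ c) (E : Ev c N) (hX : XB c N ≤ g.X) (hi : i < lev N) :
    UH g (ps c N i) (K c N) ((tp c N).sc i).c ((tp c N).sc i).c' (cs c N) := by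
  have h := xOk hX
  refine ⟨bdOk hc E hi, rfl, Nat.lt_succ_self _, nV_ok hc E hi, (nb_lt E).le.trans h.M,
    le_trans ?_ (h.gb (i := i + 1) E)⟩
  refine le_trans ?_ (Nat.le_mul_of_pos_left _ (Nat.succ_pos _))
  rw [← mul_assoc]
  exact Nat.mul_le_mul_right _ (Nat.le_add_right _ _)

theorem bh0 (E : Ev c N) (hX : XB c N ≤ g.X) (hi : i < lev N) :
    BH g (ps c N i) (K c N) ((tp c N).sc i).c (cs c N) (Bf.boxNx (T N))
      (Bf.boxGam (cs c N) (T N)) := by
  have h := xOk hX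
  refine ⟨K0_pos, le_rfl, le_rfl, nx_lmF0 _, d1_csF (rounds_ok E), chain_csF (rounds_ok E), le_csF,
    le_trans ?_ (h.gb (i := i + 1) E), le_trans ?_ h.Hb, le_trans ?_
      (h.nN (i := i + 1) E hi (y := 1) Nat.one_le_two_pow)⟩
  · exact le_trans (Nat.mul_le_mul_right _ (Nat.le_succ _))
      (Nat.le_mul_of_pos_left _ (Nat.succ_pos _))
  · exact Nat.add_le_add_right ((lb_le (i := i + 1) E).trans LB_lt.le) _
  · exact (mul_one _).ge

theorem sh0 (E : Ev c N) (hX : XB c N ≤ g.X) (hi : i < lev N) :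
    SH g (ps c N i) (K c N) (liftT (P c N) ((tp c N).m (i + 1)) (lg c N) (La c N)) (cs c N)
      ((tp c N).sc i) := by
  have e : (ps c N i).pr.length = T N := length_prF _ _ _ _
  refine ⟨le_trans ?_ ((xOk hX).gb (i := i + 1) E), th1_ok, th_ok, ?_, le_rfl, le_rfl, RB_ok,
    ?_, le_trans (by omega) RU_ge, ?_, ?_, tU_le' _ _ _ _⟩
  · exact Nat.mul_le_mul (Nat.le_succ _) (Nat.mul_le_mul_right _ (Nat.le_succ _))
  · rw [e]; exact lim_lt E hi.le
  · rw [e]; exact aU_le _ _ _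
  · rw [e]; exact tB_le _ _ _ _ _ m_pos
  · rw [e]; exact tU_le _ _ _ _

/-- **the stages** -/
theorem stg (hc : 2 ≤ c) (E : Ev c N) (hX : XB c N ≤ g.X) (hi : i < lev N) :
    ∃ I Φ rc, StageSpec g (stage lf bx) (ps c N i) ((tp c N).sc i) I Φ rc :=
  ⟨_, _, _, stageSpec (uh0 hc E hX hi) (bh0 E hX hi) (sh0 E hX hi)
    (fun _ _ h => box_ok (i := i + 1) E (xOk hX) h.cls_rv h.cls_lt) fun _ _ hG hl =>
      sp_liftR (c := bdL c N (i + 1)) (lnum0 hc E (xOk hX) hi)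
        (hG.weak le_rfl le_rfl (lb_le (i := i + 1) E) le_rfl) hl⟩

end Crest.Agent.N325.Sg.Pk
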