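import Crest.Agent.N325.Sg.Par
import Crest.Agent.N325.Sg.Sub
import Crest.Agent.N325.Tw.Tower
import Crest.Agent.N325.Tw.Bot

/-!
# N325 / Sg (helper51): the tower from its stages, and the size of its constants
-/

set_option autoImplicit false

namespace Crest.Agent.N325.Sg

open Tw Filter

/-- **what the users of the oracle see**: `G` bounds all losses -/
structure TCB (G m nb lb gb ψ wt θ κ : ℕ) (k : TC) : Prop where
  hm : m ≤ k.c.m
  hnb : nb ≤ k.c.nb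
  hlb : k.c.lb = lb
  hgb : k.c.gb = gb
  ψ' : k.ψ = ψ
  th : k.th ≤ ψ * G
  er : k.er ≤ G * θ
  rp : k.rp ≤ G * θ + κ
  wt' : k.wt = wt
  cc : 2 ≤ k.cc
  AU : k.AU ≤ G
  AS : ∀ E, κ ≤ E * θ → k.AS ≤ G * (1 + (wt + G) * E)
  AR : k.AR ≤ (m + 1) * G

namespace TP

variable (p : TP)

/-- `m L ≤ (m + 1) * cm` -/
def cm : ℕ := 4 * p.RU * 2 ^ p.L

/-- the bound on all losses -/
def G : ℕ := p.A ^ p.L + (p.ρ + 1) ^ p.L + (p.L + 1) * (p.cc + 1) +
  (p.U + p.V + 1 + p.cm * p.W) * p.Q ^ p.L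

variable {p}

theorem rt_pow_le (L m : ℕ) : rt L m ^ L ≤ 2 ^ L * (2 * m + 2) := by
  rw [rt, ← pow_mul, add_mul, one_mul, pow_add, mul_comm]
  refine Nat.mul_le_mul_left _ (le_trans ?_ (two_pow_log_succ_le _))
  exact Nat.pow_le_pow_right two_pos ((Nat.div_mul_le_self _ _).trans (Nat.le_succ _))

theorem m_top {m : ℕ} (hr : p.r = rt p.L m) : p.m p.L ≤ (m + 1) * p.cm := by
  have := Nat.mul_le_mul_left (2 * p.RU) (rt_pow_le p.L m)
  rw [TP.m, hr, cm]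
  exact this.trans (le_of_eq (by ring))

theorem lt_m_top {m : ℕ} (hL : 1 ≤ p.L) (hU : 1 ≤ p.RU) (hr : p.r = rt p.L m) : m < p.m p.L := by
  rw [TP.m, hr]
  exact (lt_rt_pow hL m).trans_le (Nat.le_mul_of_pos_left _ (by omega))

theorem tcb {X θ κ m nb : ℕ} (h : p.Ok X θ κ) (hL : 1 ≤ p.L) (hr : p.r = rt p.L m)
    (hn : nb ≤ p.nb) : TCB p.G m nb p.lb p.gb p.ψ p.wt θ κ (p.tc θ κ p.L) := by
  have hq : 1 ≤ p.Q ^ p.L := Nat.one_le_pow _ _ (by have := h.RU1; simp only [Q]; omega)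
  have e : p.G = p.A ^ p.L + (p.ρ + 1) ^ p.L + (p.L + 1) * (p.cc + 1) +
      (p.U * p.Q ^ p.L + (p.V + 1) * p.Q ^ p.L + p.cm * p.W * p.Q ^ p.L) := by rw [G]; ring
  refine ⟨(lt_m_top hL h.RU1 hr).le, by simpa [tc, bd] using hn, by simp [tc, bd],
    by simp [tc, bd], rfl, Nat.mul_le_mul_left _ (by omega), ?_, ?_, by simp [tc],
    le_trans (Nat.le_add_left _ _) h.cc, by simp only [tc]; omega, fun E hE => ?_, ?_⟩
  · simp only [tc]; rw [mul_comm]; exact Nat.mul_le_mul_right _ (by omega)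
  · simp only [tc]; rw [mul_comm]
    have : (p.L + 1) * 1 ≤ (p.L + 1) * (p.cc + 1) := Nat.mul_le_mul_left _ (by omega)
    exact Nat.add_le_add_right (Nat.mul_le_mul_right _ (by omega)) _
  · have a1 : (p.L + 1) * p.cc ≤ (p.L + 1) * (p.cc + 1) := Nat.mul_le_mul_left _ (by omega)
    have a2 : (p.wt + (p.L + 1) * p.cc) * κ / θ ≤ (p.wt + p.G) * E :=
      Nat.div_le_of_le_mul ((Nat.mul_le_mul (show _ ≤ p.wt + p.G by omega) hE).trans
        (le_of_eq (by ring)))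
    have a3 : 1 * p.Q ^ p.L ≤ (p.V + 1) * p.Q ^ p.L := Nat.mul_le_mul_right _ (by omega)
    have a4 : (p.wt + p.G) * E * p.Q ^ p.L ≤ (p.wt + p.G) * E * p.G :=
      Nat.mul_le_mul_left _ (by omega)
    have a5 := Nat.mul_le_mul_right (p.Q ^ p.L) a2
    simp only [tc, S0]
    calc (p.V + ((p.wt + (p.L + 1) * p.cc) * κ / θ + 1)) * p.Q ^ p.L
        = (p.V + 1) * p.Q ^ p.L + (p.wt + (p.L + 1) * p.cc) * κ / θ * p.Q ^ p.L := by ring
      _ ≤ p.G + (p.wt + p.G) * E * p.G := Nat.add_le_add (by omega) (a5.trans a4)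
      _ = _ := by ring
  · simp only [tc]
    calc p.m p.L * p.W * p.Q ^ p.L ≤ (m + 1) * p.cm * p.W * p.Q ^ p.L :=
          Nat.mul_le_mul_right _ (Nat.mul_le_mul_right _ (m_top hr))
      _ = (m + 1) * (p.cm * p.W * p.Q ^ p.L) := by ring
      _ ≤ _ := Nat.mul_le_mul_left _ (by omega)

/-- **the tower** -/
theorem tower {S P : Type} {g : Gl} {θ κ : ℕ} {σ : Stage S P} {ps : ℕ → P} (h : p.Ok g.X θ κ)
    (hX : p.Kb * (p.gb * p.ql ^ p.L + p.ψ * (p.lb * p.ql ^ p.L)) ≤ g.X) (hm : p.Kb ≤ g.X)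
    (hs : ∀ i < p.L, ∃ I Φ rc, StageSpec g σ (ps i) (p.sc i) I Φ rc) :
    ∃ I Ψ, TowerSpec g θ κ (Tw.tower θ κ σ (Tw.Bot.bot p.ψ) p.L) (p.tc θ κ p.L)
      (Shape ps (fun i => p.r ^ i) p.L) I Ψ :=
  tower_spec (k := p.tc θ κ) (sc := p.sc) (Z := p.Z)
    (Tw.Bot.botSpec (c := p.bd 0) hX ((Nat.le_succ _).trans hm)) (fitB h) p.L hs fun _ hi => fit h hi

/-- the losses are `N ^ o(1)` -/
theorem subQ_G {p : ℕ → TP} (hL : ∀ N, (p N).L = lev N) (hr : SubQ fun N => (p N).r)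
    (hU : SubL fun N => (p N).RU) (hK : SubQ fun N => (p N).K) (hρ : SubL fun N => (p N).ρ)
    (hA : SubL fun N => (p N).A) (hT : SubQ fun N => (p N).TU) (hB : SubQ fun N => (p N).Tb)
    (hc : SubQ fun N => (p N).cc) : SubQ fun N => (p N).G := by
  have h1 := hA.pow_lev
  have h2 := (hρ.add (SubL.const 1)).pow_lev
  have h3 := ((SubL.const 16).mul hU).pow_lev
  have h4 := (SubL.const 2).pow_lev
  have h5 := hU.subQ
  simp only [G, cm, U, V, W, Q, Tz, Kb, m, hL, pow_zero, mul_one]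
  fun_prop

theorem subQ_cm {p : ℕ → TP} (hL : ∀ N, (p N).L = lev N) (hU : SubL fun N => (p N).RU) :
    SubQ fun N => (p N).cm := by
  have h4 := (SubL.const 2).pow_lev
  have h5 := hU.subQ
  simp only [cm, hL]
  fun_prop

end TP

/-- every `SubQ` function is eventually at most `N` -/
theorem _root_.Crest.Agent.N325.SubQ.le_self {G : ℕ → ℕ} (h : SubQ G) : ∀ᶠ N in atTop, G N ≤ N := by
  simpa only [one_mul] using h.subP.neg 1

end Crest.Agent.N325.Sg
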