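import Crest.Agent.N325.Sg.Upd
import Crest.Agent.N325.Sg.Fx
import Crest.Agent.N325.Ds.Build
import Crest.Agent.N325.Pc.Build

/-! # Row 325 (helper42): one stage of the oracle — the construction -/

set_option autoImplicit false
open Finset

namespace Crest.Agent.N325.Sg

open Tw Lt

variable {g : Gl} {K : ℕ} {c c' : Bd} {G : Gr} {A : Type} {lf : A → List (ℕ × Ed) → R LF}
  {bx : A → Arr ℕ → Ds.BI → R Ds.BO} {p : Pr A} {k : Ds.Cs} {Nx : ℕ → ℕ → Prop} {Gam : ℕ → ℕ}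

/-- bound on the number of nodes -/
def nN (P : Pm) (m : ℕ) : ℕ := 4 * m * (P.D + 1) * P.S

/-- time of the construction; `TL` = time of the lift, `L` = number of batch levels -/
def tB (P : Pm) (K : ℕ) (k : Ds.Cs) (m TL L : ℕ) : ℕ :=
  TL + m + nN P m * ((P.D + 3) * (5 * K + 15) + 4) + nN P m * (P.S + 2) +
    (k.Cb + 2 * k.LM + 20) * (m * P.S ^ 2 + 1) + (k.cH + 1) * ((P.D + 3) * nN P m + 1) + L +
    m * P.S ^ 2 * (cT K + 3) + 30

/-- numerical hypotheses of the construction -/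
structure BH (g : Gl) (p : Pr A) (K : ℕ) (c : Bd) (k : Ds.Cs) (Nx : ℕ → ℕ → Prop)
    (Gam : ℕ → ℕ) : Prop where
  K0 : 0 < p.K0
  hK : 1 + (p.P.s + 2) * p.K0 ≤ K
  D0 : K * p.P.S ≤ p.D0
  nx : Nx 0 p.P0
  D1 : p.D0 + p.D0 * Gam p.P0 ≤ p.D1
  pr : ((p.P0, p.D1) :: p.pr).IsChain fun y x => Nx y.1 x.1 ∧ y.1 ≤ x.1 ∧ y.2 + y.2 * Gam x.1 ≤ x.2
  pr' : ∀ x ∈ (p.P0, p.D1) :: p.pr, x.1 ≤ k.LM ∧ x.2 ≤ k.DD
  gb : (2 * p.P.Hb + 1) * c.gb ≤ g.X
  lb : c.lb + 2 * p.P.Hb ≤ g.X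
  nN : nN p.P c.m ≤ g.X

theorem foldl_edges (f : ℕ → Ed) (l : List (ℕ × Ed)) (h : ∀ x ∈ l, f x.1 = x.2)
    (t : Arr Ed × Arr Bool) (e : ℕ) :
    (l.foldl (fun (t : Arr Ed × Arr Bool) x => (t.1.set x.1 x.2, t.2.set x.1 true)) t).1.get e
        = (if e ∈ l.map Prod.fst then f e else t.1.get e) ∧
      (l.foldl (fun (t : Arr Ed × Arr Bool) x => (t.1.set x.1 x.2, t.2.set x.1 true)) t).2.get e
        = if e ∈ l.map Prod.fst then true else t.2.get e := by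
  induction l generalizing t with
  | nil => simp
  | cons x l ih =>
    have k := ih (fun y hy => h y (List.mem_cons_of_mem _ hy)) (t.1.set x.1 x.2, t.2.set x.1 true)
    rw [List.foldl_cons, k.1, k.2, List.map_cons]
    simp only [Arr.get_set, List.mem_cons]
    by_cases a : e = x.1
    · subst a; simp [h x List.mem_cons_self]
    · simp only [a, false_or, if_false, and_self]

theorem enum_len {l : List (ℕ × Ed)} (hG : G.Ok c) (hl : Enum G l) : l.length ≤ c.m := by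
  rw [← List.length_map (f := Prod.fst), ← List.toFinset_card_of_nodup hl.1]
  exact (card_le_card fun e he => hG.1 ((hl.2.1 e).2 (List.mem_toFinset.1 he))).trans hG.2.1

/-- **the field `build` of the specification of the stage** -/
theorem sp_build (h : UH g p K c c' k) (h' : BH g p K c k Nx Gam)
    (hb : ∀ G0 X, FxOk p.P c G0 X → Ds.BoxSpec g (bx p.a X.cls) X.cls.get k Nx Gam) {TL : ℕ}
    {l : List (ℕ × Ed)} (wk : ℕ → Wk) (hG : G.Ok c) (hl : Enum G l)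
    (hlf : Sp g (lf p.a l) fun T t => T.Ok G p.P c.m c.nb ∧ t ≤ TL) :
    Sp g (build lf bx p l) fun r t => Oks K c' G Gr.emp r.2 ∧
      Inv p c K k Nx Gam p.pr.length r.1 G (apps Gr.emp r.2) (wks wk r.2) 0 ∧
      p.K0 * (r.2.length + rcS k r.1) ≤ 38 * k.cH * ((p.P.D + 3) * nN p.P c.m + p.K0) ∧
      t + PhiS K k r.1 ≤ tB p.P K k c.m TL p.pr.length := by
  have hm := enum_len hG hl
  unfold build
  refine (sp_foldP _ l _).bind ?_
  rintro ⟨ed, og⟩ t0 ⟨e0, ht0⟩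
  have hed : ∀ e ∈ G.E, ed.get e = G.ed e := fun e he => by
    have := (foldl_edges G.ed l hl.2.2 (Arr.cst ⟨0, 0, 0, 0⟩, Arr.cst false) e).1
    rwa [← e0, if_pos ((hl.2.1 e).1 he)] at this
  have hog : ∀ e, og.get e = true ↔ e ∈ G.E := fun e => by
    have := (foldl_edges G.ed l hl.2.2 (Arr.cst ⟨0, 0, 0, 0⟩, Arr.cst false) e).2
    rw [← e0] at this
    dsimp only at this
    rw [this, hl.2.1 e]
    split_ifs with a <;> simp [a]
  refine hlf.bind ?_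
  rintro T t1 ⟨hT, ht1⟩
  have n2 := h.B.n2
  have nb := h.nb
  rw [h.B.hQ] at n2
  refine (sp_fxR hG hT hed (by omega) h'.gb h'.lb).bind ?_
  rintro X t2 ⟨hX, rfl, ht2⟩
  have hlen : X.T.ord.length ≤ nN p.P c.m := hT.len
  have hO : X.nO ≤ c.m * p.P.S ^ 2 := hX.nO ▸ hT.olen
  rw [← hX.nO] at ht2
  refine (Pc.sp_build1 (Pc.wf_of_ok hT fun e he => (hG.2.2 e he).2.2.2.1) hT.nd hT.pl hT.kids h'.K0
    h'.hK (hlen.trans h'.nN)).bind ?_
  rintro ⟨pc, M⟩ t3 ⟨hI, hp, -, hM, ht3⟩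
  dsimp only at hI hp hM ⊢
  rw [sp_bind, sp_nat]
  refine ⟨h.nw (Nat.zero_le _), (sp_reVx hX _ _ _).bind fun vx t4 ⟨hv0, ht4⟩ => ?_⟩
  have hob : ∀ o < X.nO, og.get (X.ob.get o).1 = true := fun o ho =>
    (hog _).2 (hT.obj _ (hX.ob o ho)).1
  have hv : VxOk p.P X pc.rt vx := fun o => by
    rw [hv0 o]
    by_cases a : o / 2 < X.nO
    · have := hT.obj _ (hX.ob _ a)
      rw [if_pos a, if_pos ⟨a, by unfold nd; split_ifs; exacts [this.2.1, this.2.2.1]⟩]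
    · rw [if_neg a, if_neg fun j => a j.1]; rfl
  refine (sp_rangeL_zero _).bind ?_
  rintro _ t5 ⟨rfl, ht5⟩
  have h3 := h.nO hX
  refine (Ds.sp_build (gt := X.gt.get) (la := X.la.get) (th := p.th1) (hb G X hX)
    (fun o => by rw [hX.cls, hX.cls, Bf.rv_div]) List.nodup_range
    (fun e he => by have := List.mem_range.1 he; omega)
    (fun v hv => lt_of_lt_of_le
      (hT.idb v (List.mem_toFinset.1 (hI.sub (List.mem_toFinset.2 hv)))) h.nV)
    (fun e he j => by simpa using nonloop hX hI hv (List.mem_range.1 he) j)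
    (fun v => (deg_le hX ⟨_, hI⟩ hv v).trans h'.D0) h'.nx h'.D1 h'.pr h'.pr').bind ?_
  rintro ⟨ds, u⟩ t6 ⟨d1, d2, d3, d4, d5, d6, d7⟩
  simp only [List.mem_range, List.length_range] at d1 d2 d3 d4 d5 d6 d7
  have hu : ∀ o ∈ u, o < X.nO := fun o ho => (d2 o).1 ((d4 o).2 ho).1
  have hul : u.length ≤ X.nO := by
    simpa using (d3.subperm fun o ho => List.mem_range.2 (hu o ho)).length_le
  refine (sp_pubs (og := og) (w := ((pc, []), Arr.cst false, [])) hX h.fu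
    (fun o ho => ⟨hu o ho, hob o (hu o ho)⟩) h3 ⟨_, hI⟩ fun o j => by simp at j).bind ?_
  rintro w t7 ⟨w1, w2, ⟨n, w3, w4, w5⟩, -, w6, -, w7, w8, ht7⟩
  simp only [List.append_nil, Arr.get_cst, Bool.false_eq_true, false_or] at w3 w5 w6 w7 w8
  have hd : DnOk p.P p.Q K X G G ⟨ed, og, w.1.1, vx, ds, w.2.1, Arr.cst none, Arr.cst false⟩ :=
    ⟨w1, hed, fun e j => ⟨(hog e).1 j, (hog e).1 j, rfl⟩,
      fun x hx _ a ha => (hog _).2 (hT.real x hx a ha).1, by rw [← w6] at hv; exact hv, w2,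
      fun q ab j => by simp at j, fun e j1 j2 => by rw [(hog e).2 j1] at j2; cases j2⟩
  refine (sp_fin (d := ⟨ed, og, pc, vx, ds, Arr.cst false, Arr.cst none, Arr.cst false⟩)
    (T0 := fun _ => none) h.B hX hG hd (agr_emp wk) (fun _ => rfl) (fun i a b => ?_)
    (fun v hv => List.mem_toFinset.1 (w5.ids v (w3 ▸ hv))) h.nb h.gb).bind ?_
  · unfold tb
    split_ifs with e0 e1
    · exact (w5.seg (w3 ▸ b e0)).trans (Pc.seg_eq_none (hp _))
    · refine if_neg fun j => a ?_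
      rw [w8, List.mem_reverse]
      exact List.mem_map.2 ⟨i / 3, (w7 _).1 j, by omega⟩
    · rfl
  rintro ⟨d2', l2⟩ t8 ⟨e, k1, k2, k3, k4, k5⟩
  dsimp only at e k1 k2 k3 k4
  have e1 : d2'.ds = ds := by rw [e]
  have hw : w.1.2.length + w.2.2.length ≤ 19 * u.length := by
    rw [w3, w8, List.length_reverse, List.length_map]; omega
  refine ⟨k1, inv_iff.2 ⟨rfl, hG, G, hX, ?_, ?_, ?_, k2, k3⟩, ?_, ?_⟩
  · dsimp only; rw [e]; exact ⟨hd.pc, hd.ed, hd.og, hd.liv, hd.vx, hd.pub, hd.pt, hd.ins⟩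
  · dsimp only; rw [e]
    exact ⟨fun o j => ⟨(d2 o).1 j, hob o ((d2 o).1 j)⟩, fun o j _ => Or.inl ((d2 o).2 j),
      fun o j => (w7 o).2 ((d4 o).1 j)⟩
  · dsimp only; rw [e]; exact ⟨0, le_rfl, d1⟩
  · unfold rcS
    dsimp only
    rw [e1, d6]
    have a1 : l2.length ≤ 38 * (k.cH * (M.length + 1)) := by omega
    have a2 : p.K0 * M.length ≤ (p.P.D + 3) * nN p.P c.m :=
      hM.trans (Nat.mul_le_mul_left _ hlen)
    calc p.K0 * (l2.length + 38 * 0) ≤ p.K0 * (38 * (k.cH * (M.length + 1))) :=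
          Nat.mul_le_mul_left _ (by omega)
      _ = 38 * k.cH * (p.K0 * M.length + p.K0) := by ring
      _ ≤ _ := Nat.mul_le_mul_left _ (by omega)
  · unfold PhiS tB cT
    dsimp only
    rw [e1, d6]
    have a2 : M.length ≤ (p.P.D + 3) * nN p.P c.m :=
      ((Nat.le_mul_of_pos_left _ h'.K0).trans hM).trans (Nat.mul_le_mul_left _ hlen)
    have a3 := Nat.mul_le_mul_right ((p.P.D + 2 + 1) * (5 * K + 15) + 4) hlen
    have a4 := Nat.mul_le_mul_right (p.P.S + 2) hlen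
    have a5 := Nat.mul_le_mul_left (k.Cb + 2 * k.LM + 20) (Nat.add_le_add_right hO 1)
    have a6 := Nat.mul_le_mul_left (k.cH + 1) (Nat.add_le_add_right a2 1)
    have a7 := Nat.mul_le_mul_left (3 * K + 7) hw
    have a8 := Nat.mul_le_mul_right (90 * K + 151 + 19 * (3 * K + 7)) (hul.trans hO)
    rw [show p.P.D + 2 + 1 = p.P.D + 3 from rfl] at a3 ht3
    nlinarith

end Crest.Agent.N325.Sg
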