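import Crest.Agent.N325.Sg.Mark
import Crest.Agent.N325.Ds.Upd
import Crest.Agent.N325.Ds.Rec

/-!
# Row 325 (helper13): one stage of the oracle — marks, death of objects, new spanner
-/

set_option autoImplicit false
open Finset

namespace Crest.Agent.N325.Sg

open Tw Lt

variable {g : Gl} {P : Pm} {K : ℕ} {c : Bd} {G0 : Gr} {X : Fx} {d : Dn}

theorem FxOk.cls_rv' (hX : FxOk P c G0 X) (o : ℕ) : X.cls.get (Bf.rv o) = X.cls.get o := by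
  rw [hX.cls, hX.cls, Bf.rv_div]

theorem FxOk.wf' (hX : FxOk P c G0 X) : Pc.Fo.WF X.T X.T.ord.toFinset (P.D + 2) :=
  Pc.wf_of_ok hX.ok fun e he => (hX.g0.2.2 e he).2.2.2.1

theorem FxOk.nd_mem' (hX : FxOk P c G0 X) {o : ℕ} (ho : o / 2 < X.nO) :
    nd X.ob.get o ∈ X.T.ord := by
  have h := hX.ok.obj _ (hX.ob _ ho)
  unfold nd
  split_ifs
  exacts [h.2.1, h.2.2.1]

theorem VxOk.mem' (hX : FxOk P c G0 X) {pc : Pc.St} {vx : Arr ℕ} (hp : PcOk X K pc)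
    (hv : VxOk P X pc.rt vx) {o : ℕ} (ho : o / 2 < X.nO) : vx.get o ∈ X.T.ord := by
  obtain ⟨M, hM⟩ := hp
  rw [hv o, if_pos ho]
  exact List.mem_toFinset.1 (hM.p.rt_mem hX.wf' (List.mem_toFinset.2 (hX.nd_mem' ho)))

theorem cut_RU (k : Ds.Cs) (L : ℕ) {a b : ℕ} (h : a ≤ b) : k.RU L a ≤ k.RU L b :=
  Nat.mul_le_mul_left _ (by omega)

theorem cut_TU (k : Ds.Cs) (L : ℕ) {a b : ℕ} (h : a ≤ b) : k.TU L a ≤ k.TU L b :=
  Nat.mul_le_mul_left _ (by omega)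

theorem cut_ar {t1 t2 t4 C l o r r' U U' F F' T T' B : ℕ} (h1 : t1 ≤ B + 30)
    (h2 : t2 + F' ≤ F + T) (h4 : t4 ≤ l * C + 1) (hr : o + l + r' ≤ r + U) (hU : U ≤ U')
    (hT : T ≤ T') (m : ℕ) :
    t1 + (t2 + (m + 1 + (t4 + 0))) + F' + C * r' ≤ F + C * r + T' + C * U' + B + m + 32 := by
  have h : C * (l + r') ≤ C * (r + U') := Nat.mul_le_mul_left _ (by omega)
  rw [mul_add, mul_add, mul_comm C l] at h
  omega

variable {A : Type} {bx : A → Arr ℕ → Ds.BI → R Ds.BO} {p : Pr A} {k : Ds.Cs}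
  {Nx : ℕ → ℕ → Prop} {Gam : ℕ → ℕ} {L n : ℕ}

theorem sp_cutR (hX : FxOk P c G0 X) (hb : Ds.BoxSpec g (bx p.a X.cls) X.cls.get k Nx Gam)
    (hpb : p.b = k.b) (hfu : K < p.fu) (hV : (3 * c.nb + 3) * (P.D + 2) * P.S ≤ k.nV)
    (hg : 3 * X.nO ≤ g.X)
    {xs Kl : List ℕ} {og' : Arr Bool} (hp : PcOk X K d.pc) (hv : VxOk P X d.pc.rt d.vx)
    (hq : PubOk X d.og d.pc d.pub) (hs : DsOk X d.og d.ds d.pub)
    (hI : Ds.Inv k Nx Gam X.cls.get X.gt.get X.la.get p.th1 L d.vx.get d.ds n)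
    (hn : n + 1 < (k.b + 1) ^ L)
    (hxs : ∀ x ∈ xs, x ∈ X.T.ord) (hK : ∀ o ∈ Kl, o < X.nO)
    (hog : ∀ o < X.nO,
      og'.get (X.ob.get o).1 = true ↔ d.og.get (X.ob.get o).1 = true ∧ o ∉ Kl) :
    Sp g (cutR bx p X d xs Kl) fun r t => PcOk X K r.2.2.1.1 ∧ VxOk P X r.2.2.1.1.rt r.1 ∧
      PubOk X og' r.2.2.1.1 r.2.2.2.1 ∧ DsOk X og' r.2.1 r.2.2.2.1 ∧
      Ds.Inv k Nx Gam X.cls.get X.gt.get X.la.get p.th1 L r.1.get r.2.1 (n + 1) ∧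
      Pc.Off X.T.ord.toFinset d.pc r.2.2.1.1 r.2.2.1.2 ∧
      (∀ y, d.pc.cut.get y = true → r.2.2.1.1.cut.get y = true) ∧
      (∀ x ∈ xs, r.2.2.1.1.cut.get x = true) ∧
      (∀ o, 3 * o + 1 ∉ r.2.2.2.2 → r.2.2.2.1.get o = d.pub.get o) ∧
      r.2.2.1.2.length + r.2.2.2.2.length + 19 * k.rc r.2.1 ≤ 19 * k.rc d.ds +
        19 * k.RU L (2 * (P.D + 3) * xs.length + 2 * Kl.length) + (P.D + 3) * xs.length +
        Kl.length ∧
      t + k.Phi r.2.1 + (90 * K + 151) * k.rc r.2.1 ≤ k.Phi d.ds + (90 * K + 151) * k.rc d.ds +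
        k.TU L (2 * (P.D + 3) * xs.length + 2 * Kl.length) +
        (90 * K + 151) * k.RU L (2 * (P.D + 3) * xs.length + 2 * Kl.length) +
        (P.D + 3) * xs.length * (K * (P.S + 2) + 20 * K + 60) + Kl.length + 32 := by
  unfold cutR
  refine (sp_mark hX hp hv hxs).bind fun r t1 ⟨a1, a2, a3, a4, a5, a6, a7, a8, a9, a10, a11⟩ => ?_
  have lt : ∀ y ∈ X.T.ord, y < k.nV := fun y m => (hX.ok.idb y m).trans_le hV
  rw [hpb]
  refine (Ds.sp_upd' (Ds.recSpec hb hX.cls_rv') hI a8 (fun v m => lt v (a9 v m))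
    (fun e m => have := hK e m
      ⟨lt _ (a2.mem' hX a1 (by omega)), lt _ (a2.mem' hX a1 (by omega))⟩) hn).bind
    fun u t2 ⟨b1, b2, _, _, _, _, b7, b8, b9⟩ => ?_
  refine (sp_unps (w := (r.1, d.pub, [])) fun o m => by have := hK o m; omega).bind
    fun w t3 ⟨c1, c2, c3, c4⟩ => ?_
  have al : ∀ o, u.1.al.get o = true → o < X.nO ∧ og'.get (X.ob.get o).1 = true := fun o h =>
    have h1 := (b2 o).1 h
    have h2 := hs.al o h1.1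
    ⟨h2.1, (hog o h2.1).2 ⟨h2.2, h1.2⟩⟩
  dsimp only at c1 c2 c3
  refine (sp_pubs (og := og') hX hfu (fun o m => al o ((b7 o).2 (Or.inr m)).1) hg (c1 ▸ a1)
    fun o h => ?_).bind fun w' t4 ⟨e1, e2, ⟨N, e3, e4, e5⟩, e6, e7, _, e9, e10, e11⟩ => ?_
  · obtain ⟨h1, h2⟩ := (c2 o).1 h
    obtain ⟨j1, j2, j3, j4, j5⟩ := hq o h1
    rw [c1]
    exact ⟨j1, (hog o j1).2 ⟨j2, h2⟩, a7 _ j3, a7 _ j4, a7 _ j5⟩
  rw [c1] at e3 e5 e6 e7
  have hm : r.2.2.length + 2 * Kl.length ≤ 2 * (P.D + 3) * xs.length + 2 * Kl.length := by omega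
  have hU := cut_RU k L hm
  refine sp_pure.2 ⟨e1, e7 ▸ a2, e2, ⟨al, fun o h j => ?_, fun o h => ?_⟩, b1,
    e3 ▸ a3.trans e5, e6 ▸ a5, e6 ▸ a6, fun o h => ?_, ?_, ?_⟩
  · obtain ⟨j1, j2⟩ := (hog o h).1 j
    exact (hs.cov o h j1).imp (fun q => (b2 o).2 ⟨q, j2⟩)
      fun q => (e9 o).2 (Or.inl ((c2 o).2 ⟨q, j2⟩))
  · exact (e9 o).2 (((b7 o).1 h).imp_left fun q => (c2 o).2 ⟨hs.dp o q.1, ((b2 o).1 h.1).2⟩)
  · dsimp only at h ⊢
    rw [e10, c3] at h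
    simp only [List.mem_append, List.mem_reverse, List.mem_map, not_or, not_exists, not_and] at h
    have h1 : o ∉ u.2.2 := fun m => h.1 o m rfl
    have h2 : o ∉ Kl := fun m => h.2.1 o m rfl
    rw [Bool.eq_iff_iff, e9, c2]
    tauto
  · dsimp only
    rw [e3, e10, c3]
    simp only [List.length_append, List.length_reverse, List.length_map, List.length_nil]
    omega
  · rw [c4]
    exact cut_ar a11 b9 e11 b8 hU (cut_TU k L hm) _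

end Crest.Agent.N325.Sg
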