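import Crest.Agent.N325.Sg.Defs

/-!
# Row 325 (helper63): the copies of the inserted edges
-/

set_option autoImplicit false

namespace Crest.Agent.N325.Sg

open Tw Lt

variable {g : Gl} {P : Pm} {Q : ℕ} {T : LF}

theorem sp_cvR (v : ℕ) (h : P.nw v ≤ g.X) :
    Sp g (cvR T P v) fun r t => r = T.cv P v ∧ t = 0 := by
  unfold cvR LF.cv
  by_cases e : T.cop.get v = []
  · rw [if_pos (List.isEmpty_iff.2 e), if_pos e]
    exact ⟨h, rfl, rfl⟩
  · rw [if_neg (fun k => e (List.isEmpty_iff.1 k)), if_neg e]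
    exact ⟨rfl, rfl⟩

/-- one row of pairs -/
theorem sp_row (a : ℕ) (bs : List ℕ) (s : ℕ × Arr (Option (ℕ × ℕ)) × List ℕ)
    (h : 3 * (s.1 + bs.length) ≤ g.X) :
    Sp g (foldL (fun b (t : ℕ × Arr (Option (ℕ × ℕ)) × List ℕ) =>
      nat (3 * t.1) >>= fun i => pure (t.1 + 1, t.2.1.set t.1 (some (a, b)), (i + 2) :: t.2.2))
      bs s) fun r t => r.1 = s.1 + bs.length ∧
      (∀ j, (r.2.1.get j = s.2.1.get j ∧ ¬(s.1 ≤ j ∧ j < r.1)) ∨ (s.1 ≤ j ∧ j < r.1 ∧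
        3 * j + 2 ∈ r.2.2 ∧ ∃ b ∈ bs, r.2.1.get j = some (a, b))) ∧
      (∀ b ∈ bs, ∃ j, s.1 ≤ j ∧ j < r.1 ∧ r.2.1.get j = some (a, b)) ∧
      (∀ i ∈ s.2.2, i ∈ r.2.2) ∧ r.2.2.length = s.2.2.length + bs.length ∧ t = bs.length + 1 := by
  induction bs generalizing s with
  | nil => exact ⟨Nat.zero_le _, rfl, fun j => Or.inl ⟨rfl, by omega⟩, by simp, fun _ k => k, rfl, rfl⟩
  | cons b bs ih =>
    rw [List.length_cons] at h
    refine ⟨Nat.zero_le _, show 3 * s.1 ≤ g.X by omega, (ih (s.1 + 1, s.2.1.set s.1 (some (a, b)),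
      (3 * s.1 + 2) :: s.2.2) (by dsimp only; omega)).mono ?_⟩
    rintro r t ⟨h1, h2, h3, h4, h5, h6⟩
    dsimp only at h1 h2 h3 h4 h5
    have k : r.2.1.get s.1 = some (a, b) := by
      rcases h2 s.1 with k | k
      · rw [k.1, Arr.get_set_self]
      · omega
    simp only [List.length_cons] at h5 ⊢
    refine ⟨by omega, fun j => ?_, fun b' k' => ?_, fun i k => h4 i (List.mem_cons_of_mem _ k),
      by omega, by omega⟩
    · by_cases e : j = s.1
      · subst e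
        exact Or.inr ⟨le_rfl, by omega, h4 _ List.mem_cons_self, b, List.mem_cons_self, k⟩
      · rcases h2 j with k | ⟨k1, k2, k3, b', k4, k5⟩
        · exact Or.inl ⟨by rw [k.1, Arr.get_set_ne _ e], by omega⟩
        · exact Or.inr ⟨by omega, k2, k3, b', List.mem_cons_of_mem _ k4, k5⟩
    · rcases List.mem_cons.1 k' with rfl | k'
      · exact ⟨s.1, le_rfl, by omega, k⟩
      · obtain ⟨j, a1, a2, a3⟩ := h3 b' k'
        exact ⟨j, by omega, a2, a3⟩

theorem sp_pairs' (as bs : List ℕ) (s : ℕ × Arr (Option (ℕ × ℕ)) × List ℕ)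
    (h : 3 * (s.1 + as.length * bs.length) ≤ g.X) :
    Sp g (pairs as bs s) fun r t => r.1 = s.1 + as.length * bs.length ∧
      (∀ j, (r.2.1.get j = s.2.1.get j ∧ ¬(s.1 ≤ j ∧ j < r.1)) ∨ (s.1 ≤ j ∧ j < r.1 ∧
        3 * j + 2 ∈ r.2.2 ∧ ∃ a ∈ as, ∃ b ∈ bs, r.2.1.get j = some (a, b))) ∧
      (∀ a ∈ as, ∀ b ∈ bs, ∃ j, s.1 ≤ j ∧ j < r.1 ∧ r.2.1.get j = some (a, b)) ∧
      (∀ i ∈ s.2.2, i ∈ r.2.2) ∧ r.2.2.length = s.2.2.length + as.length * bs.length ∧
      t = as.length * (bs.length + 2) + 1 := by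
  unfold pairs
  induction as generalizing s with
  | nil =>
    exact ⟨Nat.zero_le _, by simp, fun j => Or.inl ⟨rfl, by omega⟩, by simp, fun _ k => k, by simp,
      by simp⟩
  | cons a as ih =>
    rw [List.length_cons, add_mul, one_mul] at h
    refine ⟨Nat.zero_le _, (sp_row a bs s (by omega)).bind ?_⟩
    rintro r t ⟨h1, h2, h3, h4, h5, h6⟩
    refine (ih r (by omega)).mono ?_
    rintro r' t' ⟨k1, k2, k3, k4, k5, k6⟩
    simp only [List.length_cons, add_mul, one_mul]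
    refine ⟨by omega, fun j => ?_, fun a' p b q => ?_, fun i p => k4 i (h4 i p), by omega, by omega⟩
    · rcases k2 j with k | ⟨p1, p2, p3, a', p4, p5⟩
      · rcases h2 j with z | ⟨z1, z2, z3, z4⟩
        · exact Or.inl ⟨k.1.trans z.1, by omega⟩
        · exact Or.inr ⟨z1, by omega, k4 _ z3, a, List.mem_cons_self, by rwa [k.1]⟩
      · exact Or.inr ⟨by omega, p2, p3, a', List.mem_cons_of_mem _ p4, p5⟩
    · rcases List.mem_cons.1 p with rfl | p
      · obtain ⟨j, z1, z2, z3⟩ := h3 b q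
        refine ⟨j, z1, by omega, ?_⟩
        rcases k2 j with k | k
        · rw [k.1, z3]
        · omega
      · obtain ⟨j, z1, z2, z3⟩ := k3 a' p b q
        exact ⟨j, by omega, z2, z3⟩

theorem sp_pairs (as bs : List ℕ) (q : ℕ) (pt : Arr (Option (ℕ × ℕ))) (l : List ℕ)
    (h : 3 * (q + as.length * bs.length) ≤ g.X) :
    Sp g (pairs as bs (q, pt, l)) fun r t =>
      (∀ j, r.2.1.get j = pt.get j ∨ (q ≤ j ∧ j < q + as.length * bs.length ∧ 3 * j + 2 ∈ r.2.2 ∧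
        ∃ a ∈ as, ∃ b ∈ bs, r.2.1.get j = some (a, b))) ∧
      (∀ a ∈ as, ∀ b ∈ bs, ∃ j, q ≤ j ∧ j < q + as.length * bs.length ∧ r.2.1.get j = some (a, b)) ∧
      (∀ i ∈ l, i ∈ r.2.2) ∧ r.2.2.length = l.length + as.length * bs.length ∧
      t ≤ as.length * (bs.length + 2) + 1 :=
  (sp_pairs' as bs (q, pt, l) h).mono fun _ _ ⟨h1, h2, h3, h4, h5, h6⟩ => by
    rw [h1] at h2 h3
    exact ⟨fun j => (h2 j).imp And.left id, h3, h4, h5, h6.le⟩

theorem sp_clear (q : ℕ) (pt : Arr (Option (ℕ × ℕ))) (h : 3 * (q + Q) ≤ g.X) :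
    Sp g (clear Q q pt) fun r t =>
      (∀ j, r.1.get j = if q ≤ j ∧ j < q + Q then none else pt.get j) ∧
      (∀ j, q ≤ j → j < q + Q → 3 * j + 2 ∈ r.2) ∧ r.2.length = Q ∧ t = Q + 1 := by
  refine (sp_forN (fun i (s : Arr (Option (ℕ × ℕ)) × List ℕ) t =>
      (∀ j, s.1.get j = if q ≤ j ∧ j < i then none else pt.get j) ∧
      (∀ j, q ≤ j → j < i → 3 * j + 2 ∈ s.2) ∧ s.2.length + q = i ∧ t + q = i) ?_
    (t := 0) ⟨fun j => by rw [if_neg (by omega)], fun j a b => by omega, by simp, by simp⟩).mono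
    fun _ _ ⟨_, e, k1, k2, k3, k4⟩ => ⟨k1, k2, by omega, by omega⟩
  rintro i s t a b ⟨k1, k2, k3, k4⟩
  refine ⟨show 3 * i ≤ g.X by omega, fun j => ?_, fun j c d => ?_, ?_, by omega⟩
  · rw [Arr.get_set, k1]
    split_ifs <;> first | rfl | omega
  · by_cases e : j = i
    · rw [e]; exact List.mem_cons_self
    · exact List.mem_cons_of_mem _ (k2 j c (by omega))
  · rw [List.length_cons]; omega

end Crest.Agent.N325.Sg
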