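import Crest.Agent.N325.Sg.Pk
import Crest.Agent.N325.Lt.Lift

/-!
# N325 / Sg (helper51): the parameters satisfy the numeric conditions
-/

set_option autoImplicit false

namespace Crest.Agent.N325.Sg.Pk

open Tw Lt

variable {c N X i : ℕ}

theorem lg_one : 1 ≤ lg c N := Nat.mul_pos (by omega) (by omega)
theorem S_pos : 1 ≤ (P c N).S := Nat.one_le_pow _ _ lg_one
theorem P_ok : (P c N).Ok :=
  ⟨lg_one, rfl, (two_le_bb c N).trans (Nat.le_add_left _ _), Nat.le_add_right _ _⟩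
theorem two_le_r : 2 ≤ r N := two_le_rt _ _
theorem La_pos : 1 ≤ La c N := Nat.le_add_left _ _
theorem cH_pos : 1 ≤ cH c N :=
  Nat.mul_pos (Nat.mul_pos La_pos (two_pos.trans_le (two_le_bb c N))) (Nat.succ_pos _)
theorem k0_pos : 1 ≤ k0 c N := Nat.mul_pos (Nat.mul_pos (Nat.mul_pos
  (Nat.mul_pos (by omega) cH_pos) (by omega)) (by omega)) S_pos
theorem K0_pos : 0 < K0 c N := Nat.mul_pos k0_pos (two_pos.trans_le two_le_r)
theorem K_pos : 1 ≤ K c N := Nat.le_add_right _ _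
theorem A_one : 1 ≤ A c N := by
  have := lg_one (c := c) (N := N)
  exact Nat.mul_pos (Nat.mul_pos (Nat.mul_pos (Nat.succ_pos _) (by change 0 < 4 * lg c N; omega))
    (by omega)) (by omega)
theorem RU_ge : 80 * cH c N + 40 ≤ RU c N := by
  have h : (2 * cH c N * 1) * 1 ≤ (cs c N).RU (T N) (fM (P c N)) :=
    Nat.mul_le_mul (le_trans (Nat.mul_le_mul_left _ (Nat.le_add_left _ _)) (Nat.le_succ _))
      (Nat.le_add_left _ _)
  unfold RU fRU; omega
theorem RU_pos : 1 ≤ (tp c N).RU := le_trans (by omega) RU_ge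
theorem ql_pos : 1 ≤ (tp c N).ql := by have := K_pos (c := c) (N := N); change 1 ≤ 2 * K c N; omega
theorem qn_pos : 1 ≤ (tp c N).qn :=
  Nat.mul_pos (Nat.mul_pos (by omega) (by omega)) (Nat.one_le_pow _ _ S_pos)
theorem m_pos : 1 ≤ (tp c N).m i :=
  Nat.mul_pos (Nat.mul_pos two_pos RU_pos) (Nat.one_le_pow _ _ (two_pos.trans_le two_le_r))

theorem pw_le {a b : ℕ} (h : a ≤ b) : (N + 2) ^ a ≤ (N + 2) ^ b := Nat.pow_le_pow_right (by omega) h
theorem pw_lt {a : ℕ} (h : a < c + 5) : (N + 2) ^ a < 2 ^ lg c N :=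
  (Nat.pow_lt_pow_right (by omega) h).trans_le (le_two_pow_lg c N)

theorem m_le (E : Ev c N) (hi : i ≤ lev N) : 4 * (tp c N).m i ≤ (N + 2) ^ 2 := by
  have h1 := TP.m_le (p := tp c N) (one_le_two.trans two_le_r) hi
  have h2 := TP.m_top (p := tp c N) (m := mm N) rfl
  have h3 := Nat.mul_le_mul_left (N + 1) E.cm
  have h4 : (mm N + 1) * (tp c N).cm ≤ 129 * (N + 1) * (tp c N).cm :=
    Nat.mul_le_mul_right _ (by unfold mm; omega)
  change (tp c N).m (lev N) ≤ _ at h2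
  nlinarith

theorem ql_pow_le (N : ℕ) : (tp c N).ql ^ lev N ≤ (N + 1) * (258 * (2 * q2 c N) ^ lev N) := by
  have h1 : (tp c N).ql ≤ r N * q2 c N := by
    have := two_le_r (N := N)
    change 2 * (1 + (lg c N + 2) * (k0 c N * r N)) ≤ r N * (2 * (1 + (lg c N + 2) * k0 c N))
    nlinarith
  refine (Nat.pow_le_pow_left h1 _).trans ?_
  rw [mul_pow, mul_pow]
  refine (Nat.mul_le_mul_right _ (TP.rt_pow_le (lev N) (mm N))).trans ?_
  have : 2 * mm N + 2 ≤ (N + 1) * 258 := by unfold mm; omega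
  calc _ = (2 * mm N + 2) * (2 ^ lev N * q2 c N ^ lev N) := by ring
    _ ≤ (N + 1) * 258 * (2 ^ lev N * q2 c N ^ lev N) := Nat.mul_le_mul_right _ this
    _ = _ := by ring

theorem ql_le (E : Ev c N) : (tp c N).ql ^ lev N ≤ (N + 2) ^ 2 := by
  have h1 : 258 * 1 * (2 * q2 c N) ^ lev N ≤ N :=
    le_trans (Nat.mul_le_mul_right _ (Nat.mul_le_mul_left _
      (K_pos.trans (Nat.le_add_right _ _)))) E.ql
  have h2 := Nat.mul_le_mul_left (N + 1) h1
  have := ql_pow_le (c := c) N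
  nlinarith

theorem lb_le (E : Ev c N) : ((tp c N).bd i).lb ≤ LB c N :=
  (TP.lb_le ql_pos i).trans (by rw [LB, pow_add]; exact Nat.mul_le_mul_left _ (ql_le E))
theorem gb_le (E : Ev c N) : ((tp c N).bd i).gb ≤ LB c N :=
  (TP.gb_le ql_pos i).trans (by rw [LB, pow_add]; exact Nat.mul_le_mul_left _ (ql_le E))
theorem LB_lt : LB c N < 2 ^ lg c N := pw_lt (by omega)
theorem nb_lt (E : Ev c N) : ((tp c N).bd i).nb < 2 ^ lg c N :=
  lt_of_le_of_lt ((TP.nb_le qn_pos i).trans (by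
    rw [pow_succ]; exact Nat.mul_le_mul_left _ (E.qn.trans (by omega)))) (pw_lt (a := c + 1) (by omega))
theorem le_nb : (N + 2) ^ c ≤ ((tp c N).bd i).nb :=
  Nat.le_mul_of_pos_right _ (Nat.one_le_pow _ _ qn_pos)
theorem lb_pos : 1 ≤ ((tp c N).bd i).lb :=
  Nat.mul_pos (Nat.one_le_pow _ _ (by omega)) (Nat.one_le_pow _ _ ql_pos)

theorem bdOk (hc : 2 ≤ c) (E : Ev c N) (hi : i < lev N) :
    BdOk (P c N) ((P c N).S ^ 2) (K c N) ((tp c N).bd (i + 1)) ((tp c N).bd i) := by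
  obtain ⟨e1, e2, e3⟩ := TP.bd_succ (p := tp c N) hi
  have n1 : 1 ≤ ((tp c N).bd (i + 1)).nb := (Nat.one_le_pow _ _ (by omega)).trans le_nb
  have n2 : (tp c N).m (i + 1) ≤ ((tp c N).bd (i + 1)).nb :=
    le_trans (le_trans (by omega) (m_le E (i := i + 1) hi)) ((pw_le hc).trans le_nb)
  have l1 := lb_pos (c := c) (N := N) (i := i + 1)
  have s1 := S_pos (c := c) (N := N)
  have s2 : (P c N).S ≤ (P c N).S ^ 2 := Nat.le_self_pow two_ne_zero _
  have eq : (tp c N).qn = 18 * (T N + 2) * (P c N).S ^ 2 := rfl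
  have el : (tp c N).ql = 2 * K c N := rfl
  refine ⟨P_ok, rfl, K_pos, ?_, ?_, ?_, ?_, ?_⟩
  · rw [e1, eq]
    calc _ ≤ 3 * (6 * ((tp c N).bd (i + 1)).nb * (T N + 2) * (P c N).S ^ 2) :=
          Nat.mul_le_mul_left _ (Nat.mul_le_mul (Nat.mul_le_mul_right _ (by omega)) s2)
      _ = _ := by ring
  · rw [e1, eq]
    calc _ ≤ 18 * (T N + 2) * (((tp c N).bd (i + 1)).nb * (P c N).S ^ 2) :=
          Nat.mul_le_mul (by omega) (Nat.mul_le_mul_right _ n2)
      _ = _ := by ring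
  · rw [e1, eq]
    calc _ ≤ 9 * (T N + 2) * (2 * ((tp c N).bd (i + 1)).nb * (P c N).S ^ 2) :=
          Nat.mul_le_mul (by omega) (Nat.mul_le_mul_right _ (by omega))
      _ = _ := by ring
  · rw [e2, el, mul_comm 2, mul_assoc]; exact Nat.mul_le_mul_left _ (by omega)
  · rw [e3, el]; exact Nat.mul_le_mul_right _ (by omega)

/-- the consequences of `XB ≤ X` -/
structure XOk (c N X : ℕ) : Prop where
  M : 2 ^ lg c N ≤ X
  La : La c N * 2 ^ lg c N * bb c N ≤ X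
  bb : bb c N ^ T N ≤ X
  g : (LM N + 1) * (2 * (P c N).Hb + 2) * 2 ^ lg c N ≤ X
  th : (2 * LM N + 1) * A c N ^ lev N * A c N ≤ X
  n : 2 ^ lg c N * ((T N + 1) * (P c N).S * 2 ^ lg c N) ≤ X

theorem xOk (h : XB c N ≤ X) : XOk c N X := by
  have m1 : 1 ≤ 2 ^ lg c N := Nat.one_le_two_pow
  have b1 := two_le_bb c N
  have k := (Nat.le_mul_of_pos_left _ m1).trans h
  unfold XB at h
  simp only [mul_add, add_mul (La c N) 4] at h
  refine ⟨?_, ?_, by omega, by omega, by omega, by omega⟩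
  · have : 2 ^ lg c N * 1 ≤ 2 ^ lg c N * (4 * bb c N) := Nat.mul_le_mul_left _ (by omega)
    omega
  · rw [mul_comm (La c N), mul_assoc]; omega

theorem Hb_ge : (P c N).β * (P c N).ρ ^ (P c N).D ≤ (P c N).Hb :=
  (Nat.le_succ _).trans (Nat.le_mul_of_pos_left _ (Nat.succ_pos _))

theorem XOk.Hb (h : XOk c N X) : 2 ^ lg c N + 2 * (P c N).Hb ≤ X := by
  have m1 : 1 ≤ 2 ^ lg c N := Nat.one_le_two_pow
  have : 1 * (2 * (P c N).Hb + 2) * 2 ^ lg c N ≤ X :=
    le_trans (Nat.mul_le_mul_right _ (Nat.mul_le_mul_right _ (by omega))) h.g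
  nlinarith [Nat.mul_le_mul_left (2 * (P c N).Hb) m1]

theorem XOk.gb (h : XOk c N X) (E : Ev c N) :
    (LM N + 1) * ((2 * (P c N).Hb + 2) * ((tp c N).bd i).gb) ≤ X := by
  rw [← mul_assoc]
  exact le_trans (Nat.mul_le_mul_left _ ((gb_le E).trans LB_lt.le)) h.g

theorem XOk.nN (h : XOk c N X) (E : Ev c N) (hi : i ≤ lev N) {y : ℕ} (hy : y ≤ 2 ^ lg c N) :
    4 * (tp c N).m i * (T N + 1) * (P c N).S * y ≤ X := by
  have := (m_le E hi).trans (pw_lt (c := c) (a := 2) (by omega)).le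
  refine le_trans ?_ h.n
  rw [mul_assoc, mul_assoc, ← mul_assoc (T N + 1)]
  exact Nat.mul_le_mul this (Nat.mul_le_mul_left _ hy)

theorem nV_ok (hc : 2 ≤ c) (E : Ev c N) (hi : i < lev N) :
    (3 * ((tp c N).bd (i + 1)).nb + 3) * ((P c N).D + 2) * (P c N).S ≤ 2 ^ lg c N - 1 := by
  have h1 := (bdOk hc E hi).n1
  have h2 := nb_lt (i := i) E
  omega

/-- the bounds seen by the lift -/
def bdL (c N i : ℕ) : Bd :=
  ⟨((tp c N).bd i).m, ((tp c N).bd i).nb, LB c N, ((tp c N).bd i).gb⟩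

theorem lnum0 (hc : 2 ≤ c) (E : Ev c N) (h : XOk c N X) (hi : i < lev N) :
    LNum X (P c N) (bdL c N (i + 1)) (lg c N) (La c N) := by
  have m1 := m_le E (i := i + 1) hi
  have h1 := h.Hb
  have h2 := Hb_ge (c := c) (N := N)
  have m0 : 1 ≤ 2 ^ lg c N := Nat.one_le_two_pow
  refine ⟨P_ok, m1.trans_lt (pw_lt (by omega)), lg_one, le_rfl, le_rfl, ?_, ?_, h.M, by omega,
    (nV_ok hc E hi).trans ((Nat.sub_le _ _).trans h.M), h.nN E hi LB_lt,
    h.nN E hi ((gb_le E).trans LB_lt.le)⟩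
  · have a1 : 2 * (tp c N).m (i + 1) * LB c N ≤ (N + 2) ^ (c + 4) := by
      rw [LB, show c + 4 = 2 + (c + 2) by omega, pow_add (N + 2) 2]
      exact Nat.mul_le_mul_right _ (by omega)
    refine a1.trans ((pw_lt (by omega)).le.trans ((le_bb_pow c N).trans ?_))
    refine le_trans (Nat.pow_le_pow_left (Nat.le_add_left _ (8 * lg c N)) _)
      (Nat.le_mul_of_pos_left _ ?_)
    have := lg_one (c := c) (N := N)
    change 0 < 8 * lg c N; omega
  · have := Nat.lt_size_self (2 ^ lg c N + 2 * (P c N).Hb)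
    rw [La, pow_succ]; omega

theorem nV_succ : 2 ^ lg c N - 1 + 1 = 2 ^ lg c N := Nat.sub_add_cancel Nat.one_le_two_pow

theorem N_lt : N < 2 ^ lg c N := lt_of_le_of_lt (by simp) (pw_lt (a := 1) (by omega))

theorem rounds_ok (E : Ev c N) :
    (2 ^ lg c N - 1 + 1) * ddF (gamF (T N) (T N) (r0 c N)) (D0 c N) (T N) < 2 ^ r0 c N := by
  have h1 := (ddF_mono (γ c N) (D0 c N) (Nat.le_succ (T N))).trans E.dd
  have h2 := N_lt (c := c) (N := N)
  have e : 2 ^ r0 c N = 2 ^ lg c N * (2 ^ lg c N * 2) := by rw [r0]; ring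
  have m0 : 1 ≤ 2 ^ lg c N := Nat.one_le_two_pow
  have h3 : ddF (γ c N) (D0 c N) (T N) < 2 ^ lg c N * 2 := by omega
  rw [nV_succ, e]
  exact Nat.mul_lt_mul_of_pos_left h3 m0

theorem box_ok {g : Gl} (E : Ev c N) (h : XOk c N g.X) {cls : Arr ℕ}
    (hcl : ∀ o, cls.get (Bf.rv o) = cls.get o)
    (hLa : ∀ o, cls.get o < (((tp c N).bd i).lb + 2 * (P c N).Hb).size + 1) :
    Ds.BoxSpec g (Bf.box cls (La c N) (bb c N) (T N)) cls.get (cs c N) (Bf.boxNx (T N))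
      (Bf.boxGam (cs c N) (T N)) :=
  box_csF hcl (fun o => (hLa o).trans_le (Nat.succ_le_succ (Nat.size_le_size
      (Nat.add_le_add_right ((lb_le E).trans LB_lt.le) _))))
    (two_pos.trans_le (two_le_bb c N)) (T_pos N) (nV_succ.trans_le (le_bb_pow c N)) (rounds_ok E)
    (by rw [nV_succ]; exact h.La) h.bb (E.dd.trans (N_lt.le.trans h.M))

theorem lim_lt (E : Ev c N) (hi : i ≤ lev N) : r N ^ i < (bb c N + 1) ^ T N := by
  have h1 : r N ^ i ≤ (tp c N).m i :=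
    Nat.le_mul_of_pos_left _ (Nat.mul_pos two_pos RU_pos)
  have h2 := (m_le E hi).trans_lt (pw_lt (c := c) (a := 2) (by omega))
  exact lt_of_lt_of_le (by omega)
    ((le_bb_pow c N).trans (Nat.pow_le_pow_left (Nat.le_succ _) _))

theorem th_ok : ((ps c N i).th1 + (2 * (cs c N).LM + 1) * (tp c N).th i) * (P c N).al ≤
    (tp c N).th (i + 1) := by
  change ((2 * LM N + 1) * A c N ^ i + (2 * LM N + 1) * (1 * A c N ^ i)) * _ ≤ 1 * A c N ^ (i + 1)
  rw [pow_succ (A c N)]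
  generalize A c N ^ i = a
  exact le_of_eq (by unfold A; ring)

theorem th1_ok : (2 * (cs c N).LM + 1) * (tp c N).th i ≤ (ps c N i).th1 := by
  change (2 * LM N + 1) * (1 * A c N ^ i) ≤ (2 * LM N + 1) * A c N ^ i
  rw [one_mul]

theorem RB_ok : 38 * (cs c N).cH * (((P c N).D + 3) *
    (4 * (tp c N).m (i + 1) * ((P c N).D + 1) * (P c N).S) + K0 c N) ≤
      K0 c N * (RU c N * r N ^ i) := by
  have h1 : 1 ≤ r N ^ i := Nat.one_le_pow _ _ (two_pos.trans_le two_le_r)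
  have h2 : 80 * cH c N * 1 ≤ RU c N * r N ^ i :=
    Nat.mul_le_mul ((Nat.le_add_right _ _).trans RU_ge) h1
  have h3 := Nat.mul_le_mul_left (K0 c N) h2
  have h4 : 640 * (38 * cH c N * ((T N + 3) *
      (4 * (2 * RU c N * r N ^ (i + 1)) * (T N + 1) * (P c N).S))) =
      304 * (K0 c N * (RU c N * r N ^ i)) := by unfold K0 k0; ring
  change 38 * cH c N * ((T N + 3) *
    (4 * (2 * RU c N * r N ^ (i + 1)) * (T N + 1) * (P c N).S) + K0 c N) ≤ _
  rw [mul_add]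
  nlinarith

end Crest.Agent.N325.Sg.Pk
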