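import Crest.Agent.N325.Sg.Defs
import Crest.Agent.N325.Pc.Root
import Crest.Agent.N325.Lt.Ok

/-! Row 325 (helper30): the entries of the table are short walks; the relation of the two graphs. -/

set_option autoImplicit false
open Finset

namespace Crest.Agent.N325.Sg

open Tw Lt

variable {g : Gl} {P : Pm} {Q K : ℕ} {c c' : Bd} {G0 G H : Gr} {wk : ℕ → Wk} {X : Fx} {d : Dn}

theorem FxOk.wfT (hX : FxOk P c G0 X) : Pc.Fo.WF X.T X.T.ord.toFinset (P.D + 2) :=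
  Pc.wf_of_ok hX.ok fun e he => (hX.g0.2.2 e he).2.2.2.1

theorem DnOk.lab (hd : DnOk P Q K X G0 G d) (hX : FxOk P c G0 X) :
    Pc.Fo.Lab X.T X.T.ord.toFinset G (fun x => vq G0.ed (P.ps x)) d.pc.cut.get :=
  (Pc.lab_of_ok hX.ok d.pc.cut.get).regraph fun x hx h => ⟨h, fun a ha =>
    (hd.og _ (hd.liv x (List.mem_toFinset.1 hx) h a ha)).2⟩

/-- every link of the forest is at most `lb + 1` high -/
theorem FxOk.link (hX : FxOk P c G0 X) {x : ℕ} (hx : x ∈ X.T.ord) :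
    X.T.H.get x ≤ X.T.H.get (X.T.par.get x) + (c.lb + 1) := by
  cases h : X.T.pe.get x with
  | none => rcases hX.ok.dum x hx h with k | k <;> omega
  | some a =>
    obtain ⟨k1, k2⟩ := hX.ok.real x hx a h
    have := (hX.g0.2.2 _ k1).2.2.2.2.1
    omega

theorem FxOk.pa_le (hX : FxOk P c G0 X) {x y : ℕ} {l : List ℕ} (h : Pc.Fo.Pa X.T x l y)
    (hx : x ∈ X.T.ord) : X.T.H.get x ≤ X.T.H.get y + l.length * (c.lb + 1) := by
  induction l generalizing x with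
  | nil => cases h; simp
  | cons z l ih =>
    have h1 := ih h.2.2 (hX.ok.pl.par_mem hx)
    have h2 := hX.link hx
    rw [List.length_cons, add_mul]; omega

theorem natAbs_wg_le (hG : G.Ok c) {w : Wk} (h : ∀ x ∈ w, x.1 ∈ G.E) :
    (wg G.ed w).natAbs ≤ w.length * c.gb := by
  induction w with
  | nil => simp [wg, wsum]
  | cons x w ih =>
    have h1 := ih fun y hy => h y (List.mem_cons_of_mem _ hy)
    have h2 := (hG.2.2 _ (h x List.mem_cons_self)).2.2.2.2.2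
    have h3 : wg G.ed (x :: w) = sg x.2 * (G.ed x.1).g + wg G.ed w := by simp [wg, wsum]
    have h4 : (sg x.2 * (G.ed x.1).g).natAbs = (G.ed x.1).g.natAbs := by
      unfold sg; split_ifs <;> simp
    have h5 := Int.natAbs_add_le (sg x.2 * (G.ed x.1).g) (wg G.ed w)
    rw [h3, List.length_cons, add_mul]; omega

/-- the three kinds of entries -/
theorem tb_cases {i : ℕ} {x : Ed × Wk} (h : tb Q X d i = some x) :
    (i % 3 = 0 ∧ Pc.seg X.T d.pc (i / 3) = some x) ∨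
    (i % 3 = 1 ∧ d.pub.get (i / 3) = true ∧ x = cpE d.ed (X.ob.get (i / 3)).1
      (X.T.nm.get (X.ob.get (i / 3)).2.1) (X.T.nm.get (X.ob.get (i / 3)).2.2.1)) ∨
    (i % 3 = 2 ∧ ∃ a b, d.pt.get (i / 3) = some (a, b) ∧ x = cpE d.ed (i / 3 / Q) a b) := by
  unfold tb at h
  split_ifs at h with h0 h1
  · exact .inl ⟨h0, h⟩
  · unfold objT at h
    split_ifs at h with h2
    exact .inr (.inl ⟨h1, h2, (Option.some.inj h).symm⟩)
  · unfold ptT at h
    cases k : d.pt.get (i / 3) with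
    | none => rw [k] at h; cases h
    | some ab =>
      rw [k] at h
      exact .inr (.inr ⟨by omega, ab.1, ab.2, rfl, (Option.some.inj h).symm⟩)

theorem BdOk.ord (B : BdOk P Q K c c') (hX : FxOk P c G0 X) {x : ℕ} (hx : x ∈ X.T.ord) :
    3 * x + 2 ≤ c'.nb := by
  have := hX.ok.idb x hx
  have := B.n1
  omega

theorem BdOk.nw (B : BdOk P Q K c c') {v : ℕ} (hv : v ≤ c.nb) : P.nw v ≤ c'.nb := by
  refine le_trans ?_ ((Nat.le_mul_of_pos_left _ three_pos).trans B.n1)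
  rw [Pm.nw, Pm.nd, add_zero]
  exact Nat.mul_le_mul_right _ (by nlinarith [Nat.mul_le_mul_right (P.D + 2) hv])

/-- the copies of a vertex -/
theorem FxOk.cv (hX : FxOk P c G0 X) (hP : P.Ok) {v a : ℕ} (h : a ∈ X.T.cv P v) :
    P.ps a = 3 * v ∧ (a ∈ X.T.ord ∨ a = P.nw v) := by
  unfold LF.cv at h
  split_ifs at h
  · rw [List.mem_singleton.1 h]
    exact ⟨P.ps_nd hP.S_pos (by omega), .inr rfl⟩
  · exact ⟨((hX.ok.cop v).2.2 a h).2.2, .inl ((hX.ok.cop v).2.2 a h).1⟩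

theorem cpE_ok (B : BdOk P Q K c c') (hG : G.Ok c) {ed : Arr Ed} {e a b i : ℕ} (he : e ∈ G.E)
    (h : ed.get e = G.ed e) (hi : i ≤ c'.nb) (ha : a ≤ c'.nb) (hb : b ≤ c'.nb) :
    c'.ed i (cpE ed e a b).1 ∧ WOk K G (cpE ed e a b).1.l (cpE ed e a b).2 := by
  obtain ⟨-, -, -, k1, k2, k3⟩ := hG.2.2 e he
  have k4 := (Nat.le_mul_of_pos_left _ B.K1).trans B.lb
  have k5 := (Nat.le_mul_of_pos_left _ B.K1).trans B.gb
  refine ⟨⟨hi, ha, hb, ?_, ?_, ?_⟩, by simpa [cpE] using he, B.K1, ?_⟩ <;> simp only [cpE, h]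
  · exact k1
  · omega
  · omega
  · simp [wl]

/-- **the entries respect the bounds** -/
theorem tb_ok (B : BdOk P Q K c c') (hX : FxOk P c G0 X) (hd : DnOk P Q K X G0 G d) (hG : G.Ok c) :
    ∀ i x, tb Q X d i = some x → c'.ed i x.1 ∧ WOk K G x.1.l x.2 := by
  intro i x h'
  have nm : ∀ y ∈ X.T.ord, X.T.nm.get y ≤ c'.nb := fun y hy => by
    have := B.ord hX (hX.ok.nm y hy).1; omega
  rcases tb_cases h' with ⟨h0, h⟩ | ⟨h0, h, rfl⟩ | ⟨h0, a, b, h, rfl⟩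
  · obtain ⟨M, I⟩ := hd.pc
    obtain ⟨e, w⟩ := x
    obtain ⟨a1, a2, a3, a4, -, a6, -, a8⟩ := I.e.seg_ok hX.wfT (hd.lab hX) h
    rw [List.mem_toFinset] at a1 a2
    have b1 := B.ord hX a1
    have b2 := hX.pa_le (I.e.pa _ (Pc.seg_eq_some.1 h).1).2 a1
    have b3 := (Nat.mul_le_mul_right (c.lb + 1) (I.e.len (i / 3))).trans B.lb
    have b4 := (natAbs_wg_le hG a6.1).trans ((Nat.mul_le_mul_right _ a6.2.1).trans B.gb)
    refine ⟨⟨by omega, ?_, ?_, a4, ?_, a8 ▸ b4⟩, a6⟩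
    · rw [a3]; exact nm _ a2
    · rw [a3]; exact nm _ a1
    · rw [a3]; simp only [Pc.Fo.ed]; omega
  · obtain ⟨a1, a2, -⟩ := hd.pub _ h
    obtain ⟨-, b2, b3, -⟩ := hX.ok.obj _ (hX.ob _ a1)
    have b4 := hX.ok.olen
    have b5 := B.n2
    rw [← hX.nO, ← B.hQ] at b4
    exact cpE_ok B hG (hd.og _ a2).2.1 (hd.ed _ (hd.og _ a2).2.1) (by omega) (nm _ b2) (nm _ b3)
  · obtain ⟨a1, -, a3, a4⟩ := hd.pt _ _ h
    obtain ⟨b1, b2, b3, -⟩ := hG.2.2 _ a1
    have hQ : 0 < Q := B.hQ ▸ pow_pos B.P1.S_pos 2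
    have b4 : i / 3 < (c.nb + 1) * Q := (Nat.div_lt_iff_lt_mul hQ).1 (Nat.lt_succ_of_le b1)
    have b5 := B.n3
    refine cpE_ok B hG a1 (hd.ed _ a1) (by omega) ?_ ?_
    · rcases (hX.cv B.P1 a3).2 with k | k
      · have := B.ord hX k; omega
      · exact k.le.trans (B.nw b2)
    · rcases (hX.cv B.P1 a4).2 with k | k
      · have := B.ord hX k; omega
      · exact k.le.trans (B.nw b3)

theorem FxOk.ps_nm (hX : FxOk P c G0 X) {x : ℕ} (hx : x ∈ X.T.ord) :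
    P.ps (X.T.nm.get x) / 3 = vq G0.ed (P.ps x) := by
  obtain ⟨-, -, h1, h2, -⟩ := hX.ok.nm x hx
  rw [← h1, vq_of_main _ h2]

theorem cpE_tel {ed : Arr Ed} {e a b : ℕ} (h : ed.get e = G.ed e) :
    Tel G.ed (cpE ed e a b).2 (G.ed e).a (G.ed e).b ∧
      (cpE ed e a b).1.g = wg G.ed (cpE ed e a b).2 :=
  ⟨fun z => by simp [cpE, wsum, dz, sg], by simp [cpE, wg, wsum, sg, h]⟩

/-- the entries lead from the vertex of the tail to the vertex of the head -/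
theorem tb_tel (hP : P.Ok) (hX : FxOk P c G0 X) (hd : DnOk P Q K X G0 G d) {i : ℕ} {x : Ed × Wk}
    (h' : tb Q X d i = some x) :
    Tel G.ed x.2 (P.ps x.1.a / 3) (P.ps x.1.b / 3) ∧ x.1.g = wg G.ed x.2 := by
  rcases tb_cases h' with ⟨-, h⟩ | ⟨-, h, rfl⟩ | ⟨-, a, b, h, rfl⟩
  · obtain ⟨M, I⟩ := hd.pc
    obtain ⟨e, w⟩ := x
    obtain ⟨a1, a2, a3, -, -, -, a7, a8⟩ := I.e.seg_ok hX.wfT (hd.lab hX) h
    rw [List.mem_toFinset] at a1 a2
    refine ⟨?_, a8⟩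
    rw [a3]; simp only [Pc.Fo.ed]
    rwa [hX.ps_nm a1, hX.ps_nm a2]
  · obtain ⟨a1, a2, -⟩ := hd.pub _ h
    obtain ⟨-, b2, b3, b4, b5, -⟩ := hX.ok.obj _ (hX.ob _ a1)
    obtain ⟨-, c2, c3⟩ := hd.og _ a2
    have := cpE_tel (G := G) (a := X.T.nm.get (X.ob.get (i / 3)).2.1)
      (b := X.T.nm.get (X.ob.get (i / 3)).2.2.1) (hd.ed _ c2)
    refine ⟨?_, this.2⟩
    have e1 := hX.ps_nm b2
    have e2 := hX.ps_nm b3
    rw [b4, vq_a, ← c3] at e1
    rw [b5, vq_b, ← c3] at e2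
    exact e1 ▸ e2 ▸ this.1
  · obtain ⟨a1, -, a3, a4⟩ := hd.pt _ _ h
    have := cpE_tel (G := G) (a := a) (b := b) (hd.ed _ a1)
    refine ⟨?_, this.2⟩
    have e1 : P.ps a / 3 = (G.ed (i / 3 / Q)).a := by rw [(hX.cv hP a3).1]; omega
    have e2 : P.ps b / 3 = (G.ed (i / 3 / Q)).b := by rw [(hX.cv hP a4).1]; omega
    exact e1 ▸ e2 ▸ this.1

theorem sum_mod3 (V : Finset ℕ) (r : ℕ) (f : ℕ → ℕ) :
    ∑ p ∈ V, (if p % 3 = r then f (p / 3) else 0) =
      ∑ u ∈ (V.filter fun p => p % 3 = r).image (· / 3), f u := by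
  rw [sum_image, sum_filter]
  intro a ha b hb h
  simp only [coe_filter, Set.mem_ofPred_eq] at ha hb h
  omega

theorem sum_ite_le (I S : Finset ℕ) : ∑ u ∈ I, (if u ∈ S then 1 else 0) ≤ S.card := by
  rw [sum_boole, Nat.cast_id]
  exact card_le_card fun u hu => (mem_filter.1 hu).2

/-- **the next graph consists of walks of the graph** -/
theorem rel_of (B : BdOk P Q K c c') (hX : FxOk P c G0 X) (hd : DnOk P Q K X G0 G d) (hG : G.Ok c)
    (hA : Agr H wk (tb Q X d)) : Rel K (2 * (P.D + 1) * P.S + 2 * Q) G H wk := by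
  refine hA.rel (fun x => P.ps x / 3) (fun p x h => ⟨(tb_tel B.P1 hX hd h).1,
    (tb_ok B hX hd hG p x h).2, (tb_tel B.P1 hX hd h).2⟩) H.E (fun p x h => (hA.of_some h).1)
    fun e _ => ?_
  obtain ⟨M, I⟩ := hd.pc
  have hQ : 0 < Q := B.hQ ▸ pow_pos B.P1.S_pos 2
  refine (sum_le_sum (g := fun p =>
    (if p % 3 = 0 then mult (Pc.Fo.wk X.T (d.pc.pth.get (p / 3))) e else 0) +
    (if p % 3 = 1 then (if p / 3 ∈ (X.oe.get e).toFinset then 1 else 0) else 0) +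
    (if p % 3 = 2 then (if p / 3 ∈ Ico (e * Q) (e * Q + Q) then 1 else 0) else 0))
    fun p _ => ?_).trans ?_
  · cases h' : tb Q X d p with
    | none => exact Nat.zero_le _
    | some x =>
      rw [Option.map_some, Option.getD_some]
      rcases tb_cases h' with ⟨h0, h⟩ | ⟨h0, h, rfl⟩ | ⟨h0, a, b, h, rfl⟩
      · obtain ⟨e', w⟩ := x
        rw [if_pos h0, (Pc.seg_eq_some.1 h).2.2.2]
        exact le_add_right (le_add_right le_rfl)
      · rw [if_pos h0]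
        refine le_add_right (le_add_left ?_)
        simp only [mult, cpE, List.map_cons, List.map_nil, List.count_singleton, beq_iff_eq]
        split_ifs with k1 k2
        · exact le_rfl
        · exact (k2 (List.mem_toFinset.2 (((hX.oe e).2.2 _).2 ⟨(hd.pub _ h).1, k1⟩))).elim
        all_goals exact Nat.zero_le _
      · rw [if_pos h0]
        refine le_add_left ?_
        simp only [mult, cpE, List.map_cons, List.map_nil, List.count_singleton, beq_iff_eq]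
        split_ifs with k1 k2
        · exact le_rfl
        · refine (k2 (mem_Ico.2 ?_)).elim
          have := Nat.div_add_mod (p / 3) Q
          have := Nat.mod_lt (p / 3) hQ
          rw [← k1, mul_comm]; omega
        all_goals exact Nat.zero_le _
  · rw [sum_add_distrib, sum_add_distrib,
      sum_mod3 _ _ fun u => mult (Pc.Fo.wk X.T (d.pc.pth.get u)) e,
      sum_mod3 _ _ fun u => if u ∈ (X.oe.get e).toFinset then 1 else 0,
      sum_mod3 _ _ fun u => if u ∈ Ico (e * Q) (e * Q + Q) then 1 else 0, two_mul Q, ← add_assoc]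
    refine add_le_add (add_le_add ?_ ?_) ?_
    · exact (I.e.use hX.wfT _ e fun x hx b h =>
        ((hX.ok.tc e).2.2 x).2 ⟨List.mem_toFinset.1 hx, b, h⟩).trans (hX.ok.tc e).2.1
    · exact (sum_ite_le _ _).trans ((List.toFinset_card_le _).trans (B.hQ ▸ (hX.oe e).2.1))
    · exact (sum_ite_le _ _).trans (by simp)

theorem sp_tbR (hX : FxOk P c G0 X) (hd : DnOk P Q K X G0 G d) (hg : 2 * (P.Hb * c.gb) ≤ g.X)
    (i : ℕ) : Sp g (tbR Q X d i) fun x t => x = tb Q X d i ∧ t ≤ 3 * K + 3 := by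
  obtain ⟨M, I⟩ := hd.pc
  unfold tbR tb
  split_ifs
  · refine Pc.sp_segR I.e hX.wfT (fun x hx => le_trans (Nat.mul_le_mul_left 2 ?_) hg) _
    rw [List.mem_toFinset] at hx
    exact (hX.ok.G_le hX.g0 x hx).trans (Nat.mul_le_mul_right _ (hX.ok.Hb x hx))
  · exact sp_pure.2 ⟨rfl, Nat.zero_le _⟩
  · exact sp_pure.2 ⟨rfl, Nat.zero_le _⟩

/-- store and emit -/
theorem sp_fin (B : BdOk P Q K c c') (hX : FxOk P c G0 X) (hG : G.Ok c) {T0 : ℕ → En} {w : Wo}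
    (hd : DnOk P Q K X G0 G ⟨d.ed, d.og, w.1.1, d.vx, d.ds, w.2.1, d.pt, d.lv⟩)
    (hA : Agr H wk T0) (hl : ∀ i, d.lv.get i = (T0 i).isSome)
    (hoff : ∀ i, i ∉ w.2.2 → (i % 3 = 0 → i / 3 ∉ w.1.2) →
      tb Q X ⟨d.ed, d.og, w.1.1, d.vx, d.ds, w.2.1, d.pt, d.lv⟩ i = T0 i)
    (h1 : ∀ u ∈ w.1.2, u ∈ X.T.ord) (h2 : c'.nb ≤ g.X) (h3 : 2 * (P.Hb * c.gb) ≤ g.X) :
    Sp g (fin Q X d w) fun r t => r.1 = ⟨d.ed, d.og, w.1.1, d.vx, d.ds, w.2.1, d.pt, r.1.lv⟩ ∧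
      Oks K c' G H r.2 ∧ Agr (apps H r.2) (wks wk r.2) (tb Q X r.1) ∧
      (∀ i, r.1.lv.get i = (tb Q X r.1 i).isSome) ∧
      r.2.length ≤ 2 * (w.1.2.length + w.2.2.length) ∧
      t ≤ (3 * K + 7) * (w.1.2.length + w.2.2.length) + 3 := by
  refine (sp_foldL' (fun l (s : List ℕ) => (∀ u ∈ l, u ∈ X.T.ord) ∧ (∀ i ∈ w.2.2, i ∈ s) ∧
      (∀ u ∈ w.1.2, u ∈ l ∨ 3 * u ∈ s) ∧ s.length + l.length = w.1.2.length + w.2.2.length)
    (fun _ => 0) ?_ (l := w.1.2) (s := w.2.2)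
    ⟨h1, fun _ h => h, fun _ h => .inl h, add_comm _ _⟩).bind ?_
  · rintro u l s ⟨a1, a2, a3, a4⟩
    have := B.ord hX (a1 u List.mem_cons_self)
    refine sp_bind.2 (sp_nat.2 ⟨by omega, sp_pure.2 ⟨⟨fun v h => a1 v (List.mem_cons_of_mem _ h),
      fun i h => List.mem_cons_of_mem _ (a2 i h), fun v h => ?_, ?_⟩, le_rfl⟩⟩)
    · rcases a3 v h with k | k
      · rcases List.mem_cons.1 k with rfl | k
        · exact .inr List.mem_cons_self
        · exact .inl k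
      · exact .inr (List.mem_cons_of_mem _ k)
    · simp only [List.length_cons] at a4 ⊢; omega
  · rintro s t ⟨⟨-, a2, a3, a4⟩, ht⟩
    refine (sp_emit (K := K) (c' := c') (G := G) (fun _ => 3 * K + 3) hA hl
      (fun i hi => hoff i (fun k => hi (a2 i k)) fun k0 k => ?_)
      (fun i _ => sp_tbR hX hd h3 i) fun i _ => tb_ok B hX hd hG i).bind ?_
    · rcases a3 _ k with k | k
      · cases k
      · exact hi (by rwa [show 3 * (i / 3) = i by omega] at k)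
    · rintro r u ⟨b1, b2, b3, b4, -, b6⟩
      simp only [List.map_const', List.sum_replicate, smul_eq_mul, List.length_nil,
        add_zero] at ht b6 a4
      refine sp_pure.2 ⟨rfl, b1, b2, b3, a4 ▸ b4, ?_⟩
      rw [← a4]
      have : w.1.2.length ≤ s.length := by omega
      nlinarith

end Crest.Agent.N325.Sg
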