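import Crest.Agent.N325.Sg.Cut
import Crest.Agent.N325.Sg.Pair
import Crest.Agent.N325.Sg.Tab

/-! # Row 325 (helper42): one stage of the oracle — updates -/

set_option autoImplicit false
open Finset

namespace Crest.Agent.N325.Sg

open Tw Lt

/-- touches of the spanner in one update -/
def mU (P : Pm) : ℕ := 2 * (P.D + 3) * (2 * (P.D + 1) * P.S) + 2 * P.S ^ 2
/-- dirty ids of one update (amortised) -/
def aU (P : Pm) (k : Ds.Cs) (L : ℕ) : ℕ :=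
  19 * k.RU L (mU P) + (P.D + 3) * (2 * (P.D + 1) * P.S) + 2 * P.S ^ 2
/-- price in time of a unit of `k.rc` -/
def cT (K : ℕ) : ℕ := 90 * K + 151 + 19 * (3 * K + 7)
/-- amortised time of one update -/
def tU (P : Pm) (K : ℕ) (k : Ds.Cs) (L : ℕ) : ℕ :=
  k.TU L (mU P) + (90 * K + 151) * k.RU L (mU P) +
    (P.D + 3) * (2 * (P.D + 1) * P.S) * (K * (P.S + 2) + 20 * K + 60) + (3 * K + 7) * aU P k L +
    3 * P.S ^ 2 + 3 * P.S + 40

variable {g : Gl} {K : ℕ} {c c' : Bd} {G0 G H : Gr} {wk : ℕ → Wk} {X : Fx} {d : Dn} {A : Type}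
  {bx : A → Arr ℕ → Ds.BI → R Ds.BO} {p : Pr A} {k : Ds.Cs} {Nx : ℕ → ℕ → Prop} {Gam : ℕ → ℕ}
  {L n : ℕ}

/-- the dynamic part of the invariant -/
structure DI (p : Pr A) (K : ℕ) (k : Ds.Cs) (Nx : ℕ → ℕ → Prop) (Gam : ℕ → ℕ) (L : ℕ) (X : Fx)
    (G0 G H : Gr) (wk : ℕ → Wk) (d : Dn) (n : ℕ) : Prop where
  dn : DnOk p.P p.Q K X G0 G d
  ds : DsOk X d.og d.ds d.pub
  di : ∃ n' ≤ n, Ds.Inv k Nx Gam X.cls.get X.gt.get X.la.get p.th1 L d.vx.get d.ds n'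
  ag : Agr H wk (tb p.Q X d)
  lv : ∀ i, d.lv.get i = (tb p.Q X d i).isSome

/-- numerical hypotheses of the updates -/
structure UH (g : Gl) (p : Pr A) (K : ℕ) (c c' : Bd) (k : Ds.Cs) : Prop where
  B : BdOk p.P p.Q K c c'
  b : p.b = k.b
  fu : K < p.fu
  nV : (3 * c.nb + 3) * (p.P.D + 2) * p.P.S ≤ k.nV
  nb : c'.nb ≤ g.X
  gb : 2 * (p.P.Hb * c.gb) ≤ g.X

/-- the result of an update -/
def UP (p : Pr A) (K : ℕ) (c' : Bd) (k : Ds.Cs) (Nx : ℕ → ℕ → Prop) (Gam : ℕ → ℕ) (L : ℕ) (X : Fx)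
    (G0 G' H : Gr) (wk : ℕ → Wk) (d : Dn) (n : ℕ) (r : Dn × List Ow) (t : ℕ) : Prop :=
  Oks K c' G' H r.2 ∧ DI p K k Nx Gam L X G0 G' (apps H r.2) (wks wk r.2) r.1 (n + 1) ∧
    r.2.length + 38 * k.rc r.1.ds ≤ 38 * k.rc d.ds + 2 * aU p.P k L ∧
    t + (k.Phi r.1.ds + cT K * k.rc r.1.ds) ≤ k.Phi d.ds + cT K * k.rc d.ds + tU p.P K k L

theorem RU_mono (k : Ds.Cs) (L : ℕ) {a b : ℕ} (h : a ≤ b) : k.RU L a ≤ k.RU L b :=
  Nat.mul_le_mul_left _ (by omega)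

theorem TU_mono (k : Ds.Cs) (L : ℕ) {a b : ℕ} (h : a ≤ b) : k.TU L a ≤ k.TU L b :=
  Nat.mul_le_mul_left _ (by omega)

theorem UH.S_pos (h : UH g p K c c' k) : 1 ≤ p.P.S := by
  rw [h.B.P1.hS]; exact Nat.one_le_pow _ _ h.B.P1.s1

theorem UH.div_eq (h : UH g p K c c' k) {q e : ℕ} : q / p.Q = e ↔ e * p.Q ≤ q ∧ q < e * p.Q + p.Q := by
  have : 0 < p.Q := by rw [h.B.hQ]; exact Nat.pow_pos h.S_pos
  rw [Nat.div_eq_iff this]; omega

theorem UH.nO (h : UH g p K c c' k) (hX : FxOk p.P c G0 X) : 3 * X.nO ≤ g.X := by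
  have h1 := hX.ok.olen
  have h2 := h.B.n2
  have h3 := h.nb
  rw [h.B.hQ] at h2
  rw [hX.nO]; omega

theorem UH.eQ (h : UH g p K c c' k) {e : ℕ} (he : e ≤ c.nb) : 3 * (e * p.Q + p.Q) ≤ g.X := by
  have h1 := h.B.n3
  have h2 := h.nb
  have : e * p.Q + p.Q ≤ (c.nb + 1) * p.Q := by nlinarith
  omega

/-- the last step of every update -/
theorem sp_fin' (h : UH g p K c c' k) (hX : FxOk p.P c G0 X) {G' : Gr} (hG : G'.Ok c)
    (I : DI p K k Nx Gam L X G0 G H wk d n) {d' : Dn} {w : Wo} (hlv : d'.lv = d.lv)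
    (hd : DnOk p.P p.Q K X G0 G' ⟨d'.ed, d'.og, w.1.1, d'.vx, d'.ds, w.2.1, d'.pt, d'.lv⟩)
    (hs : DsOk X d'.og d'.ds w.2.1)
    (hi : ∃ n' ≤ n + 1, Ds.Inv k Nx Gam X.cls.get X.gt.get X.la.get p.th1 L d'.vx.get d'.ds n')
    (ho : Pc.Off X.T.ord.toFinset d.pc w.1.1 w.1.2)
    (h1 : ∀ o, 3 * o + 1 ∉ w.2.2 → objT X d'.ed w.2.1 o = objT X d.ed d.pub o)
    (h2 : ∀ q, 3 * q + 2 ∉ w.2.2 → ptT p.Q d'.ed d'.pt q = ptT p.Q d.ed d.pt q) {t0 : ℕ}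
    (ha : w.1.2.length + w.2.2.length + 19 * k.rc d'.ds ≤ 19 * k.rc d.ds + aU p.P k L)
    (ht : t0 + k.Phi d'.ds + (90 * K + 151) * k.rc d'.ds + (3 * K + 7) * aU p.P k L + 3
      ≤ k.Phi d.ds + (90 * K + 151) * k.rc d.ds + tU p.P K k L) :
    Sp g (fin p.Q X d' w) fun r t => UP p K c' k Nx Gam L X G0 G' H wk d n r (t0 + t) := by
  refine (sp_fin h.B hX hG hd I.ag (hlv ▸ I.lv) (fun i a b => ?_)
    (fun u hu => List.mem_toFinset.1 (ho.ids u hu)) h.nb h.gb).mono ?_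
  · unfold tb
    split_ifs with e0 e1
    · exact ho.seg (b e0)
    · exact h1 _ (by rwa [show 3 * (i / 3) + 1 = i by omega])
    · exact h2 _ (by rwa [show 3 * (i / 3) + 2 = i by omega])
  · rintro ⟨d2, l⟩ t ⟨e, k1, k2, k3, k4, k5⟩
    dsimp only at e k1 k2 k3 k4
    have e1 : d2.ds = d'.ds := by rw [e]
    refine ⟨k1, ⟨?_, ?_, ?_, k2, k3⟩, by dsimp only; rw [e1]; omega, ?_⟩
    · rw [e]; exact ⟨hd.pc, hd.ed, hd.og, hd.liv, hd.vx, hd.pub, hd.pt, hd.ins⟩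
    · rw [e]; exact hs
    · rw [e]; exact hi
    · have := Nat.mul_le_mul_left (3 * K + 7) ha
      dsimp only
      rw [e1]
      unfold cT
      nlinarith

/-- the bounds of `cutR` in closed form -/
theorem cut_bd {P : Pm} {x y : ℕ} (hx : x ≤ 2 * (P.D + 1) * P.S) (hy : y ≤ P.S ^ 2) :
    k.RU L (2 * (P.D + 3) * x + 2 * y) ≤ k.RU L (mU P) ∧
    k.TU L (2 * (P.D + 3) * x + 2 * y) ≤ k.TU L (mU P) ∧
    (90 * K + 151) * k.RU L (2 * (P.D + 3) * x + 2 * y) ≤ (90 * K + 151) * k.RU L (mU P) ∧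
    (P.D + 3) * x ≤ (P.D + 3) * (2 * (P.D + 1) * P.S) ∧
    (P.D + 3) * x * (K * (P.S + 2) + 20 * K + 60)
      ≤ (P.D + 3) * (2 * (P.D + 1) * P.S) * (K * (P.S + 2) + 20 * K + 60) := by
  have h : 2 * (P.D + 3) * x + 2 * y ≤ mU P :=
    Nat.add_le_add (Nat.mul_le_mul_left _ hx) (Nat.mul_le_mul_left _ hy)
  exact ⟨RU_mono k L h, TU_mono k L h, Nat.mul_le_mul_left _ (RU_mono k L h),
    Nat.mul_le_mul_left _ hx, Nat.mul_le_mul_right _ (Nat.mul_le_mul_left _ hx)⟩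

theorem sp_delO (h : UH g p K c c' k) (hX : FxOk p.P c G0 X)
    (hb : Ds.BoxSpec g (bx p.a X.cls) X.cls.get k Nx Gam) (hn : n + 1 < (k.b + 1) ^ L)
    (I : DI p K k Nx Gam L X G0 G H wk d n) {e : ℕ} (he : d.og.get e = true)
    (hG : (G.app (e, none)).Ok c) :
    Sp g (delO bx p X d e) (UP p K c' k Nx Gam L X G0 (G.app (e, none)) H wk d n) := by
  obtain ⟨n', hn', hI⟩ := I.di
  have htc := hX.ok.tc e
  have hoe := hX.oe e
  unfold delO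
  refine (sp_cutR (og' := d.og.set e false) hX hb h.b h.fu h.nV (h.nO hX) I.dn.pc I.dn.vx I.dn.pub
    I.ds hI (by omega) (fun x hx => ((htc.2.2 x).1 hx).1) (fun o ho => ((hoe.2.2 o).1 ho).1)
    fun o ho => ?_).bind ?_
  · rw [hoe.2.2, Arr.get_set]
    split_ifs with a <;> simp [a, ho]
  rintro ⟨vx, ds, w⟩ t ⟨k1, k2, k3, k4, k5, k6, k7, k8, k9, k10, k11⟩
  dsimp only at k1 k2 k3 k4 k5 k6 k7 k8 k9 k10 k11
  obtain ⟨b1, b2, b3, b4, b5⟩ := cut_bd (k := k) (L := L) (K := K) htc.2.1 hoe.2.1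
  have hne : ∀ {e'}, (d.og.set e false).get e' = true → e' ≠ e ∧ d.og.get e' = true := by
    intro e' j
    rw [Arr.get_set] at j
    split_ifs at j with a
    exact ⟨a, j⟩
  refine sp_fin' h hX hG I (d' := ⟨d.ed, d.og.set e false, d.pc, vx, ds, d.pub, d.pt, d.lv⟩) rfl
    ⟨k1, fun e' j => I.dn.ed e' (mem_of_mem_erase j), fun e' j => ?_, fun x hx j a ha => ?_, k2, k3,
      fun q ab j => ?_, fun e' j1 j2 => ?_⟩ k4 ⟨n' + 1, by omega, k5⟩ k6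
    (fun o j => by unfold objT; rw [k9 o j]) (fun _ _ => rfl)
    (by unfold aU; dsimp only; omega) (by unfold tU; dsimp only; omega)
  · have j1 := I.dn.og e' (hne j).2
    exact ⟨j1.1, mem_erase.2 ⟨(hne j).1, j1.2.1⟩, j1.2.2⟩
  · have j1 : d.pc.cut.get x = false := by
      by_contra j1
      rw [k7 x (by simpa using j1)] at j
      cases j
    have j2 : a.1 ≠ e := fun j2 => by
      rw [k8 x ((htc.2.2 x).2 ⟨hx, a.2, by rw [← j2]; exact ha⟩)] at j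
      cases j
    rw [Arr.get_set_ne _ j2]
    exact I.dn.liv x hx j1 a ha
  · obtain ⟨j1, j2, j3⟩ := I.dn.pt q ab j
    have j4 : q / p.Q ≠ e := fun j4 => by rw [j4, he] at j2; cases j2
    exact ⟨mem_erase.2 ⟨j4, j1⟩, by rw [Arr.get_set_ne _ j4]; exact j2, j3⟩
  · rw [Arr.get_set_ne _ (mem_erase.1 j1).1] at j2
    have j3 := I.dn.ins e' (mem_of_mem_erase j1) j2
    exact ⟨fun x hx => k7 x (j3.1 x hx), j3.2⟩

theorem sp_delN (h : UH g p K c c' k) (hX : FxOk p.P c G0 X)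
    (I : DI p K k Nx Gam L X G0 G H wk d n) {e : ℕ} (he : d.og.get e = false) (hE : e ≤ c.nb)
    (hG : (G.app (e, none)).Ok c) :
    Sp g (delN p X d e) (UP p K c' k Nx Gam L X G0 (G.app (e, none)) H wk d n) := by
  obtain ⟨n', hn', hI⟩ := I.di
  have hq := h.eQ hE
  have hQ := h.B.hQ
  unfold delN
  rw [sp_bind, sp_nat]
  refine ⟨by omega, (sp_clear _ _ hq).bind ?_⟩
  rintro ⟨pt, l⟩ t ⟨k1, k2, k3, k4⟩
  dsimp only at k1 k2 k3
  have hpt : ∀ q, q / p.Q ≠ e → pt.get q = d.pt.get q := fun q j => by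
    rw [k1, if_neg (mt h.div_eq.2 j)]
  refine (sp_fin' h hX hG I (d' := ⟨d.ed, d.og, d.pc, d.vx, d.ds, d.pub, pt, d.lv⟩)
    (w := ((d.pc, []), d.pub, l)) (t0 := t) rfl
    ⟨I.dn.pc, fun e' j => I.dn.ed e' (mem_of_mem_erase j), fun e' j => ?_, I.dn.liv, I.dn.vx,
      I.dn.pub, fun q ab j => ?_, fun e' j1 j2 => ?_⟩ I.ds ⟨n', by omega, hI⟩ (Pc.Off.refl _ _)
    (fun _ _ => rfl) (fun q j => ?_) (by unfold aU; dsimp only; simp only [List.length_nil]; omega)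
    (by unfold tU; dsimp only; omega)).mono fun r u j => by simpa using j
  · have j1 := I.dn.og e' j
    exact ⟨j1.1, mem_erase.2 ⟨fun a => (by rw [a, he] at j; cases j), j1.2.1⟩, j1.2.2⟩
  · have j4 : q / p.Q ≠ e := fun j4 => by
      have : pt.get q = some ab := j
      rw [k1, if_pos (h.div_eq.1 j4)] at this
      cases this
    obtain ⟨j1, j2⟩ := I.dn.pt q ab (hpt q j4 ▸ j)
    exact ⟨mem_erase.2 ⟨j4, j1⟩, j2⟩
  · have j3 := I.dn.ins e' (mem_of_mem_erase j1) j2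
    refine ⟨j3.1, fun a ha b hb => ?_⟩
    obtain ⟨q, j4, j5⟩ := j3.2 a ha b hb
    exact ⟨q, j4, (hpt q (j4 ▸ (mem_erase.1 j1).1)).trans j5⟩
  · unfold ptT
    rw [hpt q fun j4 => j (k2 q (h.div_eq.1 j4).1 (h.div_eq.1 j4).2)]

theorem cv_len {P : Pm} {m nb : ℕ} {T : LF} (h : T.Ok G0 P m nb) (hS : 1 ≤ P.S) (v : ℕ) :
    (T.cv P v).length ≤ P.S := by
  unfold LF.cv
  split_ifs
  · exact hS
  · exact (h.cop v).2.1

theorem UH.nw (h : UH g p K c c' k) {v : ℕ} (hv : v ≤ c.nb) : p.P.nw v ≤ g.X := by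
  have h1 := h.B.n1
  have h2 := h.nb
  have h3 : (3 * v * (p.P.D + 2) + (p.P.D + 1)) * p.P.S ≤ (3 * c.nb + 3) * (p.P.D + 2) * p.P.S :=
    Nat.mul_le_mul_right _ (by nlinarith)
  unfold Pm.nw Pm.nd
  omega

theorem sp_insN (h : UH g p K c c' k) (hX : FxOk p.P c G0 X)
    (hb : Ds.BoxSpec g (bx p.a X.cls) X.cls.get k Nx Gam) (hn : n + 1 < (k.b + 1) ^ L)
    (I : DI p K k Nx Gam L X G0 G H wk d n) {e : ℕ} {x : Ed} (he : e ∉ G.E)
    (hG : (G.app (e, some x)).Ok c) :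
    Sp g (insN bx p X d e x) (UP p K c' k Nx Gam L X G0 (G.app (e, some x)) H wk d n) := by
  obtain ⟨n', hn', hI⟩ := I.di
  have hx : c.ed e x := by simpa [Gr.app] using hG.2.2 e (mem_insert_self _ _)
  have hq := h.eQ hx.1
  have hQ := h.B.hQ
  have hS := h.S_pos
  have c1 := hX.ok.cop x.a
  have c2 := hX.ok.cop x.b
  have l1 := cv_len hX.ok hS x.a
  have l2 := cv_len hX.ok hS x.b
  have l3 : (X.T.cv p.P x.a).length * (X.T.cv p.P x.b).length ≤ p.Q := by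
    rw [hQ, sq]; exact Nat.mul_le_mul l1 l2
  have og0 : ∀ {e'}, d.og.get e' = true → e' ≠ e := fun j a => he (a ▸ (I.dn.og _ j).2.1)
  have ed' : ∀ {e'}, e' ≠ e → (G.app (e, some x)).ed e' = G.ed e' := fun j =>
    Function.update_of_ne j _ _
  have ed0 : (G.app (e, some x)).ed e = x := Function.update_self _ _ _
  unfold insN
  refine (sp_revAppL _ _).bind ?_
  rintro _ t0 ⟨rfl, ht0⟩
  refine (sp_cutR (og' := d.og) hX hb h.b h.fu h.nV (h.nO hX) I.dn.pc I.dn.vx I.dn.pub I.ds hI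
    (by omega) (fun y hy => ?_) (by simp) (by simp)).bind ?_
  · rcases List.mem_append.1 hy with j | j
    · exact (c1.2.2 y (List.mem_reverse.1 j)).1
    · exact (c2.2.2 y j).1
  rintro ⟨vx, ds, w⟩ t ⟨k1, k2, k3, k4, k5, k6, k7, k8, k9, k10, k11⟩
  dsimp only at k1 k2 k3 k4 k5 k6 k7 k8 k9 k10 k11
  have l4 : ((X.T.cop.get x.a).reverse ++ X.T.cop.get x.b).length ≤ 2 * (p.P.D + 1) * p.P.S := by
    rw [List.length_append, List.length_reverse]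
    have := c1.2.1; have := c2.2.1
    nlinarith
  obtain ⟨b1, b2, b3, b4, b5⟩ := cut_bd (k := k) (L := L) (K := K) l4
    (Nat.zero_le _ : ([] : List ℕ).length ≤ _)
  refine (sp_cvR _ (h.nw hx.2.1)).bind ?_
  rintro _ _ ⟨rfl, rfl⟩
  refine (sp_cvR _ (h.nw hx.2.2.1)).bind ?_
  rintro _ _ ⟨rfl, rfl⟩
  rw [sp_bind, sp_nat]
  refine ⟨by omega, (sp_pairs _ _ _ _ _ (by omega)).bind ?_⟩
  rintro ⟨q', pt, l⟩ t2 ⟨m1, m2, m3, m4, m5⟩
  dsimp only at m1 m2 m3 m4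
  have hpt : ∀ q, q / p.Q ≠ e → pt.get q = d.pt.get q := fun q j =>
    (m1 q).resolve_right fun a => j (h.div_eq.2 ⟨a.1, by omega⟩)
  have l5 : (X.T.cv p.P x.a).length * ((X.T.cv p.P x.b).length + 2) ≤ p.P.S ^ 2 + 2 * p.P.S := by
    nlinarith
  refine (sp_fin' h hX hG I (d' := ⟨d.ed.set e x, d.og, d.pc, vx, ds, d.pub, pt, d.lv⟩)
    (w := (w.1, w.2.1, l)) (t0 := t0 + t + t2) rfl
    ⟨k1, fun e' j => ?_, fun e' j => ?_, fun y hy j => I.dn.liv y hy ?_, k2, k3,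
      fun q ab j => ?_, fun e' j1 j2 => ?_⟩ k4 ⟨n' + 1, by omega, k5⟩ k6
    (fun o j => ?_) (fun q j => ?_)
    (by unfold aU; simp only [List.length_nil] at *; omega)
    (by have := c1.2.1; unfold tU; simp only [List.length_nil] at *; omega)).mono
      fun r u j => by simpa [add_assoc] using j
  · by_cases a : e' = e
    · rw [a, ed0]; exact Arr.get_set_self _ _ _
    · rw [ed' a, Arr.get_set_ne _ a]; exact I.dn.ed e' ((mem_insert.1 j).resolve_left a)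
  · have j1 := I.dn.og e' j
    exact ⟨j1.1, mem_insert_of_mem j1.2.1, (ed' (og0 j)).trans j1.2.2⟩
  · by_contra j1
    rw [k7 y (by simpa using j1)] at j
    cases j
  · have j' : pt.get q = some ab := j
    rcases m1 q with a | ⟨a1, a2, -, a, ha, b, hb, a3⟩
    · obtain ⟨j1, j2, j3⟩ := I.dn.pt q ab (a ▸ j')
      rw [ed' fun j4 : q / p.Q = e => he (j4 ▸ j1)]
      exact ⟨mem_insert_of_mem j1, j2, j3⟩
    · rw [h.div_eq.2 ⟨a1, by omega⟩, ed0]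
      obtain rfl : ab = (a, b) := Option.some.inj (j'.symm.trans a3)
      exact ⟨mem_insert_self _ _, by
        by_contra j1; exact og0 (by simpa using j1) rfl, ha, hb⟩
  · by_cases a : e' = e
    · rw [a, ed0]
      refine ⟨fun y hy => k8 y (by simpa using hy), fun a ha b hb => ?_⟩
      obtain ⟨q, j3, j4, j5⟩ := m2 a ha b hb
      exact ⟨q, h.div_eq.2 ⟨j3, by omega⟩, j5⟩
    · rw [ed' a]
      have j3 := I.dn.ins e' ((mem_insert.1 j1).resolve_left a) j2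
      refine ⟨fun y hy => k7 y (j3.1 y hy), fun a' ha b hb => ?_⟩
      obtain ⟨q, j4, j5⟩ := j3.2 a' ha b hb
      exact ⟨q, j4, (hpt q (j4 ▸ a)).trans j5⟩
  · unfold objT cpE
    rw [k9 o fun a => j (m3 _ a)]
    split_ifs with a
    · rw [Arr.get_set_ne _ (og0 (I.dn.pub o a).2.1)]
    · rfl
  · have j1 : pt.get q = d.pt.get q := (m1 q).resolve_right fun a => j a.2.2.1
    unfold ptT cpE
    rw [j1]
    cases a : d.pt.get q with
    | none => rfl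
    | some ab =>
      dsimp only
      rw [Arr.get_set_ne _ fun j4 : q / p.Q = e => he (j4 ▸ (I.dn.pt q ab a).1)]

theorem inv_iff {s : St A} : Inv p c K k Nx Gam L s G H wk n ↔ s.1 = p ∧ G.Ok c ∧
    ∃ G0, FxOk p.P c G0 s.2.1 ∧ DI p K k Nx Gam L s.2.1 G0 G H wk s.2.2 n :=
  ⟨fun ⟨a, b, G0, j1, j2, j3, j4, j5, j6⟩ => ⟨a, b, G0, j1, j2, j3, j4, j5, j6⟩,
    fun ⟨a, b, G0, j1, j2, j3, j4, j5, j6⟩ => ⟨a, b, G0, j1, j2, j3, j4, j5, j6⟩⟩

/-- potential for the recourse -/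
def rcS (k : Ds.Cs) (s : St A) : ℕ := 38 * k.rc s.2.2.ds
/-- potential for the time -/
def PhiS (K : ℕ) (k : Ds.Cs) (s : St A) : ℕ := k.Phi s.2.2.ds + cT K * k.rc s.2.2.ds

/-- **the field `upd` of the specification of the stage** -/
theorem sp_upd (h : UH g p K c c' k)
    (hb : ∀ G0 X, FxOk p.P c G0 X → Ds.BoxSpec g (bx p.a X.cls) X.cls.get k Nx Gam)
    (hn : n + 1 < (k.b + 1) ^ L) {s : St A} (o : Op) (I : Inv p c K k Nx Gam L s G H wk n)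
    (ho : G.ok o) (hG : (G.app o).Ok c) :
    Sp g (upd bx s o) fun r t => Oks K c' (G.app o) H r.2 ∧
      Inv p c K k Nx Gam L r.1 (G.app o) (apps H r.2) (wks wk r.2) (n + 1) ∧
      r.2.length + rcS k r.1 ≤ rcS k s + 2 * aU p.P k L ∧
      t + PhiS K k r.1 ≤ PhiS K k s + tU p.P K k L := by
  obtain ⟨p', X, d⟩ := s
  obtain ⟨rfl, hG0, G0, hX, I⟩ := inv_iff.1 I
  unfold upd
  refine Sp.bind (Q := UP p' K c' k Nx Gam L X G0 (G.app o) H wk d n) ?_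
    fun r t j => ⟨j.1, inv_iff.2 ⟨rfl, hG, G0, hX, j.2.1⟩, j.2.2.1, j.2.2.2⟩
  obtain ⟨e, _ | x⟩ := o
  · dsimp only
    split_ifs with a
    · exact sp_delO h hX (hb G0 X hX) hn I a hG
    · exact sp_delN h hX I (by simpa using a) (hG0.2.2 e ho).1 hG
  · exact sp_insN h hX (hb G0 X hX) hn I ho hG

end Crest.Agent.N325.Sg
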